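import Mathlib

/-! # P014X: small modules over a ramified ring are killed by `p` (helper92) -/

set_option autoImplicit false
set_option linter.all false

open Polynomial Finset

noncomputable section

namespace Vale.Agent.P014X.Ol

theorem poly {p : ℕ} (hp : p.Prime) (k : ℕ) : ∃ h : ℤ[X],
    ∑ i ∈ range p, (X + 1 : ℤ[X]) ^ (i * p ^ k) =
      X ^ ((p - 1) * p ^ k) + (p : ℤ[X]) * (1 + X * h) := by
  have := Fact.mk hp
  set Φ : ℤ[X] := ∑ i ∈ range p, (X + 1) ^ (i * p ^ k) with hΦ
  have a : (Φ - X ^ ((p - 1) * p ^ k)).map (Int.castRingHom (ZMod p)) = 0 := by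
    have b : ∀ Y : (ZMod p)[X], Y ≠ 0 → ∑ i ∈ range p, (Y + 1) ^ i = Y ^ (p - 1) := fun Y h =>
      mul_right_cancel₀ h (by
        have := geom_sum_mul (Y + 1) p
        rwa [add_sub_cancel_right, add_pow_char, one_pow, add_sub_cancel_right,
          ← pow_sub_one_mul hp.ne_zero Y] at this)
    simp only [hΦ, Polynomial.map_sub, Polynomial.map_sum, Polynomial.map_pow, Polynomial.map_add,
      map_X, Polynomial.map_one, mul_comm _ (p ^ k), pow_mul, add_pow_char_pow, one_pow]
    rw [b _ (pow_ne_zero _ X_ne_zero), sub_self]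
  have c : C (p : ℤ) ∣ Φ - X ^ ((p - 1) * p ^ k) := (C_dvd_iff_dvd_coeff _ _).2 fun i =>
    (ZMod.intCast_zmod_eq_zero_iff_dvd _ p).1 (by
      have := congrArg (coeff · i) a
      simpa only [coeff_map, coeff_zero, eq_intCast] using this)
  obtain ⟨u, hu⟩ := c
  have e : u.coeff 0 = 1 := by
    have := congrArg (eval 0) hu
    have p1 : p - 1 ≠ 0 := by have := hp.two_le; omega
    simp only [hΦ, eval_sub, eval_finset_sum, eval_pow, eval_add, eval_X, eval_one, zero_add,
      one_pow, sum_const, card_range, eval_mul, eval_C,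
      zero_pow (mul_ne_zero p1 (pow_ne_zero k hp.ne_zero)), sub_zero, nsmul_one] at this
    rw [coeff_zero_eq_eval_zero]
    exact mul_left_cancel₀ (Nat.cast_ne_zero.2 hp.ne_zero) (this.symm.trans (mul_one _).symm)
  refine ⟨u.divX, ?_⟩
  rw [← sub_eq_iff_eq_add', hu, map_natCast]
  conv_lhs => rw [← X_mul_divX_add u, e, C_1, add_comm]

section

variable {A : Type} [AddCommGroup A] {p : ℕ}

/-- the multiples of `p` -/
def db (p : ℕ) (A : Type) [AddCommGroup A] : AddSubgroup A := (nsmulAddMonoidHom p : A →+ A).range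

theorem low [Finite A] (hp : p.Prime) (f : Module.End ℤ A) (n : ℕ)
    (h0 : ∀ a, (f ^ (n + 1)) a ∈ db p A) (hi : (db p A).index < p ^ (n + 1)) (a : A) :
    (f ^ n) a ∈ db p A := by
  let P : ℕ → AddSubgroup A := fun i => db p A ⊔ (f ^ i).toAddMonoidHom.range
  have mem : ∀ i x, x ∈ P i ↔ ∃ b c, x = p • b + (f ^ i) c := fun i x => by
    simp only [P, AddSubgroup.mem_sup]
    exact ⟨fun ⟨_, ⟨b, hb⟩, _, ⟨c, hc⟩, k⟩ => ⟨b, c, by rw [← k, ← hb, ← hc]; rfl⟩,
      fun ⟨b, c, k⟩ => ⟨_, ⟨b, rfl⟩, _, ⟨c, rfl⟩, k.symm⟩⟩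
  have le : ∀ i, P (i + 1) ≤ P i := fun i x hx => by
    obtain ⟨b, c, rfl⟩ := (mem _ _).1 hx
    exact (mem _ _).2 ⟨b, f c, by rw [pow_succ, Module.End.mul_apply]⟩
  have st : ∀ i, P i ≤ P (i + 1) → P (i + 1) ≤ P (i + 2) := fun i h x hx => by
    obtain ⟨b, c, rfl⟩ := (mem _ _).1 hx
    obtain ⟨b', c', k⟩ := (mem _ _).1 (h ((mem i ((f ^ i) c)).2 ⟨0, c, by simp⟩))
    refine (mem _ _).2 ⟨b + f b', c', ?_⟩
    rw [pow_succ' f i, Module.End.mul_apply, k, map_add, map_nsmul, pow_succ' f (i + 1),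
      Module.End.mul_apply, nsmul_add, add_assoc]
  have top : P (n + 1) ≤ db p A := sup_le le_rfl (by rintro _ ⟨c, rfl⟩; exact h0 c)
  by_contra hc
  have ne : ∀ k i, i + k = n → ¬ P i ≤ P (i + 1) := by
    intro k
    induction k with
    | zero =>
      intro i hi' h
      rw [add_zero] at hi'
      subst hi'
      exact hc (top (h ((mem _ _).2 ⟨0, a, by simp⟩)))
    | succ k ih => exact fun i hi' h => ih (i + 1) (by omega) (st i h)
  have big : ∀ i, i ≤ n + 1 → p ^ i ∣ (P i).index := by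
    intro i
    induction i with
    | zero => exact fun _ => one_dvd _
    | succ i ih =>
      intro hi'
      have h2 : ¬ P i ≤ P (i + 1) := ne (n - i) i (by omega)
      rw [← AddSubgroup.relIndex_mul_index (le i), pow_succ']
      refine mul_dvd_mul ?_ (ih (by omega))
      obtain ⟨x, x1, x2⟩ := SetLike.not_le_iff_exists.1 h2
      have o : addOrderOf ((⟨x, x1⟩ : P i) : P i ⧸ (P (i + 1)).addSubgroupOf (P i)) = p :=
        have := Fact.mk hp
        addOrderOf_eq_prime (by
          rw [← QuotientAddGroup.mk_nsmul, QuotientAddGroup.eq_zero_iff]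
          exact AddSubgroup.mem_sup_left ⟨x, rfl⟩) fun z =>
            x2 ((QuotientAddGroup.eq_zero_iff (⟨x, x1⟩ : P i)).1 z)
      rw [← o]
      exact addOrderOf_dvd_natCard _
  have h5 := Nat.le_of_dvd (Nat.pos_of_ne_zero AddSubgroup.index_ne_zero_of_finite)
    (big (n + 1) le_rfl)
  rw [show P (n + 1) = db p A from le_antisymm top le_sup_left] at h5
  omega

theorem olem [Finite A] (hp : p.Prime) (s : Module.End ℤ A) (k : ℕ)
    (hs : ∑ i ∈ range p, s ^ (i * p ^ k) = 0) (hi : (db p A).index < p ^ ((p - 1) * p ^ k)) :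
    ¬ p ∣ Nat.card (db p A) := by
  obtain ⟨h, e⟩ := poly hp k
  obtain ⟨n, hn⟩ : ∃ n, (p - 1) * p ^ k = n + 1 := Nat.exists_eq_succ_of_ne_zero
    (mul_ne_zero (by have := hp.two_le; omega) (pow_ne_zero k hp.ne_zero))
  have e1 := congrArg (aeval (s - 1)) e
  simp only [map_sum, map_pow, map_add, map_one, aeval_X, map_mul, sub_add_cancel, hs,
    map_natCast] at e1
  rw [hn] at e1 hi
  generalize aeval (s - 1) h = g at e1
  generalize s - 1 = f at e1
  have h0 : ∀ a, (f ^ (n + 1)) a = p • (-a - f (g a)) := fun a => by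
    have := congrArg (fun φ : Module.End ℤ A => φ a) e1
    simp only [LinearMap.zero_apply, LinearMap.add_apply, Module.End.mul_apply,
      Module.End.natCast_apply, Module.End.one_apply] at this
    rw [eq_neg_of_add_eq_zero_left this.symm, ← neg_add', neg_nsmul]
  have h1 := low hp f n (fun a => ⟨_, (h0 a).symm⟩) hi
  have h2 : ∀ a, ∃ b, p • a = f (p • b) := fun a => by
    obtain ⟨c, hc⟩ := h1 a
    refine ⟨-c - g a, ?_⟩
    have := h0 a
    rw [pow_succ', Module.End.mul_apply, ← hc, nsmulAddMonoidHom_apply, nsmul_sub, neg_nsmul,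
      ← map_nsmul f] at this
    rw [nsmul_sub, neg_nsmul, map_sub, map_neg, this]
    abel
  have h3 : ∀ i a, ∃ b, p • a = (f ^ i) (p • b) := fun i => by
    induction i with
    | zero => exact fun a => ⟨a, rfl⟩
    | succ i ih =>
      intro a
      obtain ⟨b, hb⟩ := ih a
      obtain ⟨c, hc⟩ := h2 b
      exact ⟨c, by rw [hb, hc, pow_succ, Module.End.mul_apply]⟩
  have h4 : Function.Surjective (nsmulAddMonoidHom p : db p A →+ db p A) := by
    rintro ⟨_, a, rfl⟩
    obtain ⟨b, hb⟩ := h3 (n + 1) a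
    refine ⟨⟨p • (-b - f (g b)), _, rfl⟩, Subtype.ext ?_⟩
    show p • p • (-b - f (g b)) = p • a
    rw [hb, map_nsmul, h0]
  have h5 := Finite.injective_iff_surjective.2 h4
  intro k2
  have := Fact.mk hp
  obtain ⟨x, hx⟩ := exists_prime_addOrderOf_dvd_card' (G := db p A) p k2
  have : x = 0 := h5 (by
    rw [map_zero]
    exact (hx ▸ addOrderOf_nsmul_eq_zero x :))
  rw [this, addOrderOf_zero] at hx
  exact hp.one_lt.ne hx

end

variable {B : Type} [CommGroup B] [Finite B] {p : ℕ}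

theorem card_ker (n : ℕ) :
    Nat.card (powMonoidHom n : B →* B).ker = (powMonoidHom n : B →* B).range.index := by
  refine Nat.eq_of_mul_eq_mul_right (Nat.card_pos (α := (powMonoidHom n : B →* B).range)) ?_
  rw [Subgroup.index_mul_card, ← Subgroup.index_ker, Subgroup.card_mul_index]

theorem olem' (hp : p.Prime) (s : B →* B) (k : ℕ)
    (hs : ∀ x, ∏ i ∈ range p, s^[i * p ^ k] x = 1)
    (hi : (powMonoidHom p : B →* B).range.index < p ^ ((p - 1) * p ^ k)) :
    ¬ p ∣ Nat.card (powMonoidHom p : B →* B).range := by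
  refine olem (A := Additive B) hp (MonoidHom.toAdditive s).toIntLinearMap k ?_ hi
  ext x
  simp only [LinearMap.sum_apply, Module.End.pow_apply, LinearMap.zero_apply]
  exact (ofMul_prod _ _).symm.trans (congrArg Additive.ofMul (hs x.toMul))

/-- the order of `B` and the order of its `p`-torsion agree up to a factor prime to `p` -/
theorem olem2 (hp : p.Prime) (s : B →* B) (k : ℕ)
    (hs : ∀ x, ∏ i ∈ range p, s^[i * p ^ k] x = 1)
    (hi : Nat.card (powMonoidHom p : B →* B).ker < p ^ ((p - 1) * p ^ k)) :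
    ∃ o, ¬ p ∣ o ∧ Nat.card B = Nat.card (powMonoidHom p : B →* B).ker * o :=
  ⟨_, olem' hp s k hs (card_ker (B := B) p ▸ hi), by rw [card_ker, Subgroup.index_mul_card]⟩

end Vale.Agent.P014X.Ol
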