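import Vale.Agent.P014X.Ac.St
import Vale.Agent.P014X.Ac.Ol

/-! # P014X: the row `AMD` (helper92) -/

set_option autoImplicit false
set_option linter.all false

open Finset

noncomputable section

namespace Vale.Agent.P014X.Ac

/-- **AMD** -/
theorem amd : AMD := by
  intro B _ _ p k g hp _ h
  have := Fact.mk hp
  have c : Nat.card (nsmulAddMonoidHom p : B →+ B).ker = (Ol.db p B).index := by
    refine Nat.eq_of_mul_eq_mul_right (Nat.card_pos (α := Ol.db p B)) ?_
    rw [AddSubgroup.index_mul_card, Ol.db, ← AddSubgroup.index_ker, AddSubgroup.card_mul_index]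
  have i0 : (Ol.db p B).index ≠ 0 := AddSubgroup.index_ne_zero_of_finite
  rw [c]
  rcases lt_or_ge (Ol.db p B).index (p ^ ((p - 1) * p ^ k)) with a | a
  · have o := Ol.olem hp (AddMonoidHom.toIntLinearMap g) k (LinearMap.ext fun x => by
      simp only [LinearMap.sum_apply, Module.End.pow_apply, LinearMap.zero_apply, mul_comm _ (p ^ k)]
      exact (AddMonoidHom.finsetSum_apply (fun i => (g ^ (p ^ k * i) : AddMonoid.End B)) _
        x).symm.trans (congrArg (fun φ : AddMonoid.End B => φ x) h)) a
    refine (Nat.pow_le_pow_right hp.pos (min_le_left _ _)).trans ?_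
    rw [← AddSubgroup.index_mul_card (Ol.db p B), padicValNat.mul i0 Nat.card_pos.ne',
      padicValNat.eq_zero_of_not_dvd o, add_zero]
    exact Nat.le_of_dvd (Nat.pos_of_ne_zero i0) pow_padicValNat_dvd
  · exact (Nat.pow_le_pow_right hp.pos (min_le_right _ _)).trans a

end Vale.Agent.P014X.Ac
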