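import Vale.Agent.P014X.Ac.Lay

/-! # P014X, the anchor: glue -/

set_option autoImplicit false
set_option linter.all false

open NumberField NumberField.Units IsDedekindDomain Function Finset
open scoped Classical nonZeroDivisors

noncomputable section

namespace Vale.Agent.P014X.Ac

open Vale.Agent.P022 (Qb GQ GK)
open Cd (Tv)
open An (Pm nU vU Sp GAL LOC IDX Pair Cu sm)

namespace Ly

variable {F₀ F : Type} [Field F₀] [NumberField F₀] [Field F] [NumberField F]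

theorem am_val (φ : F₀ →+* F) (x : AM F₀) :
    ((Additive.toMul (am φ x) : Fˣ) : F) = φ (Additive.toMul x : F₀ˣ) := rfl

theorem am_ext {x y : AM F} (h : ((Additive.toMul x : Fˣ) : F) = (Additive.toMul y : Fˣ)) : x = y :=
  Additive.toMul.injective (Units.ext h)

variable (F) in
/-- the action on numbers -/
def rM : (F ≃+* F) →* AddMonoid.End (AM F) where
  toFun s := am s.toRingHom
  map_one' := AddMonoidHom.ext fun _ => am_ext rfl
  map_mul' _ _ := AddMonoidHom.ext fun _ => am_ext rfl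

variable (F) in
/-- the action on divisors -/
def rI (e : EXF) : (F ≃+* F) →* AddMonoid.End (AI F) where
  toFun s := ai s.toRingHom
  map_one' := AddMonoidHom.ext (e.2 F).1
  map_mul' s t := AddMonoidHom.ext (e.1 F F F t.toRingHom s.toRingHom).1

theorem nr_eq {M : Type} [AddCommGroup M] (f : (F ≃+* F) →* AddMonoid.End M) (p k : ℕ) (s) (x : M) :
    nr p k (f s) x = ∑ i ∈ range p, f ((s ^ p ^ k) ^ i) x := by
  refine (map_sum (AddMonoidHom.eval x) (fun i => (f s ^ (p ^ k * i) : AddMonoid.End M)) _).trans ?_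
  exact sum_congr rfl fun i _ => by rw [← pow_mul, map_pow]; rfl

theorem fixM [Algebra F₀ F] {n s} (c : Cc n F₀ s) (x : AM F) :
    x ∈ (am (algebraMap F₀ F)).range ↔ rM F s x = x := by
  refine ⟨?_, fun e => ?_⟩
  · rintro ⟨y, rfl⟩
    exact am_ext ((c.fix _).2 ⟨_, rfl⟩)
  · obtain ⟨y, h⟩ := (c.fix _).1 (congrArg (fun x => ((Additive.toMul x : Fˣ) : F)) e)
    exact ⟨Additive.ofMul (Units.mk0 y fun k => (Additive.toMul x).ne_zero (by rw [← h, k, map_zero])),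
      am_ext h⟩

theorem val_sum {ι : Type} (s : Finset ι) (f : ι → AM F) :
    ((Additive.toMul (∑ i ∈ s, f i) : Fˣ) : F) = ∏ i ∈ s, ((Additive.toMul (f i) : Fˣ) : F) := by
  rw [toMul_sum, Units.coe_prod]

theorem pw_eq (p : ℕ) : Ac.pw (AM F) p = (powMonoidHom p : Fˣ →* Fˣ).range.toAddSubgroup :=
  AddSubgroup.ext fun _ => Iff.rfl

theorem rel {G M : Type} [CommGroup G] [AddCommGroup M] (f : Additive G →+ M) (i : Injective f)
    (C U : Subgroup G) : (C.toAddSubgroup.map f).relIndex (U.toAddSubgroup.map f) = C.relIndex U := by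
  rw [AddSubgroup.relIndex_map_map_of_injective _ _ i, Subgroup.relIndex_toAddSubgroup]

theorem cop {H : Subgroup GQ} {p : ℕ} (hp : p.Prime) (p2 : p ≠ 2) {x : GQ} (a : x ^ p ∈ H)
    (b : x * x ∈ H) : x ∈ H := by
  obtain ⟨q, e⟩ := hp.odd_of_ne_two p2
  have := mul_mem (inv_mem (pow_mem b q)) a
  rwa [e, ← pow_two, ← pow_mul, pow_succ, inv_mul_cancel_left] at this

theorem ind {G M : Type} [CommGroup G] [AddCommGroup M] (f : Additive G →+ M) (K : AddSubgroup M)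
    (s : Set G) (h : ∀ v ∈ s, f (Additive.ofMul v) ∈ K) :
    (Subgroup.closure s).toAddSubgroup.map f ≤ K :=
  AddSubgroup.map_le_iff_le_comap.2 fun _ x =>
    (Subgroup.closure_le (AddSubgroup.toSubgroup' (K.comap f))).2 h x

theorem ari {p r n n0 n1 n2 k k0 k1 k2 : ℕ} (hp : 0 < p) (hr : 2 * p * r = (p - 1) * n)
    (a : k + 1 = n) (a0 : k0 + 1 = n0) (a1 : k1 + 1 = n1) (a2 : k2 + 1 = n2) (m1 : n = 2 * n1)
    (m3 : n0 = 2 * n2) (a5 : n1 = p * n2) : r + k0 + k1 ≤ k + k2 := by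
  obtain ⟨q, rfl⟩ : ∃ q, p = q + 1 := ⟨p - 1, (Nat.sub_add_cancel hp).symm⟩
  rw [m1, a5, Nat.add_sub_cancel,
    show q * (2 * ((q + 1) * n2)) = 2 * (q + 1) * (q * n2) by ring] at hr
  have := Nat.eq_of_mul_eq_mul_left (by positivity) hr
  rw [add_mul] at a5
  omega

theorem sm0 {a : ℕ} (h : 1 < a) (H G g) : sm a H G g ≠ 0 := by
  by_cases e : H.relIndex (Subgroup.zpowers g) = 0
  · simp [sm, e]
  · exact pow_ne_zero _ (Nat.sub_ne_zero_of_lt (Nat.one_lt_pow (by omega) h))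

end Ly

open Ly

theorem anc (gal : GAL) (loc : LOC) (idx : IDX) (exf : EXF) (jsf : JSF) (nrm : NRM) (trp : TRP)
    (smu : SMU) (rnk : RNK) (paa : PAA) : ANC := by
  intro A B D cf eu p k a j r m hp p2 es a1 hd pa F _ _ jF γ ι g ζ T u S Q hζ ac hg tT hu hS hr W Z
    hW hZ w0 z0 lt
  set σ := γ ^ p ^ k with hσ
  have σG : σ ∈ D.G := pow_mem Q.g0 _
  have σp : σ ^ p ∈ GK jF := by rw [hσ, ← pow_mul, ← pow_succ]; exact Q.gp
  have b := ab1 gal cf hd.ne Q.G Q.hm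
  obtain ⟨c, hc⟩ := b.res γ Q.g0
  obtain ⟨t, ht⟩ := b.res ι Q.i0
  have hs : ∀ x, jF ((c ^ p ^ k) x) = σ (jF x) := Ly.pw hc _
  set s := c ^ p ^ k with es'
  have i2 : ι ^ 2 ∈ GK jF := by rw [pow_two]; exact Q.i2
  haveI := nf s
  haveI := nf t
  have c0 : Cc p (Fx s) s := ⟨ord hs hp Q.g1 σp, hp.ne_zero, fx s⟩
  have c1 : Cc 2 (Fx t) t := ⟨ord ht Nat.prime_two Q.i1 i2, two_ne_zero, fx t⟩
  set φ0 := algebraMap (Fx s) F with e0
  set φ1 := algebraMap (Fx t) F with e1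
  have k0 := b.gk c0 σG hs
  have k1 := fun g => (b.gk c1 Q.i0 ht g).trans (two Q.i2)
  have b0 := ab1 gal cf hd.ne (b.gG c0 σG hs) (Q.hm.trans (le φ0))
  have b1 := ab1 gal cf hd.ne (b.gG c1 Q.i0 ht) (Q.hm.trans (le φ1))
  have ct : c * t = t * c := RingEquiv.ext fun x => jF.injective (by
    rw [show (c * t) x = c (t x) from rfl, show (t * c) x = t (c x) from rfl, hc, ht, ht, hc,
      b.cm Q.g0 Q.i0])
  have n0 : ∀ i : ℕ, (σ ^ i)⁻¹ * ι ∉ GK jF := fun i h => Q.i1 (cop hp p2 (fun x => by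
    have e : s ^ i = t := RingEquiv.ext fun x => jF.injective (by
      rw [Ly.pw hs, ht, ← mul_inv_cancel_left (σ ^ i) ι, AlgEquiv.mul_apply, h x])
    rw [← Ly.pw ht, ← e, ← pow_mul, mul_comm, pow_mul, ← c0.ord, pow_orderOf_eq_one, one_pow]
    rfl) Q.i2)
  have ι0 : ι ∉ GK (jF.comp φ0) := fun h => ((k0 ι).1 h).elim n0
  have n1 : ∀ (i : ℕ) x, x ∉ GK jF → (σ ^ i)⁻¹ * x ∈ GK jF → x ∉ GK (jF.comp φ1) := fun i x h e l =>
    ((k1 x).1 l).elim h fun l => n0 i (by simpa [mul_assoc] using mul_mem e (inv_mem l))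
  have σ1 : σ ∉ GK (jF.comp φ1) := n1 1 σ Q.g1 (by simp)
  obtain ⟨s1, hs1⟩ := b1.res σ σG
  obtain ⟨t0, ht0⟩ := b0.res ι Q.i0
  haveI := nf s1
  have c2 : Cc p (Fx s1) s1 := ⟨ord hs1 hp σ1 (le φ1 σp), hp.ne_zero, fx s1⟩
  set φ2 := algebraMap (Fx s1) (Fx t) with e2
  have ss : ∀ x, φ1 (s1 x) = s (φ1 x) := fun x => jF.injective ((hs1 x).trans (hs _).symm)
  have tt : ∀ x, φ0 (t0 x) = t (φ0 x) := fun x => jF.injective ((ht0 x).trans (ht _).symm)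
  let ψ : Fx s1 →+* Fx s := (φ1.comp φ2).codRestrict (Fx s) fun x =>
    (ss _).symm.trans (congrArg φ1 x.2)
  have eψ : φ0.comp ψ = φ1.comp φ2 := rfl
  letI : Algebra (Fx s1) (Fx s) := ψ.toAlgebra
  have c3 : Cc 2 (Fx s1) t0 := by
    refine ⟨ord ht0 Nat.prime_two ι0 (le φ0 i2), two_ne_zero, fun x => ⟨fun e => ?_, ?_⟩⟩
    · have e' : t (φ0 x) = φ0 x := by rw [← tt, e]
      exact ⟨⟨⟨φ0 x, e'⟩, φ1.injective ((ss _).trans x.2)⟩, rfl⟩
    · rintro ⟨y, rfl⟩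
      exact φ0.injective ((tt _).trans y.1.2)
  have k2 := b1.gk c2 σG hs1
  have k3 := fun g => (b0.gk c3 Q.i0 ht0 g).trans (two (le φ0 Q.i2))
  have b2 := ab1 gal cf hd.ne (b1.gG c2 σG hs1) (b1.hm.trans (le φ2))
  have P0 : Pair D p m (Fx s) jF σ := ⟨b0.G, Q.hm, (k0 σ).2 ⟨1, by simp⟩, Q.g1, σp,
    fun g h => (k0 g).1 h, fun P h l => by
      obtain ⟨g, d, x, y⟩ := Q.ns P h l
      exact ⟨g, d, (k0 g).2 y, x⟩⟩
  have P1 : Pair D p m (Fx s1) (jF.comp φ1) σ := ⟨b2.G, b1.hm, (k2 σ).2 ⟨1, by simp⟩, σ1, le φ1 σp,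
    fun g h => (k2 g).1 h, fun P h l => by
      obtain ⟨g, d, x, i, y⟩ := Q.ns P h l
      exact ⟨g, d, (k2 g).2 ⟨i, le φ1 y⟩, n1 i g x y⟩⟩
  obtain ⟨S0, hS0⟩ := b0.sp
  obtain ⟨S1, hS1⟩ := b1.sp
  obtain ⟨S2, hS2⟩ := b2.sp
  obtain ⟨T1, tT1, hT1⟩ := tv tT Q.hm Q.i1 k1 (D.un a m)
  have tt1 : t * t = 1 := by rw [← pow_two, ← c1.ord, pow_orderOf_eq_one]
  let u1 : Fx t := ⟨u * t u, show t (u * t u) = u * t u by
    rw [map_mul, show t (t u) = (t * t) u from rfl, tt1, mul_comm]; rfl⟩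
  have ju : (jF.comp φ1) u1 = jF u * ι (jF u) := by rw [← ht, ← map_mul]; rfl
  obtain ⟨x1, x2, -, x3, q0, x4⟩ := idx A B D cf eu p a m hp p2 es a1 hd (Fx s) F jF σ g ζ T u S P0
    hζ ac tT hu hS
  obtain ⟨y1, y2, -, y3, q1, y4⟩ := idx A B D cf eu p a m hp p2 es a1 hd (Fx s1) (Fx t) (jF.comp φ1)
    σ g ζ T1 u1 S1 P1 hζ ac tT1 (by rw [ju, hT1, hu]) hS1
  set v := σ (jF u) / jF u with hv
  set v1 := σ ((jF.comp φ1) u1) / (jF.comp φ1) u1 with hv1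
  have ev : ∀ h ∈ D.G, h v1 = h v * ι (h v) := fun h l => by
    obtain ⟨w, e⟩ := x1 1 (one_mem _)
    have e : jF (vU w) = v := e
    rw [hv1, ju, map_mul, mul_div_mul_comm, ← hv, b.cm σG Q.i0, ← map_div₀, ← hv, map_mul, ← e,
      b.cm l Q.i0]
  have jJ : ∀ {τ : F ≃+* F} {h}, h ∈ D.G → (∀ x, jF (τ x) = h (jF x)) → ∀ x ∈ Js S,
      rI F exf τ x ∈ Js S := fun l e x z => (jsf.2 F F _ S S (ab_self cf b hS l e) x).2 z
  let Y : Mn (AM F) (AI F) p k := ⟨ad F, rM F c, rI F exf c, rM F t, rI F exf t, Js S, (am φ0).range,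
    (am φ1).range, (ai φ0).range, (ai φ1).range, (ai (φ1.comp φ2)).range,
    (Cu D jF v).toAddSubgroup.map ((am (RingHom.id F)).comp (au F)),
    (Cu D (jF.comp φ1) v1).toAddSubgroup.map ((am φ1).comp (au (Fx t)))⟩
  have hN : ∀ x, Y.X.N x = ∑ i ∈ range p, am (s ^ i).toRingHom x := nr_eq (rM F) p k c
  have hN' : ∀ x, Y.X.N' x = ∑ i ∈ range p, ai (s ^ i).toRingHom x := nr_eq (rI F exf) p k c
  have da : ∀ (τ : F ≃+* F) x, ad F (rM F τ x) = rI F exf τ (ad F x) := fun τ x =>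
    ((exf.1 F F F _ (RingHom.id F)).2.1 x).symm
  have com : ∀ x, Y.X.d (Y.X.N x) = Y.X.N' (Y.X.d x) := fun x => by
    rw [hN, hN', map_sum]
    exact sum_congr rfl fun i _ => da _ x
  have NJ : ∀ x ∈ Y.X.J, Y.X.N' x ∈ Y.X.J := fun x z => by
    rw [hN']
    exact sum_mem fun i _ => jJ (pow_mem σG i) (Ly.pw hs i) x z
  have si : ∀ (i : ℕ) x, (s ^ i) (φ1 x) = φ1 ((s1 ^ i) x) := fun i x =>
    jF.injective ((Ly.pw hs i _).trans (Ly.pw hs1 i x).symm)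
  have cp := fun (F₀ F₁ F : Type) [Field F₀] [NumberField F₀] [Field F₁] [NumberField F₁] [Field F]
    [NumberField F] (φ : F₀ →+* F₁) (ψ : F₁ →+* F) => (exf.1 F₀ F₁ F φ ψ).1
  obtain ⟨l0, h1, h0, e0', f0, -, r0, U0, j0⟩ := trp p (Fx s) F F s (RingHom.id F) Y.X S0 S S c0
    (ab (b0.sur m) hS0 hS) (ab (b.sur m) hS hS)
    (loc A B D cf p m hp hd.ne (Fx s) F jF σ S0 S P0 hS0 hS).1 rfl rfl com NJ hN
    (fun x => by rw [(exf.2 F).1, (exf.2 F).1, hN']) ⊤ Y.M0 ⊤ Y.I0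
    (AddMonoidHom.range_eq_top.2 fun x => ⟨x, rfl⟩).symm rfl
    (AddMonoidHom.range_eq_top.2 fun x => ⟨x, (exf.2 F).1 x⟩).symm rfl
  obtain ⟨lp, g1, g0, e1', f1, r1, r2, U1, j1⟩ := trp p (Fx s1) (Fx t) F s1 φ1 Y.X S2 S1 S c2
    (ab (b2.sur m) hS2 hS1) (ab (b1.sur m) hS1 hS)
    (loc A B D cf p m hp hd.ne (Fx s1) (Fx t) _ σ S2 S1 P1 hS2 hS1).1 rfl rfl com NJ
    (fun x => by
      rw [hN, map_sum]
      exact sum_congr rfl fun i _ => am_ext (si i _))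
    (fun x => by
      rw [hN', map_sum]
      refine sum_congr rfl fun i _ => ?_
      rw [← cp, ← cp]
      exact congrArg (ai · x) (RingHom.ext (si i)))
    Y.Mp (Y.M0 ⊓ Y.Mp) Y.Ip Y.Iq rfl (le_antisymm (by
      rintro _ ⟨z, y, rfl⟩
      obtain ⟨w, rfl⟩ := (fixM c2 y).2 (am_ext (φ1.injective ((ss _).trans
        (congrArg (fun x => ((Additive.toMul x : Fˣ) : F)) ((fixM c0 _).1 z)))))
      exact ⟨w, rfl⟩) (by
      rintro _ ⟨w, rfl⟩
      exact ⟨⟨am ψ w, rfl⟩, am φ2 w, rfl⟩)) rfl rfl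
  have s2 : ∀ {L : Type} [Field L] [NumberField L] (τ : L ≃+* L) (x : AI L),
      ∑ i ∈ range 2, ai (τ ^ i).toRingHom x = x + ai τ.toRingHom x := fun τ x => by
    rw [sum_range_succ, sum_range_one, pow_one, pow_zero]
    exact congrArg (· + _) ((exf.2 _).1 x)
  have cp' : c ^ p ^ (k + 1) = 1 := by rw [pow_succ, pow_mul, ← es', ← c0.ord, pow_orderOf_eq_one]
  have ok : Y.Ok := by
    refine ⟨⟨hp, p2, da c, da t, ?_, ?_, ?_, ?_, ?_, ?_, jJ Q.g0 hc, jJ Q.i0 ht, fun x => ?_, fixM c1,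
      l0, lp, fun x => ?_, ?_, ?_, ?_, ?_, (jsf.1 F S p hp.ne_zero).1, fun x z => ?_,
      ?_, le_inf (ind _ _ _ ?_) ?_, ?_⟩, fun x z => ?_⟩
    · exact ((rM F).map_mul c t).symm.trans (ct ▸ (rM F).map_mul t c)
    · exact ((rI F exf).map_mul c t).symm.trans (ct ▸ (rI F exf).map_mul t c)
    · exact (map_pow (rM F) c _).symm.trans (cp' ▸ map_one _)
    · exact (map_pow (rI F exf) c _).symm.trans (cp' ▸ map_one _)
    · exact ((rM F).map_mul t t).symm.trans (tt1 ▸ map_one _)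
    · exact ((rI F exf).map_mul t t).symm.trans (tt1 ▸ map_one _)
    · exact (fixM c0 x).trans (by rw [es', map_pow])
    · exact s2 t x ▸ (nrm 2 (Fx t) F t c1).2.1 x
    · rintro _ ⟨x, rfl⟩
      obtain ⟨y, e⟩ := (nrm 2 (Fx s1) (Fx s) t0 c3).2.1 x
      refine ⟨y, ?_⟩
      rw [← eψ, cp, show ai ψ y = _ from e, s2, map_add, ← cp,
        show φ0.comp t0.toRingHom = t.toRingHom.comp φ0 from RingHom.ext tt, cp]
      rfl
    · rintro _ ⟨x, rfl⟩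
      exact (cp _ _ _ φ1 t.toRingHom x).symm.trans (congrArg (ai · x) (RingHom.ext fun y => y.2))
    · rintro _ ⟨x, rfl⟩
      exact ⟨ai ψ x, (cp _ _ _ ψ φ0 x).symm⟩
    · rintro _ ⟨x, rfl⟩
      exact ⟨ai φ2 x, (cp _ _ _ φ2 φ1 x).symm⟩
    · have := (jsf.1 F ∅ p hp.ne_zero).1 x (z ▸ zero_mem _)
      simpa [Js] using this
    · exact (AddSubgroup.map_mono x2).trans (U0.ge.trans inf_le_left)
    · rintro w ⟨h, l, e⟩
      obtain ⟨w1, z1⟩ := x1 h l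
      obtain ⟨w2, z2⟩ := x1 (ι * h) (mul_mem Q.i0 l)
      have z3 : w1 * w2 ∈ Cu D jF v := mul_mem (Subgroup.subset_closure ⟨h, l, z1⟩)
        (Subgroup.subset_closure ⟨_, mul_mem Q.i0 l, z2⟩)
      refine ⟨Additive.ofMul (w1 * w2), z3, am_ext (jF.injective ?_)⟩
      refine .trans ?_ ((ev h l).symm.trans e.symm)
      rw [← z1, z1, ← AlgEquiv.mul_apply, ← z2, ← z1, ← map_mul]
      rfl
    · rintro _ ⟨w, -, rfl⟩
      exact ⟨_, rfl⟩
    · suffices h : Y.C ≤ Y.Cp.comap (AddMonoidHom.id _ + am t.toRingHom) from fun x z => h z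
      refine ind _ _ _ ?_
      rintro w ⟨h, l, e⟩
      obtain ⟨w1, z1⟩ := y1 h l
      have z3 : w1 ∈ Cu D (jF.comp φ1) v1 := Subgroup.subset_closure ⟨h, l, z1⟩
      refine ⟨Additive.ofMul w1, z3, am_ext (jF.injective ?_)⟩
      refine z1.trans ((ev h l).trans ?_)
      rw [← e, ← ht, ← map_mul]
      rfl
    · refine am_ext (jF.injective ((ht _).trans (Q.mu _ ?_)))
      rw [← map_pow, ← Units.val_pow_eq_pow_val, ← toMul_nsmul, z]
      simp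
  haveI := Fact.mk hp
  obtain ⟨m1, m2⟩ := smu p a j _ _ D.G ι g hp p2 a1 pa b.G Q.i0 ac.1 b.com (b.rk ▸ Nat.succ_ne_zero _)
    Q.i1 Q.i2 hg k1
  obtain ⟨m3, m4⟩ := smu p a j _ (GK ((jF.comp φ1).comp φ2)) D.G ι g hp p2 a1 pa b0.G Q.i0 ac.1 b0.com
    (b0.rk ▸ Nat.succ_ne_zero _) ι0 (le φ0 Q.i2) (le φ0 hg) k3
  have i0 : Y.C.relIndex Y.X.U = (Cu D jF v).relIndex (nU (Fx s) F).ker := by
    rw [← inf_top_eq Y.X.U, U0]
    exact rel _ j0 _ _
  have i1 : Y.Cp.relIndex (Y.X.U ⊓ Y.Mp) = (Cu D (jF.comp φ1) v1).relIndex (nU (Fx s1) (Fx t)).ker := by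
    rw [U1]
    exact rel _ j1 _ _
  have w1 : Y.C.relIndex Y.X.U * Y.X.h Y.M0 Y.I0 * sm a (GK (jF.comp φ0)) D.G g ≠ 0 := by
    rw [i0, h0]
    exact mul_ne_zero (mul_ne_zero x3 (classNumber_ne_zero _)) (sm0 a1 _ _ _)
  have w2 : Y.Cp.relIndex (Y.X.U ⊓ Y.Mp) * Y.X.h (Y.M0 ⊓ Y.Mp) Y.Iq *
      sm a (GK ((jF.comp φ1).comp φ2)) D.G g ≠ 0 := by
    rw [i1, g0]
    exact mul_ne_zero (mul_ne_zero y3 (classNumber_ne_zero _)) (sm0 a1 _ _ _)
  have hr' := rnk _ _ p k Y r ok (exf.2 F).2.2.2.1 (fun e => w2 (by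
    rw [i1, g0, y4, ← e1', e]; simp)) (by
    rw [show Module.finrank ℤ ↥(Y.M0 ⊓ Y.d.ker) = _ from r0,
      show Module.finrank ℤ ↥(Y.Mp ⊓ Y.d.ker) = _ from r1,
      show Module.finrank ℤ ↥(Y.M0 ⊓ Y.Mp ⊓ Y.d.ker) = _ from r2,
      show Module.finrank ℤ Y.d.ker = _ from (exf.2 F).2.2.2.2.1]
    exact ari hp.pos hr b.rk b0.rk b1.rk b2.rk m1 m3 (b1.idx c2 σG hs1))
  have v2 : ∀ q, padicValNat p (2 ^ q) = 0 := fun q => padicValNat.eq_zero_of_not_dvd fun h =>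
    p2 ((Nat.prime_dvd_prime_iff_eq hp Nat.prime_two).1 (hp.dvd_of_dvd_pow h))
  have := paa _ _ p k Y r _ (2 ^ q0 * sm a (GK jF) D.G g) _ (2 ^ q1 * sm a (GK (jF.comp φ1)) D.G g) ok
    hr' w1 w2 (by rw [i0, h0, x4, e0', h1, f0]; ring) (by rw [i1, g0, y4, e1', g1, f1]; ring) (by
      have := sm0 a1
      rw [padicValNat.mul (mul_ne_zero (by positivity) (this _ _ _)) (this _ _ _),
        padicValNat.mul (this _ _ _) (mul_ne_zero (by positivity) (this _ _ _)),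
        padicValNat.mul (by positivity) (this _ _ _), padicValNat.mul (by positivity) (this _ _ _),
        v2, v2, m2, m4, add_comm]) W.toAddSubgroup Z.toAddSubgroup ?_ ?_
  · simp only [pw_eq, Subgroup.relIndex_toAddSubgroup] at this
    exact this w0 z0 lt
  · rintro x ⟨⟨z1, y, z2⟩, y', z3⟩
    refine hW (Additive.toMul x) ((jsf.1 F S p hp.ne_zero).2 _ z1) ⟨(Additive.toMul y : Fˣ), ?_⟩
      ⟨(Additive.toMul y' : Fˣ), ?_⟩
    · have := congrArg (fun x => jF ((Additive.toMul x : Fˣ) : F)) (z2.trans (hN x))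
      simp only [val_sum, map_prod] at this
      rw [← map_pow]
      exact (prod_congr rfl fun i _ => (Ly.pw hs i _).symm).trans this.symm
    · rw [← ht, ← map_mul, ← map_pow]
      exact congrArg (fun x => jF ((Additive.toMul x : Fˣ) : F)) z3.symm
  · refine AddSubgroup.map_le_iff_le_comap.2 (ind _ _ _ ?_)
    rintro w ⟨h, l, e⟩
    refine hZ _ h l ?_
    rw [← e, ← ht, ← map_div₀]
    exact congrArg jF (Units.val_div_eq_div_val _ _)

end Vale.Agent.P014X.Ac
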