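import Mathlib.GroupTheory.Index
import Mathlib.Algebra.Group.Subgroup.Order
import Mathlib.GroupTheory.Perm.Cycle.Type
import Mathlib.NumberTheory.Padics.PadicVal.Basic

/-! # P014X, the anchor: indices -/

set_option autoImplicit false
set_option linter.all false

namespace Vale.Agent.P014X.Ac

open AddSubgroup

variable {A B : Type} [AddCommGroup A] [AddCommGroup B]

/-- the index is the product of the index of the images and the index in the kernel -/
theorem ix (φ : A →+ B) {R P : AddSubgroup A} (h : R ≤ P) :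
    R.relIndex P = (R.map φ).relIndex (P.map φ) * (R ⊓ φ.ker).relIndex (P ⊓ φ.ker) := by
  rw [← relIndex_mul_relIndex R ((R ⊔ φ.ker) ⊓ P) P (le_inf le_sup_left h) inf_le_right,
    inf_relIndex_right, sup_inf_assoc_of_le _ h, relIndex_sup_left, ← comap_map_eq, relIndex_comap,
    mul_comm, inf_comm φ.ker, ← inf_relIndex_right R, ← inf_assoc, inf_eq_left.2 h]

theorem dvd_right (R : AddSubgroup A) {Q P : AddSubgroup A} (h : Q ≤ P) :
    R.relIndex Q ∣ R.relIndex P := by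
  rw [← inf_relIndex_right R P, ← relIndex_mul_relIndex (R ⊓ P) (Q ⊔ R ⊓ P) P le_sup_right
    (sup_le h inf_le_right), relIndex_sup_right, ← inf_relIndex_right (R ⊓ P), inf_assoc,
    inf_eq_right.2 h, inf_relIndex_right]
  exact dvd_mul_right _ _

theorem ne_right (R : AddSubgroup A) {Q P : AddSubgroup A} (h : Q ≤ P) (n : R.relIndex P ≠ 0) :
    R.relIndex Q ≠ 0 := ne_zero_of_dvd_ne_zero n (dvd_right R h)

/-- a quotient which is killed by a number prime to `p` -/
theorem not_dvd {p n : ℕ} (hp : p.Prime) (hn : ¬ p ∣ n) {R P : AddSubgroup A}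
    (h : ∀ x ∈ P, n • x ∈ R) (n0 : R.relIndex P ≠ 0) : ¬ p ∣ R.relIndex P := fun k => by
  have := Fact.mk hp
  have : Finite (P ⧸ R.addSubgroupOf P) := Nat.finite_of_card_ne_zero n0
  obtain ⟨x, hx⟩ := exists_prime_addOrderOf_dvd_card' (G := P ⧸ R.addSubgroupOf P) p k
  obtain ⟨x, rfl⟩ := QuotientAddGroup.mk_surjective x
  refine hn (hx ▸ addOrderOf_dvd_of_nsmul_eq_zero ?_)
  rw [← QuotientAddGroup.mk_nsmul, QuotientAddGroup.eq_zero_iff]
  exact h x x.2

/-- a map of finite quotients whose kernel is killed by a number prime to `p` -/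
theorem cop {p n : ℕ} (hp : p.Prime) (hn : ¬ p ∣ n) (φ : A →+ B) {R P : AddSubgroup A}
    {R' P' : AddSubgroup B} (hP : ∀ x ∈ P, φ x ∈ P') (hR : ∀ x ∈ R, φ x ∈ R')
    (hk : ∀ x ∈ P, φ x ∈ R' → n • x ∈ R) (n0 : R.relIndex P ≠ 0) (n1 : R'.relIndex P' ≠ 0) :
    padicValNat p (R.relIndex P) ≤ padicValNat p (R'.relIndex P') := by
  have := Fact.mk hp
  have e := relIndex_mul_relIndex (R ⊓ P) (R'.comap φ ⊓ P) P (inf_le_inf_right _ hR) inf_le_right
  rw [inf_relIndex_right, inf_relIndex_right, relIndex_comap] at e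
  rw [← e] at n0 ⊢
  rw [padicValNat.mul (left_ne_zero_of_mul n0) (right_ne_zero_of_mul n0),
    padicValNat.eq_zero_of_not_dvd (not_dvd hp hn (R := R ⊓ P) (P := R'.comap φ ⊓ P)
      (fun x k => ⟨hk x k.2 k.1, nsmul_mem k.2 n⟩)
      (left_ne_zero_of_mul n0)), zero_add, ← padicValNat_dvd_iff_le n1]
  exact pow_padicValNat_dvd.trans (dvd_right R' (map_le_iff_le_comap.2 hP))

theorem two {p : ℕ} (hp : p.Prime) (h2 : p ≠ 2) (φ : A →+ B) {R P : AddSubgroup A}
    {R' P' : AddSubgroup B} (hP : ∀ x ∈ P, φ x ∈ P') (hR : ∀ x ∈ R, φ x ∈ R')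
    (hk : ∀ x ∈ P, φ x ∈ R' → 2 • x ∈ R) (n0 : R.relIndex P ≠ 0) (n1 : R'.relIndex P' ≠ 0) :
    padicValNat p (R.relIndex P) ≤ padicValNat p (R'.relIndex P') :=
  cop hp (fun k => h2 ((Nat.prime_dvd_prime_iff_eq hp Nat.prime_two).1 k)) φ hP hR hk n0 n1

end Vale.Agent.P014X.Ac
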