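import Vale.Agent.P014X.Ac.St
import Vale.Agent.P014X.Ac.Ix

/-! # P014X, the anchor: the order of the quotient of the pairs -/

set_option autoImplicit false
set_option linter.all false

namespace Vale.Agent.P014X.Ac

open AddSubgroup

namespace Bq

variable {M I : Type} [AddCommGroup M] [AddCommGroup I] {X : Dp M I} {M₁ M₀ : AddSubgroup M}
  {I₁ I₀ : AddSubgroup I}

theorem mem_P {z : M × I} : z ∈ X.P M₀ I₁ ↔ z.1 ∈ M₀ ∧ z.2 ∈ I₁ ∧ X.d z.1 - X.N' z.2 ∈ X.J := by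
  simp [Dp.P, mem_prod, and_assoc, sub_eq_add_neg]

theorem mem_R {z : M × I} : z ∈ X.R M₁ I₁ ↔
    ∃ x ∈ M₁, ∃ D ∈ I₁, D ∈ X.J ∧ z = (X.N x, X.d x + D) := by
  rw [Dp.R, mem_sup]
  constructor
  · rintro ⟨_, ⟨x, hx, rfl⟩, ⟨y, D⟩, ⟨h1, h2⟩, rfl⟩
    obtain rfl : y = 0 := h1
    exact ⟨x, hx, D, h2.1, h2.2, by simp⟩
  · rintro ⟨x, hx, D, h1, h2, rfl⟩
    exact ⟨_, ⟨x, hx, rfl⟩, (0, D), ⟨rfl, h1, h2⟩, by simp⟩

theorem R_le (L : X.Lp M₁ M₀ I₁ I₀) : X.R M₁ I₁ ≤ X.P M₀ I₁ := fun z h => by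
  obtain ⟨x, hx, D, h1, h2, rfl⟩ := mem_R.1 h
  refine mem_P.2 ⟨L.n x hx, add_mem (L.d1 x hx) h1, ?_⟩
  simpa [L.com] using L.NJ D h2

end Bq

open Bq

theorem beq : BEQ := by
  intro M I _ _ X M₁ M₀ I₁ I₀ L h0
  refine ⟨R_le L, ne_zero_of_dvd_ne_zero h0 (relIndex_dvd_of_le_left _
    (le_sup_left.trans le_sup_left)), ?_⟩
  set δ : M × I →+ I := X.d.coprod (-X.N')
  have hδ : ∀ z, δ z = X.d z.1 - X.N' z.2 := fun z => by simp [δ, sub_eq_add_neg]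
  set T := M₀.map X.d ⊔ I₁.map X.N'
  have tI : T ≤ I₀ := sup_le (map_le_iff_le_comap.2 L.d0) (map_le_iff_le_comap.2 L.n')
  have r0 : X.R M₁ I₁ ⊓ δ.ker = M₁.map (X.N.prod X.d) := by
    refine le_antisymm ?_ (le_inf le_sup_left ?_)
    · rintro z ⟨h, k⟩
      obtain ⟨x, hx, D, h1, h2, rfl⟩ := mem_R.1 h
      have k : δ _ = 0 := k
      obtain rfl : D = 0 := L.inj D h1 h2 (by simpa [hδ, L.com] using k)
      exact ⟨x, hx, by simp⟩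
    · rintro _ ⟨x, -, rfl⟩
      show δ _ = 0
      simp [hδ, L.com]
  have a1 : (X.P M₀ I₁).map δ = T ⊓ (I₀ ⊓ X.J) := by
    refine le_antisymm ?_ ?_
    · rintro _ ⟨z, h, rfl⟩
      obtain ⟨h1, h2, h3⟩ := mem_P.1 h
      have : δ z ∈ T := hδ z ▸ sub_mem (mem_sup_left ⟨_, h1, rfl⟩) (mem_sup_right ⟨_, h2, rfl⟩)
      exact ⟨this, tI this, hδ z ▸ h3⟩
    · rintro y ⟨h, k⟩
      obtain ⟨_, ⟨x, hx, rfl⟩, _, ⟨D, hD, rfl⟩, rfl⟩ := mem_sup.1 h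
      exact ⟨(x, -D), mem_P.2 ⟨hx, neg_mem hD, by simpa using k.2⟩, by simp [hδ]⟩
  have a2 : (X.R M₁ I₁).map δ = (I₁ ⊓ X.J).map X.N' := by
    refine le_antisymm ?_ ?_
    · rintro _ ⟨z, h, rfl⟩
      obtain ⟨x, hx, D, h1, h2, rfl⟩ := mem_R.1 h
      exact ⟨-D, neg_mem (mem_inf.2 ⟨h1, h2⟩), by simp [hδ, L.com]⟩
    · rintro _ ⟨D, h, rfl⟩
      exact ⟨_, mem_R.2 ⟨0, zero_mem _, -D, neg_mem h.1, neg_mem h.2, rfl⟩, by simp [hδ]⟩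
  have le : M₁.map (X.N.prod X.d) ≤ X.P M₀ I₁ ⊓ δ.ker := r0 ▸ inf_le_inf_right _ (R_le L)
  have b1 : (X.P M₀ I₁ ⊓ δ.ker).map (AddMonoidHom.snd M I) = (M₀.map X.d).comap X.N' ⊓ I₁ := by
    refine le_antisymm ?_ ?_
    · rintro _ ⟨z, ⟨h, k⟩, rfl⟩
      have k : δ _ = 0 := k
      exact ⟨⟨z.1, (mem_P.1 h).1, sub_eq_zero.1 (hδ z ▸ k)⟩, (mem_P.1 h).2.1⟩
    · rintro D ⟨⟨y, hy, e⟩, h⟩
      refine ⟨(y, D), ⟨mem_P.2 ⟨hy, h, by simp [e]⟩, ?_⟩, rfl⟩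
      show δ _ = 0
      simp [hδ, e]
  have b2 : (M₁.map (X.N.prod X.d)).map (AddMonoidHom.snd M I) = M₁.map X.d := by
    rw [map_map]; rfl
  have b3 : X.P M₀ I₁ ⊓ δ.ker ⊓ (AddMonoidHom.snd M I).ker =
      (M₀ ⊓ X.d.ker).map (AddMonoidHom.inl M I) := by
    refine le_antisymm ?_ ?_
    · rintro ⟨y, D⟩ ⟨⟨h, k⟩, e⟩
      obtain rfl : D = 0 := e
      have k : δ _ = 0 := k
      exact ⟨y, ⟨(mem_P.1 h).1, show X.d y = 0 by simpa [hδ] using k⟩, rfl⟩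
    · rintro _ ⟨y, ⟨h, k⟩, rfl⟩
      have k : X.d y = 0 := k
      exact ⟨⟨mem_P.2 ⟨h, zero_mem _, by simp [k]⟩, show δ _ = 0 by simp [hδ, k]⟩, rfl⟩
  have b4 : M₁.map (X.N.prod X.d) ⊓ (AddMonoidHom.snd M I).ker =
      ((M₁ ⊓ X.d.ker).map X.N).map (AddMonoidHom.inl M I) := by
    refine le_antisymm ?_ ?_
    · rintro _ ⟨⟨x, h, rfl⟩, e⟩
      exact ⟨_, ⟨x, ⟨h, e⟩, rfl⟩, Prod.ext rfl (Eq.symm e)⟩
    · rintro _ ⟨_, ⟨x, ⟨h, e⟩, rfl⟩, rfl⟩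
      exact ⟨⟨x, h, Prod.ext rfl e⟩, rfl⟩
  have e1 := ix δ (R_le L)
  have e2 := ix (AddMonoidHom.snd M I) le
  rw [b1, b2, b3, b4, relIndex_map_map_of_injective _ _ (Prod.mk_left_injective 0)] at e2
  rw [a1, a2, r0, e2] at e1
  have e3 := relIndex_mul_relIndex (M₁.map X.d) ((M₀.map X.d).comap X.N' ⊓ I₁) I₁
    (b1 ▸ b2 ▸ map_mono le) inf_le_right
  rw [inf_relIndex_right, relIndex_comap, ← relIndex_sup_left (I₁.map X.N')] at e3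
  have e4 := relIndex_mul_relIndex (M₀.map X.d) T I₀ le_sup_left tI
  have e5 := relIndex_mul_relIndex T (T ⊔ I₀ ⊓ X.J) I₀ le_sup_left (sup_le tI inf_le_left)
  have e6 := relIndex_mul_relIndex ((I₁ ⊓ X.J).map X.N') (T ⊓ (I₀ ⊓ X.J)) _
    (a1 ▸ a2 ▸ map_mono (R_le L)) inf_le_right
  rw [inf_relIndex_right] at e6
  rw [relIndex_sup_left] at e5
  unfold Dp.b Dp.h Dp.e Dp.f Dp.c
  rw [e1, ← e3, ← e4, ← e5, ← e6]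
  ring

end Vale.Agent.P014X.Ac
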