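import Vale.Agent.P014X.Ac.St

/-! # P014X, the anchor: functoriality of numbers and divisors (helper19) -/

set_option autoImplicit false
set_option linter.all false

open NumberField NumberField.Units IsDedekindDomain Function FractionalIdeal
open scoped Classical nonZeroDivisors

noncomputable section

namespace Vale.Agent.P014X.Ac

open An (Pm)

namespace Exf

variable {F₀ F₁ F : Type} [Field F₀] [NumberField F₀] [Field F₁] [NumberField F₁] [Field F]
  [NumberField F]

/-- the underlying fractional ideal -/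
def vl (x : AI F) : FractionalIdeal (𝓞 F)⁰ F := (Additive.toMul x).val

theorem vl_inj {x y : AI F} (h : vl x = vl y) : x = y := Additive.toMul.injective (Units.ext h)

theorem vl_ne (x : AI F) : vl x ≠ 0 := (Additive.toMul x).ne_zero

theorem vl_add (x y : AI F) : vl (x + y) = vl x * vl y := rfl

theorem vl_zero : vl (0 : AI F) = 1 := rfl

theorem vl_ai (φ : F₀ →+* F) (x : AI F₀) : vl (ai φ x) = (vl x).extended F (nz φ) := rfl

theorem vl_ad (x : AM F) : vl (ad F x) = spanSingleton (𝓞 F)⁰ (Additive.toMul x).val :=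
  coe_toPrincipalIdeal _

theorem vl_pm (w : Pm F) : vl (pm w) = w.asIdeal := rfl

theorem loc_map (φ : F₀ →+* F) (x : F₀) :
    IsLocalization.map F (RingOfIntegers.mapRingHom φ) (nz φ) x = φ x :=
  RingHom.congr_fun (IsLocalization.map_unique (nz φ) φ fun _ => rfl) x

theorem ai_comp (φ : F₀ →+* F₁) (ψ : F₁ →+* F) (x : AI F₀) : ai (ψ.comp φ) x = ai ψ (ai φ x) :=
  vl_inj (extended_extended F₁ (nz φ) (vl x) (nz ψ)).symm

theorem ai_ad (φ : F₀ →+* F) (x : AM F₀) : ai φ (ad F₀ x) = ad F (am φ x) := vl_inj (by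
  rw [vl_ai, vl_ad, vl_ad, extended_spanSingleton, loc_map]
  rfl)

theorem ai_inj (φ : F₀ →+* F) : Injective (ai φ) := fun x y e => by
  let _ := φ.toAlgebra
  exact vl_inj (extendedHom_injective (𝓞 F₀) F₀ F (𝓞 F) (congrArg vl e))

theorem ai_id (x : AI F) : ai (RingHom.id F) x = x := vl_inj (by
  rw [vl_ai, ← coeToSubmodule_inj, coe_extended_eq_span, funext (loc_map (RingHom.id F))]
  exact (congrArg _ (Set.image_id _)).trans (Submodule.span_eq _))

theorem idx : (ad F).range.index = classNumber F :=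
  (Nat.card_congr (ClassGroup.equiv (R := 𝓞 F) F).toEquiv).symm.trans Nat.card_eq_fintype_card

theorem au_inj : Injective (au F) := fun x y e =>
  Additive.toMul.injective (Units.ext (RingOfIntegers.ext
    (congrArg (fun z : AM F => ((Additive.toMul z : Fˣ) : F)) e)))

theorem ker_ad : (ad F).ker = (au F).range := AddSubgroup.ext fun x => by
  refine (show _ ↔ vl (ad F x) = vl 0 from ⟨congrArg vl, vl_inj⟩).trans ?_
  rw [vl_ad, vl_zero, ← spanSingleton_one, eq_comm, spanSingleton_eq_spanSingleton]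
  exact ⟨fun ⟨z, e⟩ => ⟨.ofMul z, Additive.toMul.injective (Units.ext ((mul_one _).symm.trans e))⟩,
    fun ⟨z, e⟩ => ⟨z.toMul, (mul_one _).trans (congrArg (fun z : AM F => ((z.toMul : Fˣ) : F)) e)⟩⟩

/-- the units are the kernel -/
def ue : Additive (𝓞 F)ˣ ≃ₗ[ℤ] (ad F).ker :=
  ((AddMonoidHom.ofInjective au_inj).trans (AddEquiv.addSubgroupCongr ker_ad.symm)).toIntLinearEquiv

/-- the multiplicity of a prime -/
def cnt (w : Pm F) : AI F →+ ℤ :=
  AddMonoidHom.mk' (fun x => count F w (vl x)) fun x y => count_mul F w (vl_ne x) (vl_ne y)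

theorem cnt_eq (w : Pm F) (x : AI F) : cnt w x = count F w (vl x) := rfl

theorem cnt_pm (w v : Pm F) : cnt w (pm v) = if v = w then 1 else 0 := count_maximal F w v

theorem cnt_ext {x y : AI F} (h : ∀ w, cnt w x = cnt w y) : x = y := vl_inj (by
  rw [← finprod_heightOneSpectrum_factorization' F (vl_ne x),
    ← finprod_heightOneSpectrum_factorization' F (vl_ne y)]
  exact finprod_congr fun w => congrArg _ (h w))

theorem cnt_fin (x : AI F) : {w | cnt w x ≠ 0}.Finite := finite_factors (vl x)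

/-- **factorisation** -/
theorem fac {x : AI F} {S : Finset (Pm F)} (h : ∀ w ∉ S, cnt w x = 0) :
    x = ∑ w ∈ S, cnt w x • pm w := cnt_ext fun v => by
  simp only [map_sum, map_zsmul, cnt_pm, smul_eq_mul, mul_ite, mul_one, mul_zero, Finset.sum_ite_eq']
  split_ifs with k
  exacts [rfl, h v k]

theorem ex_fac (x : AI F) : ∃ S : Finset (Pm F), x = ∑ w ∈ S, cnt w x • pm w :=
  ⟨(cnt_fin x).toFinset, fac fun w k => not_not.1 (mt (cnt_fin x).mem_toFinset.2 k)⟩

theorem mem_Js {S : Finset (Pm F)} {x : AI F} : x ∈ Js S ↔ ∀ w ∉ S, cnt w x = 0 := by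
  refine ⟨fun h w k => (AddSubgroup.closure_le (cnt w).ker).2 ?_ h, fun h => fac h ▸
    sum_mem fun w k => zsmul_mem (AddSubgroup.subset_closure (Set.mem_image_of_mem pm k)) _⟩
  rintro _ ⟨v, m, rfl⟩
  exact (cnt_pm w v).trans (if_neg fun e : v = w => k (e ▸ m))

theorem gen : AddSubgroup.closure (Set.range (pm : Pm F → AI F)) = ⊤ := top_unique fun x _ => by
  obtain ⟨S, e⟩ := ex_fac x
  exact e ▸ sum_mem fun w _ => zsmul_mem (AddSubgroup.subset_closure (Set.mem_range_self w)) _

end Exf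

open Exf in
theorem exf : EXF := ⟨fun _ _ _ _ _ _ _ _ _ φ ψ => ⟨ai_comp φ ψ, ai_ad φ, ai_inj φ⟩,
  fun F _ _ => ⟨ai_id, idx, ker_ad, .equiv ue, ue.finrank_eq.symm.trans (finrank_eq F), gen⟩⟩

end Vale.Agent.P014X.Ac
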