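import Vale.Agent.P014X.Ac.St

/-! # P014X, anchor: the supports of divisors -/

set_option autoImplicit false
set_option linter.all false

open NumberField NumberField.Units IsDedekindDomain Function Finset
open scoped Classical nonZeroDivisors

noncomputable section

namespace Vale.Agent.P014X.Ac

open An (Pm)

namespace Jf

variable {F₀ F : Type} [Field F₀] [NumberField F₀] [Field F] [NumberField F]

/-- the fractional ideal of a divisor -/
abbrev fi (x : AI F) : FractionalIdeal (𝓞 F)⁰ F := (Additive.toMul x).val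

/-- the multiplicity of a prime in a divisor -/
def ct (w : Pm F) : AI F →+ ℤ := AddMonoidHom.mk' (fun x => FractionalIdeal.count F w (fi x))
  fun x y => FractionalIdeal.count_mul F w (Additive.toMul x).ne_zero (Additive.toMul y).ne_zero

theorem ct_def (w : Pm F) (x : AI F) : ct w x = FractionalIdeal.count F w (fi x) := rfl

theorem ct_self (w : Pm F) : ct w (pm w) = 1 := FractionalIdeal.count_self F w

theorem ct_ne {w v : Pm F} (h : v ≠ w) : ct w (pm v) = 0 :=
  FractionalIdeal.count_maximal_coprime F w h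

theorem ct_inj (x : AI F) (h : ∀ w, ct w x = 0) : x = 0 := by
  have e := FractionalIdeal.finprod_heightOneSpectrum_factorization' F (Additive.toMul x).ne_zero
  have e' : ∀ w : Pm F, FractionalIdeal.count F w (Additive.toMul x).val = 0 := h
  simp only [e', zpow_zero, finprod_one] at e
  exact Additive.toMul.injective (Units.ext e.symm)

theorem ct_sum (S : Finset (Pm F)) (x : AI F) (w : Pm F) :
    ct w (∑ v ∈ S, ct v x • pm v) = if w ∈ S then ct w x else 0 := by
  rw [map_sum, ← Finset.sum_ite_eq' S w fun _ => ct w x]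
  refine Finset.sum_congr rfl fun v _ => ?_
  rw [map_zsmul]
  by_cases h : v = w
  · subst h
    simp [ct_self]
  · simp [ct_ne h, h]

theorem eq_sum (S : Finset (Pm F)) (x : AI F) (h : ∀ w ∉ S, ct w x = 0) :
    x = ∑ v ∈ S, ct v x • pm v := by
  refine sub_eq_zero.1 (ct_inj _ fun w => ?_)
  rw [map_sub, ct_sum]
  by_cases hw : w ∈ S
  · simp [hw]
  · simp [hw, h w hw]

/-- the support -/
theorem mem_Js (S : Finset (Pm F)) (x : AI F) : x ∈ Js S ↔ ∀ w ∉ S, ct w x = 0 := by
  constructor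
  · intro hx w hw
    have : Js S ≤ (ct w).ker := by
      refine (AddSubgroup.closure_le _).2 ?_
      rintro _ ⟨v, hv, rfl⟩
      exact ct_ne fun e => hw (e ▸ hv)
    exact this hx
  · intro h
    rw [eq_sum S x h]
    exact AddSubgroup.sum_mem _ fun v hv =>
      AddSubgroup.zsmul_mem _ (AddSubgroup.subset_closure (Set.mem_image_of_mem pm hv)) _

theorem ex_supp (x : AI F) : ∃ S : Finset (Pm F), ∀ w ∉ S, ct w x = 0 := by
  have h := Filter.eventually_cofinite.1 (FractionalIdeal.finite_factors (K := F) (fi x))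
  refine ⟨h.toFinset, fun w hw => ?_⟩
  by_contra e
  exact hw (h.mem_toFinset.2 e)

theorem hom_ext {A : Type} [AddCommGroup A] (f g : AI F →+ A) (h : ∀ v, f (pm v) = g (pm v))
    (x : AI F) : f x = g x := by
  obtain ⟨S, hS⟩ := ex_supp x
  rw [eq_sum S x hS, map_sum, map_sum]
  exact Finset.sum_congr rfl fun v _ => by rw [map_zsmul, map_zsmul, h]

theorem count_eq_zero (w : Pm F) {J : Ideal (𝓞 F)} (hJ : J ≠ ⊥) :
    FractionalIdeal.count F w (J : FractionalIdeal (𝓞 F)⁰ F) = 0 ↔ ¬ J ≤ w.asIdeal := by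
  rw [FractionalIdeal.count_coe F w hJ, Nat.cast_eq_zero, ← Ideal.dvd_iff_le,
    ← Associates.count_ne_zero_iff_dvd hJ w.irreducible, not_not]

theorem ct_ad (w : Pm F) (x : Fˣ) : ct w (ad F (Additive.ofMul x)) =
    FractionalIdeal.count F w (FractionalIdeal.spanSingleton (𝓞 F)⁰ (x : F)) :=
  congrArg (FractionalIdeal.count F w) (coe_toPrincipalIdeal x)

/-- the order of a number -/
def od (w : Pm F) (x : F) : ℤ := FractionalIdeal.count F w (FractionalIdeal.spanSingleton (𝓞 F)⁰ x)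

theorem od_mul (w : Pm F) {x y : F} (hx : x ≠ 0) (hy : y ≠ 0) :
    od w (x * y) = od w x + od w y := by
  unfold od
  rw [← FractionalIdeal.spanSingleton_mul_spanSingleton, FractionalIdeal.count_mul F w
    (FractionalIdeal.spanSingleton_ne_zero_iff.2 hx) (FractionalIdeal.spanSingleton_ne_zero_iff.2 hy)]

theorem od_zpow (w : Pm F) (x : Fˣ) (n : ℤ) : od w ((x ^ n : Fˣ) : F) = n * od w (x : F) := by
  have h := map_zsmul ((ct w).comp (ad F)) n (Additive.ofMul x)
  simp only [AddMonoidHom.comp_apply, ← ofMul_zpow, ct_ad, smul_eq_mul] at h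
  exact h

theorem od_int (w : Pm F) {a : 𝓞 F} (ha : a ≠ 0) : od w (a : F) = 0 ↔ a ∉ w.asIdeal := by
  unfold od
  rw [show (a : F) = algebraMap (𝓞 F) F a from rfl, ← FractionalIdeal.coeIdeal_span_singleton,
    count_eq_zero w (mt Ideal.span_singleton_eq_bot.1 ha), Ideal.span_singleton_le_iff_mem]

theorem ex_unif (w : Pm F) : ∃ u : Fˣ, od w (u : F) = 1 := by
  obtain ⟨u, hu⟩ := w.intValuation_exists_uniformizer
  have h0 : u ≠ 0 := by
    rintro rfl
    rw [map_zero] at hu
    exact WithZero.exp_ne_zero hu.symm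
  rw [w.intValuation_if_neg h0, WithZero.exp_inj, neg_inj] at hu
  refine ⟨Units.mk0 (u : F) (by simpa using h0), ?_⟩
  unfold od
  rw [Units.val_mk0, show (u : F) = algebraMap (𝓞 F) F u from rfl,
    ← FractionalIdeal.coeIdeal_span_singleton,
    FractionalIdeal.count_coe F w (mt Ideal.span_singleton_eq_bot.1 h0)]
  exact hu

theorem unit_at (w : Pm F) {y : F} (hy : y ≠ 0) (h : od w y = 0) :
    ∃ a b : 𝓞 F, a ∉ w.asIdeal ∧ b ∉ w.asIdeal ∧ (a : F) * y = b := by
  obtain ⟨n, ⟨d, hd⟩, e⟩ := w.exists_primeCompl_mul_eq_or_mul_eq y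
  have hd' : d ∉ w.asIdeal := hd
  have d0 : d ≠ 0 := fun e => hd' (e ▸ w.asIdeal.zero_mem)
  have d1 : (d : F) ≠ 0 := by simpa using d0
  have o := (od_int w d0).2 hd'
  rcases e with e | e
  · have e' : y * (d : F) = (n : F) := e
    have n1 : (n : F) ≠ 0 := e' ▸ mul_ne_zero hy d1
    refine ⟨d, n, hd', (od_int w (by simpa using n1)).1 ?_, by rw [← e', mul_comm]⟩
    rw [← e', od_mul w hy d1, h, o, add_zero]
  · have e' : y * (n : F) = (d : F) := e
    have n1 : (n : F) ≠ 0 := fun z => d1 (by rw [← e', z, mul_zero])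
    refine ⟨n, d, (od_int w (by simpa using n1)).1 ?_, hd', by rw [← e', mul_comm]⟩
    rw [← e', od_mul w hy n1, h, zero_add] at o
    exact o

theorem lo_of_dvd (n : ℕ) (w : Pm F) (x : Fˣ) (h : (n : ℤ) ∣ od w (x : F)) : Lo n w (x : F) := by
  obtain ⟨k, hk⟩ := h
  obtain ⟨u, hu⟩ := ex_unif w
  have e : od w ((x * u ^ (-(k * n)) : Fˣ) : F) = 0 := by
    rw [Units.val_mul, od_mul w x.ne_zero (Units.ne_zero _), od_zpow, hu, hk]
    ring
  obtain ⟨a, b, ha, hb, e⟩ := unit_at w (Units.ne_zero _) e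
  refine ⟨((u ^ k : Fˣ) : F), a, b, ha, hb, ?_⟩
  rw [← e, ← Units.val_pow_eq_pow_val, ← zpow_natCast, ← zpow_mul, mul_assoc, ← Units.val_mul,
    zpow_neg, inv_mul_cancel_right]

theorem inj_map (φ : F₀ →+* F) : Injective (RingOfIntegers.mapRingHom φ) := fun a b e =>
  Subtype.ext (φ.injective (congrArg Subtype.val e))

theorem fi_ai (φ : F₀ →+* F) (v : Pm F₀) : fi (ai φ (pm v)) =
    ((v.asIdeal.map (RingOfIntegers.mapRingHom φ) : Ideal (𝓞 F)) : FractionalIdeal (𝓞 F)⁰ F) :=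
  FractionalIdeal.extended_coeIdeal_eq_map F (nz φ) v.asIdeal

theorem ct_ai_pm (φ : F₀ →+* F) (w : Pm F) (v v' : Pm F₀)
    (h : w.asIdeal.comap (RingOfIntegers.mapRingHom φ) = v.asIdeal) :
    ct w (ai φ (pm v')) = 0 ↔ v' ≠ v := by
  rw [ct_def, fi_ai, count_eq_zero w
    (mt (Ideal.map_eq_bot_iff_of_injective (inj_map φ)).1 v'.ne_bot), Ideal.map_le_iff_le_comap, h]
  refine not_congr ⟨fun l => HeightOneSpectrum.ext (v'.isMaximal.eq_of_le v.isPrime.ne_top l), ?_⟩
  rintro rfl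
  exact le_rfl

/-- the multiplicities of an extended divisor -/
theorem ct_ai (φ : F₀ →+* F) (w : Pm F) (v : Pm F₀)
    (h : w.asIdeal.comap (RingOfIntegers.mapRingHom φ) = v.asIdeal) (x : AI F₀) :
    ct w (ai φ x) = ct v x * ct w (ai φ (pm v)) := by
  refine hom_ext ((ct w).comp (ai φ)) ((AddMonoidHom.mulRight (ct w (ai φ (pm v)))).comp (ct v))
    (fun v' => ?_) x
  change ct w (ai φ (pm v')) = ct v (pm v') * ct w (ai φ (pm v))
  by_cases e : v' = v
  · rw [e, ct_self, one_mul]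
  · rw [ct_ne e, zero_mul, (ct_ai_pm φ w v v' h).2 e]

theorem ex_under (φ : F₀ →+* F) (w : Pm F) :
    ∃ v : Pm F₀, w.asIdeal.comap (RingOfIntegers.mapRingHom φ) = v.asIdeal := by
  letI := φ.toAlgebra
  exact ⟨w.under (𝓞 F₀), rfl⟩

theorem ex_over (φ : F₀ →+* F) (v : Pm F₀) :
    ∃ w : Pm F, w.asIdeal.comap (RingOfIntegers.mapRingHom φ) = v.asIdeal := by
  letI := φ.toAlgebra
  haveI := v.isPrime
  obtain ⟨Q, hQ, e⟩ := Ideal.exists_ideal_over_prime_of_isIntegral_of_isDomain (S := 𝓞 F) v.asIdeal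
    (by rw [(RingHom.injective_iff_ker_eq_bot (algebraMap (𝓞 F₀) (𝓞 F))).1 (inj_map φ)]; exact bot_le)
  refine ⟨⟨Q, hQ, ?_⟩, e⟩
  rintro rfl
  exact v.ne_bot (e.symm.trans (Ideal.comap_bot_of_injective _ (inj_map φ)))

theorem main : JSF := by
  refine ⟨fun F _ _ S n hn => ⟨fun x hx => ?_, fun x hx w hw => ?_⟩, fun F₀ F _ _ _ _ φ S₀ S h x => ?_⟩
  · rw [mem_Js] at hx ⊢
    intro w hw
    have := hx w hw
    rw [map_nsmul, nsmul_eq_mul] at this
    exact (mul_eq_zero.1 this).resolve_left (Nat.cast_ne_zero.2 hn)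
  · obtain ⟨y, hy, _, ⟨z, rfl⟩, e⟩ := AddSubgroup.mem_sup.1 hx
    refine lo_of_dvd n w x ⟨ct w z, ?_⟩
    have := congrArg (ct w) e
    rw [map_add, (mem_Js S y).1 hy w hw, zero_add, ct_ad] at this
    rw [od, ← this, ← nsmul_eq_mul, ← map_nsmul]
    rfl
  · rw [mem_Js, mem_Js]
    constructor
    · intro hx v hv
      obtain ⟨w, e⟩ := ex_over φ v
      have := hx w fun hw => hv ((h w v e).1 hw)
      rw [ct_ai φ w v e] at this
      exact (mul_eq_zero.1 this).resolve_right fun z => (ct_ai_pm φ w v v e).1 z rfl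
    · intro hx w hw
      obtain ⟨v, e⟩ := ex_under φ w
      rw [ct_ai φ w v e, hx v fun hv => hw ((h w v e).2 hv), zero_mul]

end Jf

/-- **supports** -/
theorem jsf : JSF := Jf.main

end Vale.Agent.P014X.Ac
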