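import Vale.Agent.P014X.Ac.St

/-! # P014X, anchor: the plus part of the quotient -/

set_option autoImplicit false
set_option linter.all false

open AddSubgroup

namespace Vale.Agent.P014X.Ac

namespace Mi1

variable {M I : Type} [AddCommGroup M] [AddCommGroup I] {p k : ℕ}

theorem ndv (hp : p.Prime) (o : p ≠ 2) {Q P : AddSubgroup M} (n : Q.relIndex P ≠ 0)
    (h : ∀ x ∈ P, 2 • x ∈ Q) : ¬ p ∣ Q.relIndex P := fun d => by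
  have := Fact.mk hp
  have := Nat.finite_of_card_ne_zero n
  obtain ⟨x, e⟩ := exists_prime_addOrderOf_dvd_card' p d
  obtain ⟨x, rfl⟩ := QuotientAddGroup.mk_surjective x
  exact o ((Nat.prime_dvd_prime_iff_eq hp Nat.prime_two).1 (e ▸ addOrderOf_dvd_of_nsmul_eq_zero
    ((QuotientAddGroup.eq_zero_iff (2 • x)).2 (h _ x.2))))

theorem mem_P {X : Dp M I} {M₀ : AddSubgroup M} {I₁ : AddSubgroup I} {z : M × I} :
    z ∈ X.P M₀ I₁ ↔ (z.1 ∈ M₀ ∧ z.2 ∈ I₁) ∧ X.d z.1 - X.N' z.2 ∈ X.J := by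
  rw [sub_eq_add_neg]
  rfl

theorem R_le {X : Dp M I} {M₁ M₀ : AddSubgroup M} {I₁ I₀ : AddSubgroup I} (l : X.Lp M₁ M₀ I₁ I₀) :
    X.R M₁ I₁ ≤ X.P M₀ I₁ := sup_le
  (map_le_iff_le_comap.2 fun x h => mem_P.2 ⟨⟨l.n x h, l.d1 x h⟩, (sub_eq_zero.2 (l.com x)).symm ▸ zero_mem _⟩)
  fun z h => mem_P.2 ⟨⟨(mem_bot.1 h.1).symm ▸ zero_mem _, h.2.1⟩, by
    rw [mem_bot.1 h.1, map_zero, zero_sub]
    exact neg_mem (l.NJ _ h.2.2)⟩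

theorem com {g t : AddMonoid.End M} (h : g * t = t * g) (x : M) : nr p k g (t x) = t (nr p k g x) :=
  DFunLike.congr_fun (Commute.sum_left _ _ _ fun i _ => (show Commute g t from h).pow_left _).eq x

variable {Y : Mn M I p k} (o : Y.Ok0)
include o

theorem t_P {z : M × I} (h : z ∈ Y.X.P Y.M0 ⊤) : (Y.t z.1, Y.t' z.2) ∈ Y.X.P Y.M0 ⊤ := by
  obtain ⟨⟨a, -⟩, b⟩ := mem_P.1 h
  refine mem_P.2 ⟨⟨(o.M0 _).2 ?_, trivial⟩, ?_⟩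
  · exact (DFunLike.congr_fun ((show Commute Y.g Y.t from o.gt).pow_left _).eq z.1).trans
      (congrArg Y.t ((o.M0 _).1 a))
  · exact (congrArg₂ (· - ·) (o.dt _) (com o.gt' _)).trans (map_sub Y.t' _ _).symm ▸ o.tJ _ b

end Mi1

open Mi1

/-- **the plus part of the quotient** -/
theorem mi1 : MI1 := fun M I _ _ p k Y o n n' => by
  have := Fact.mk o.pr
  unfold Mn.bm Dp.b at *
  have a : Y.X.R Y.Mp Y.Ip ≤ Y.X.R ⊤ ⊤ :=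
    sup_le_sup (map_mono le_top) (prod_mono le_rfl (inf_le_inf_right _ le_top))
  have b : Y.X.P (Y.M0 ⊓ Y.Mp) Y.Ip ≤ Y.X.P Y.M0 ⊤ :=
    inf_le_inf_right _ (prod_mono inf_le_left le_top)
  have c : (Y.X.P Y.M0 ⊤).map Y.m2 ⊔ Y.X.R ⊤ ⊤ ≤ Y.X.P Y.M0 ⊤ :=
    sup_le (map_le_iff_le_comap.2 fun z h => sub_mem h (t_P o h)) (R_le o.l0)
  have d : ∀ z ∈ Y.X.P Y.M0 ⊤,
      2 • z ∈ Y.X.P (Y.M0 ⊓ Y.Mp) Y.Ip ⊔ ((Y.X.P Y.M0 ⊤).map Y.m2 ⊔ Y.X.R ⊤ ⊤) := fun z h => by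
    have e := mem_P.1 (add_mem h (t_P o h))
    rw [show 2 • z = z + (Y.t z.1, Y.t' z.2) + (z - (Y.t z.1, Y.t' z.2)) by abel]
    refine add_mem (mem_sup_left (mem_P.2 ⟨⟨⟨e.1.1, (o.Mp _).2 ?_⟩, o.up _⟩, e.2⟩))
      (mem_sup_right (mem_sup_left ⟨z, h, rfl⟩))
    exact (map_add ..).trans ((congrArg _ (DFunLike.congr_fun o.tt z.1)).trans (add_comm _ _))
  generalize Y.X.P Y.M0 ⊤ = P, Y.X.P (Y.M0 ⊓ Y.Mp) Y.Ip = P', Y.X.R Y.Mp Y.Ip = R',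
    Y.X.R ⊤ ⊤ = R at *
  have r : R ≤ P.map Y.m2 ⊔ R := le_sup_right
  generalize P.map Y.m2 ⊔ R = Q at *
  rw [← relIndex_mul_relIndex R Q P r c, ← relIndex_mul_relIndex Q (P' ⊔ Q) P le_sup_right (sup_le b c),
    relIndex_sup_right] at n ⊢
  obtain ⟨n1, n2⟩ := mul_ne_zero_iff.1 n
  obtain ⟨n2, n3⟩ := mul_ne_zero_iff.1 n2
  refine ⟨n1, ?_⟩
  rw [padicValNat.mul n1 (mul_ne_zero n2 n3), padicValNat.mul n2 n3,
    padicValNat.eq_zero_of_not_dvd (ndv o.pr o.odd n3 d), add_zero, add_le_add_iff_left]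
  exact (padicValNat_dvd_iff_le n').1 (pow_padicValNat_dvd.trans (relIndex_dvd_of_le_left _ (a.trans r)))

end Vale.Agent.P014X.Ac
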