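import Vale.Agent.P014X.Ac.St
import Vale.Agent.P014X.Ac.Ix

/-! # P014X, the anchor: the plus parts of the unit index and of the cokernel (rows MI2, MI3) -/

set_option autoImplicit false
set_option linter.all false

namespace Vale.Agent.P014X.Ac

open AddSubgroup

theorem mi2 : MI2 := by
  intro M I _ _ p k Y o n0 n1
  have := Fact.mk o.pr
  have e : Y.m.ker = Y.Mp := AddSubgroup.ext fun x => by
    rw [o.Mp, AddMonoidHom.mem_ker]
    exact sub_eq_zero.trans eq_comm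
  have h := ix Y.m o.CU
  rw [e] at h
  rw [h] at n0 ⊢
  refine ⟨left_ne_zero_of_mul n0, ?_⟩
  rw [padicValNat.mul (left_ne_zero_of_mul n0) (right_ne_zero_of_mul n0)]
  refine Nat.add_le_add_left (two o.pr o.odd (AddMonoidHom.id M) (fun _ a => a) (fun _ a => o.Cp a)
    (fun x a b => ?_) n1 (right_ne_zero_of_mul n0)) _
  have := o.Ct x b.1
  rwa [(o.Mp x).1 a.2, ← two_nsmul] at this

theorem mi3 : MI3 := by
  intro M I _ _ p k Y o n0 n1
  refine two o.pr o.odd (AddMonoidHom.id I) (fun _ a => o.q0 a) (fun x a => ?_) (fun x a b => ?_) n1 n0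
  · exact sup_le_sup (sup_le_sup (map_mono inf_le_left) (map_mono le_top))
      (inf_le_inf_right _ o.q0) a
  obtain ⟨_, b, w, hw, e⟩ := mem_sup.1 b
  obtain ⟨_, ⟨y, hy, rfl⟩, _, ⟨z, -, rfl⟩, rfl⟩ := mem_sup.1 b
  have c : Commute Y.t' (nr p k Y.g') :=
    Commute.sum_right _ _ _ fun i _ => (show Commute Y.t' Y.g' from o.gt'.symm).pow_right _
  have c' : ∀ z, Y.t' (Y.X.N' z) = Y.X.N' (Y.t' z) := fun z => DFunLike.congr_fun c.eq z
  have c1 : ∀ z, (Y.g ^ p ^ k) (Y.t z) = Y.t ((Y.g ^ p ^ k) z) := fun z =>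
    DFunLike.congr_fun ((show Commute Y.g Y.t from o.gt).pow_left _).eq z
  have t2 : Y.t (Y.t y) = y := DFunLike.congr_fun o.tt y
  have q : 2 • x = Y.X.d (y + Y.t y) + Y.X.N' (z + Y.t' z) + (w + Y.t' w) := by
    have e : Y.d y + Y.X.N' z + w = x := e
    rw [two_nsmul]
    nth_rw 2 [← o.fp x (o.qp a)]
    rw [← e, map_add, map_add, map_add, map_add, c', ← o.dt]
    show _ = Y.d y + Y.d (Y.t y) + _ + _
    abel
  rw [q]
  refine add_mem (mem_sup_left (add_mem (mem_sup_left (mem_map_of_mem _ ⟨?_, ?_⟩))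
    (mem_sup_right (mem_map_of_mem _ (o.up z))))) (mem_sup_right ⟨o.uq w hw.1, add_mem hw.2 (o.tJ w hw.2)⟩)
  · exact add_mem hy ((o.M0 _).2 (by rw [c1, (o.M0 y).1 hy]))
  · exact (o.Mp _).2 (by rw [map_add, t2, add_comm])

end Vale.Agent.P014X.Ac
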