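import Vale.Agent.P014X.Ac.St

/-! # P014X, the anchor on the side of the fields: norms in a cyclic layer (helper31) -/

set_option autoImplicit false
set_option linter.all false

open NumberField IsDedekindDomain Function Finset
open scoped Classical nonZeroDivisors

noncomputable section

namespace Vale.Agent.P014X.Ac

open An (Pm nU)

namespace Nrm

variable {n : ℕ} {F₀ F : Type} [Field F₀] [NumberField F₀] [Field F] [NumberField F] [Algebra F₀ F]
  {s : F ≃+* F}

/-- the generator as an automorphism over the small field -/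
def sg (h : Cc n F₀ s) : F ≃ₐ[F₀] F :=
  { s with commutes' := fun r => (h.fix _).2 ⟨r, rfl⟩ }

theorem sg_pow (h : Cc n F₀ s) (i : ℕ) (x : F) : (sg h ^ i) x = (s ^ i) x := by
  induction i generalizing x with
  | zero => rfl
  | succ i ih => rw [pow_succ, pow_succ, AlgEquiv.mul_apply, ih]; rfl

theorem sg_ord (h : Cc n F₀ s) : orderOf (sg h) = n := by
  refine Eq.trans (orderOf_eq_orderOf_iff.2 fun i => ?_) h.ord
  exact ⟨fun e => RingEquiv.ext fun x => by rw [← sg_pow h, e]; rfl,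
    fun e => AlgEquiv.ext fun x => by rw [sg_pow h, e]; rfl⟩

theorem fx (h : Cc n F₀ s) (H : Subgroup (F ≃ₐ[F₀] F)) (m : sg h ∈ H) :
    IntermediateField.fixedField H = ⊥ := by
  refine eq_bot_iff.2 fun x a => ?_
  obtain ⟨r, e⟩ := (h.fix x).1 ((IntermediateField.mem_fixedField_iff H x).1 a _ m)
  exact IntermediateField.mem_bot.2 ⟨r, e⟩

theorem gal (h : Cc n F₀ s) : IsGalois F₀ F :=
  IsGalois.of_fixedField_eq_bot F₀ F (fx h ⊤ trivial)

theorem top (h : Cc n F₀ s) : Subgroup.zpowers (sg h) = ⊤ := by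
  rw [← IntermediateField.fixingSubgroup_fixedField (Subgroup.zpowers (sg h)),
    fx h _ (Subgroup.mem_zpowers _), IntermediateField.fixingSubgroup_bot]

/-- the norm of a number -/
theorem num (h : Cc n F₀ s) (x : F) :
    ∏ i ∈ range n, (s ^ i) x = algebraMap F₀ F (Algebra.norm F₀ x) := by
  have := gal h
  rw [Algebra.norm_eq_prod_automorphisms]
  refine Finset.prod_bij (fun i _ => sg h ^ i) (fun _ _ => mem_univ _) (fun i a j b e => ?_)
    (fun g _ => ?_) fun i _ => (sg_pow h i x).symm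
  · rw [← sg_ord h, mem_range] at a b
    exact pow_injOn_Iio_orderOf a b e
  · have m : g ∈ Subgroup.zpowers (sg h) := top h ▸ trivial
    rw [mem_zpowers_iff_mem_range_orderOf, sg_ord h, mem_image] at m
    obtain ⟨i, a, e⟩ := m
    exact ⟨i, a, e⟩

theorem ex_pow (I : Ideal (𝓞 F)) (i : I ≠ ⊥) : ∃ k ≠ 0, ∃ x, I ^ k = Ideal.span {x} := by
  have m : I ∈ (Ideal (𝓞 F))⁰ := mem_nonZeroDivisors_of_ne_zero i
  have e : ClassGroup.mk0 (⟨I, m⟩ ^ Fintype.card (ClassGroup (𝓞 F))) = 1 := by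
    rw [map_pow, pow_card_eq_one]
  obtain ⟨x, e⟩ := (ClassGroup.mk0_eq_one_iff (pow_mem m _)).1 e
  exact ⟨_, Fintype.card_ne_zero, x, e⟩

/-- the norm of an ideal -/
theorem idl (h : Cc n F₀ s) (I : Ideal (𝓞 F)) (i : I ≠ ⊥) :
    ∏ i ∈ range n, I.map (RingOfIntegers.mapRingHom (s ^ i).toRingHom) =
      (Ideal.relNorm (𝓞 F₀) I).map (algebraMap (𝓞 F₀) (𝓞 F)) := by
  obtain ⟨k, k0, x, e⟩ := ex_pow I i
  rw [← pow_left_inj k0, ← Ideal.map_pow, ← map_pow, e, Ideal.relNorm_singleton, Ideal.map_span,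
    Set.image_singleton, ← Finset.prod_pow]
  simp only [← Ideal.map_pow, e, Ideal.map_span, Set.image_singleton]
  rw [Ideal.prod_span_singleton]
  congr 2
  apply RingOfIntegers.coe_injective
  rw [map_prod, ← IsScalarTower.algebraMap_apply, IsScalarTower.algebraMap_apply (𝓞 F₀) F₀ F,
    Algebra.algebraMap_intNorm (L := F), ← num h]
  rfl

/-- the divisor of an ideal -/
def dv (I : (Ideal (𝓞 F))⁰) : AI F := Additive.ofMul (FractionalIdeal.mk0 F I)

theorem co_ai (φ : F₀ →+* F) (I : (Ideal (𝓞 F₀))⁰) :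
    ((ai φ (dv I)).toMul : FractionalIdeal (𝓞 F)⁰ F) =
      (I.1.map (RingOfIntegers.mapRingHom φ) : Ideal (𝓞 F)) :=
  FractionalIdeal.extended_coeIdeal_eq_map F (nz φ) I.1

theorem sum_dv (h : Cc n F₀ s) (I : (Ideal (𝓞 F))⁰) (J : (Ideal (𝓞 F₀))⁰)
    (e : Ideal.relNorm (𝓞 F₀) I.1 = J.1) :
    ∑ i ∈ range n, ai (s ^ i).toRingHom (dv I) = ai (algebraMap F₀ F) (dv J) := by
  apply Additive.toMul.injective
  apply Units.ext
  rw [co_ai, toMul_sum, Units.coe_prod, Finset.prod_congr rfl fun i _ => co_ai _ I]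
  refine (map_prod (FractionalIdeal.coeIdealHom (𝓞 F)⁰ F) _ _).symm.trans ?_
  rw [idl h _ (nonZeroDivisors.ne_zero I.2), e]
  rfl

theorem gen (x : AI F) : ∃ I J, x = dv I - dv J := by
  obtain ⟨a, I, a0, e⟩ := FractionalIdeal.exists_eq_spanSingleton_mul
    ((x.toMul : (FractionalIdeal (𝓞 F)⁰ F)ˣ) : FractionalIdeal (𝓞 F)⁰ F)
  have i : I ≠ 0 := by
    rintro rfl
    exact x.toMul.ne_zero (by simpa using e)
  refine ⟨⟨I, mem_nonZeroDivisors_of_ne_zero i⟩, ⟨Ideal.span {a},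
    mem_nonZeroDivisors_of_ne_zero (by simpa using a0)⟩, eq_sub_of_add_eq ?_⟩
  apply Additive.toMul.injective
  apply Units.ext
  rw [toMul_add, Units.val_mul, e]
  show _ * ((Ideal.span {a} : Ideal (𝓞 F)) : FractionalIdeal (𝓞 F)⁰ F) = (I : FractionalIdeal (𝓞 F)⁰ F)
  rw [FractionalIdeal.coeIdeal_span_singleton, mul_right_comm, FractionalIdeal.spanSingleton_mul_spanSingleton,
    inv_mul_cancel₀ (by simpa using a0), FractionalIdeal.spanSingleton_one, one_mul]

end Nrm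

open Nrm in
theorem nrm : NRM := by
  intro n F₀ F _ _ _ _ _ s h
  have k : ∀ I : (Ideal (𝓞 F))⁰, ∑ i ∈ range n, ai (s ^ i).toRingHom (dv I) ∈
      (ai (algebraMap F₀ F)).range := fun I =>
    ⟨dv ⟨_, mem_nonZeroDivisors_of_ne_zero (mt Ideal.relNorm_eq_bot_iff.1
      (nonZeroDivisors.ne_zero I.2))⟩, (sum_dv h I _ rfl).symm⟩
  refine ⟨fun w v e => ?_, fun x => ?_, fun x => ?_⟩
  · have := w.isMaximal
    have := v.isMaximal
    have : w.asIdeal.LiesOver v.asIdeal := ⟨e.symm⟩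
    rw [← map_nsmul]
    refine (sum_dv h ⟨w.asIdeal, mem_nonZeroDivisors_of_ne_zero w.ne_bot⟩
      (⟨v.asIdeal, mem_nonZeroDivisors_of_ne_zero v.ne_bot⟩ ^ w.asIdeal.inertiaDeg (𝓞 F₀))
      (Ideal.relNorm_eq_pow_of_isMaximal _ _)).trans (congrArg _ ?_)
    rw [dv, map_pow, ofMul_pow]
    rfl
  · obtain ⟨I, J, rfl⟩ := gen x
    simp only [map_sub, Finset.sum_sub_distrib]
    exact sub_mem (k I) (k J)
  · apply Additive.toMul.injective
    apply Units.ext
    rw [toMul_sum, Units.coe_prod]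
    exact num h _

end Vale.Agent.P014X.Ac
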