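import Vale.Agent.P014X.Ac.St

/-! # P014X, the anchor: glue of the algebra -/

set_option autoImplicit false
set_option linter.all false

noncomputable section

namespace Vale.Agent.P014X.Ac

theorem paa (beq : BEQ) (m1 : MI1) (m2 : MI2) (m3 : MI3) (wct : WCT) (zct : ZCT) : PAA := by
  intro M I _ _ p k Y r s s' a a' ok hr n1 n2 e1 e2 hs W Z hW hZ w0 z0 lt
  haveI := Fact.mk ok.pr
  have n1' := e1 ▸ n1
  have n2' := e2 ▸ n2
  simp only [mul_ne_zero_iff] at n1 n2 n1' n2'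
  obtain ⟨⟨i0, h0⟩, s0⟩ := n1
  obtain ⟨⟨ip, hq⟩, a0⟩ := n2
  obtain ⟨⟨⟨x1, x2⟩, x3⟩, s1⟩ := n1'
  obtain ⟨⟨⟨y1, y2⟩, y3⟩, a1⟩ := n2'
  obtain ⟨-, c0, b1⟩ := beq M I Y.X _ _ _ _ ok.l0 h0
  obtain ⟨-, cq, b2⟩ := beq M I Y.X _ _ _ _ ok.lp hq
  have b0 : Y.X.b ⊤ Y.M0 ⊤ ≠ 0 := left_ne_zero_of_mul (b1.trans_ne (by positivity))
  have bp : Y.X.b Y.Mp (Y.M0 ⊓ Y.Mp) Y.Ip ≠ 0 := left_ne_zero_of_mul (b2.trans_ne (by positivity))
  obtain ⟨bm, k1⟩ := m1 M I p k Y ok.toOk0 b0 bp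
  obtain ⟨im, k2⟩ := m2 M I p k Y ok.toOk0 i0 ip
  have k3 := m3 M I p k Y ok.toOk0 c0 cq
  have v1 := congrArg (padicValNat p) e1
  have v2 := congrArg (padicValNat p) e2
  have v3 := congrArg (padicValNat p) b1
  have v4 := congrArg (padicValNat p) b2
  rw [padicValNat.mul s1 a0, padicValNat.mul s0 a1] at hs
  rw [padicValNat.mul (by positivity) s0, padicValNat.mul i0 h0,
    padicValNat.mul (by positivity) s1] at v1
  rw [padicValNat.mul (by positivity) a0, padicValNat.mul ip hq,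
    padicValNat.mul (by positivity) a1] at v2
  rw [padicValNat.mul b0 h0, padicValNat.mul (by positivity) c0] at v3
  rw [padicValNat.mul bp hq, padicValNat.mul (by positivity) cq] at v4
  have key : padicValNat p Y.im ≤ padicValNat p Y.bm := by omega
  have lw := AddSubgroup.relIndex_le_of_le_right hW w0
  have lz := AddSubgroup.relIndex_le_of_le_right hZ z0
  have w1 : (pw M p).relIndex Y.W ≠ 0 := fun e =>
    w0 (AddSubgroup.relIndex_eq_zero_of_le_right hW e)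
  have z1 : (pw M p).relIndex (Y.C.map Y.m) ≠ 0 := fun e =>
    z0 (AddSubgroup.relIndex_eq_zero_of_le_right hZ e)
  have k4 := (wct M I p k Y ok bm w1).trans lw
  have k5 := zct M p _ _ ok.pr (AddSubgroup.map_mono ok.CU) im z1
  have p1 := ok.pr.one_lt
  have mn : min (padicValNat p Y.bm) ((p - 1) * p ^ k) = padicValNat p Y.bm := by
    refine min_eq_left (not_lt.1 fun h => ?_)
    rw [min_eq_right h.le] at k4
    rw [pow_add] at lt
    exact ((Nat.mul_le_mul_right _ hr).trans k4).not_gt lt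
  rw [mn] at k4
  have k6 : p ^ r ≤ (pw M p).relIndex Z * p ^ padicValNat p Y.bm :=
    (hr.trans k5).trans (Nat.mul_le_mul lz (Nat.pow_le_pow_right p1.le key))
  have k7 := (Nat.mul_le_mul_right _ hr).trans k4
  refine Nat.le_of_mul_le_mul_right ?_ (pow_pos ok.pr.pos (padicValNat p Y.bm))
  calc p ^ (2 * r) * p ^ padicValNat p Y.bm = p ^ r * p ^ padicValNat p Y.bm * p ^ r := by ring
    _ ≤ (pw M p).relIndex W * ((pw M p).relIndex Z * p ^ padicValNat p Y.bm) := Nat.mul_le_mul k7 k6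
    _ = _ := by ring

end Vale.Agent.P014X.Ac
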