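import Vale.Agent.P014X.Ac.St

/-! # P014X, the anchor: the rank of the minus part (row RNK, helper37) -/

set_option autoImplicit false
set_option linter.all false

open Module

noncomputable section

namespace Vale.Agent.P014X.Ac

namespace Rk

variable {M M' : Type} [AddCommGroup M] [AddCommGroup M'] {A B : AddSubgroup M}

theorem fin_le [Module.Finite ℤ B] (h : A ≤ B) : Module.Finite ℤ A :=
  .of_injective (AddSubgroup.inclusion h).toIntLinearMap (AddSubgroup.inclusion_injective h)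

theorem rk_le [Module.Finite ℤ B] (h : A ≤ B) : finrank ℤ A ≤ finrank ℤ B :=
  LinearMap.finrank_le_finrank_of_injective (f := (AddSubgroup.inclusion h).toIntLinearMap)
    (AddSubgroup.inclusion_injective h)

theorem fin_map [Module.Finite ℤ A] (φ : M →+ M') : Module.Finite ℤ (A.map φ) :=
  .of_surjective (φ.addSubgroupMap A).toIntLinearMap (φ.addSubgroupMap_surjective A)

theorem nul [Module.Finite ℤ A] (φ : M →+ M') :
    finrank ℤ (A.map φ) + finrank ℤ ↥(A ⊓ φ.ker) = finrank ℤ A := by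
  let f := (φ.addSubgroupMap A).toIntLinearMap
  rw [← (LinearMap.ker f).finrank_quotient_add_finrank,
    (f.quotKerEquivOfSurjective (φ.addSubgroupMap_surjective A)).finrank_eq]
  refine congrArg _ (LinearEquiv.finrank_eq (AddEquiv.toIntLinearEquiv
    { toFun := fun x => ⟨⟨x, x.2.1⟩, Subtype.ext x.2.2⟩
      invFun := fun x => ⟨x.1, x.1.2, congrArg Subtype.val x.2⟩
      left_inv := fun _ => rfl
      right_inv := fun _ => rfl
      map_add' := fun _ _ => rfl }))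

theorem rk_ge [Module.Finite ℤ A] [Module.Finite ℤ B] (h : A.relIndex B ≠ 0) :
    finrank ℤ B ≤ finrank ℤ A := by
  have := fin_le (A := A ⊓ B) inf_le_left
  refine le_trans ?_ (rk_le (A := A ⊓ B) inf_le_left)
  rw [← (AddSubgroup.addSubgroupOfEquivOfLe (H := A ⊓ B) inf_le_right).toIntLinearEquiv.finrank_eq,
    AddSubgroup.inf_addSubgroupOf_right,
    ← (A.addSubgroupOf B).toIntSubmodule.finrank_quotient_add_finrank,
    Module.IsTorsion.finrank_eq_zero, zero_add]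
  · rfl
  rintro ⟨x⟩
  exact ⟨⟨(A.relIndex B : ℤ), mem_nonZeroDivisors_of_ne_zero (Nat.cast_ne_zero.2 h)⟩,
    (Submodule.Quotient.mk_eq_zero _).2 (by
      change (A.relIndex B : ℤ) • x ∈ A.addSubgroupOf B
      rw [natCast_zsmul]; exact (A.addSubgroupOf B).nsmul_index_mem x)⟩

theorem idx [Module.Finite ℤ M] {p : ℕ} (p0 : p ≠ 0) : p ^ finrank ℤ M ≤ (pw M p).index := by
  have : AddGroup.FG M := Module.Finite.iff_addGroup_fg.1 ‹_›
  let f := (Submodule.torsion ℤ M).mkQ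
  rw [← finrank_quotient_eq_of_le_torsion (M' := Submodule.torsion ℤ M) le_rfl,
    ← AddSubgroup.index_range_nsmul]
  refine Nat.le_of_dvd (Nat.pos_of_ne_zero
    (AddSubgroup.finiteIndex_range_nsmulAddMonoidHom_of_fg M p0).index_ne_zero)
    ((AddSubgroup.index_dvd_of_le ?_).trans ((pw M p).index_map_dvd (f := f.toAddMonoidHom)
      (Submodule.mkQ_surjective _)))
  rintro _ ⟨_, ⟨x, rfl⟩, rfl⟩
  exact ⟨f x, (map_nsmul f p x).symm⟩

end Rk

open Rk

/-- **row RNK** -/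
theorem rnk : RNK := fun M I _ _ p k Y r o f e h => by
  have cm (x) : Y.X.N (Y.t x) = Y.t (Y.X.N x) := by
    have : nr p k Y.g * Y.t = Y.t * nr p k Y.g :=
      Commute.sum_left _ _ _ fun i _ => Commute.pow_left o.gt _
    exact DFunLike.congr_fun this x
  have hm (x) : Y.m x = x - Y.t x := rfl
  have tt (x) : Y.t (Y.t x) = x := DFunLike.congr_fun o.tt x
  have := fin_le (A := Y.X.U) (B := Y.d.ker) inf_le_left
  have := fin_map (A := Y.X.U) Y.m
  have := fin_le (A := Y.M0 ⊓ Y.d.ker) inf_le_right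
  have := fin_le (A := Y.Mp ⊓ Y.d.ker) inf_le_right
  have := fin_le (A := Y.M0 ⊓ Y.Mp ⊓ Y.d.ker) inf_le_right
  have := fin_map (A := Y.Mp ⊓ Y.d.ker) Y.X.N
  have a1 := nul (A := Y.d.ker) Y.X.N
  have a2 := nul (A := Y.X.U) Y.m
  have a3 := nul (A := Y.Mp ⊓ Y.d.ker) Y.X.N
  have a4 := rk_le (A := Y.d.ker.map Y.X.N) (B := Y.M0 ⊓ Y.d.ker) (by
    rintro _ ⟨x, m, rfl⟩
    exact ⟨o.l0.n x trivial, (o.l0.com x).trans (by rw [show Y.X.d x = 0 from m, map_zero])⟩)
  have a5 := rk_ge (A := (Y.Mp ⊓ Y.d.ker).map Y.X.N) (B := Y.M0 ⊓ Y.Mp ⊓ Y.d.ker) e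
  have a6 : Y.X.U ⊓ Y.m.ker = Y.Mp ⊓ Y.d.ker ⊓ Y.X.N.ker := AddSubgroup.ext fun x => by
    simp only [Dp.U, AddSubgroup.mem_inf, AddMonoidHom.mem_ker, hm, o.Mp, sub_eq_zero, eq_comm (a := x)]
    tauto
  rw [a6] at a2
  refine (Nat.pow_le_pow_right o.pr.pos (show r ≤ finrank ℤ (Y.X.U.map Y.m) by
    change _ + finrank ℤ Y.X.U = _ at a1
    omega)).trans ((idx o.pr.ne_zero).trans_eq (congrArg AddSubgroup.index ?_))
  refine le_antisymm ?_ ?_
  · rintro _ ⟨x, rfl⟩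
    exact ⟨x, rfl⟩
  · rintro ⟨_, u, ⟨u1, u2⟩, rfl⟩ ⟨w, hw⟩
    change p • w = Y.m u at hw
    change Y.d u = 0 at u1
    change Y.X.N u = 0 at u2
    have d0 : Y.d w = 0 := o.tf0 _ (by rw [← map_nsmul, hw, hm, map_sub, o.dt, u1, map_zero, sub_zero])
    have n0 := o.mu (Y.X.N w) (by rw [← map_nsmul, hw, hm, map_sub, cm, u2, map_zero, sub_zero])
    have w1 : Y.m w ∈ Y.X.U := ⟨show Y.d _ = 0 by rw [hm, map_sub, o.dt, d0, map_zero, sub_zero],
      show Y.X.N _ = 0 by rw [hm, map_sub, cm, n0, sub_self]⟩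
    obtain ⟨s, hs⟩ := o.pr.odd_of_ne_two o.odd
    refine ⟨⟨Y.m (p • u - (s * (s + 1)) • Y.m w), _,
      sub_mem (nsmul_mem (show u ∈ Y.X.U from ⟨u1, u2⟩) _) (nsmul_mem w1 _), rfl⟩, Subtype.ext ?_⟩
    change p • Y.m _ = Y.m u
    have : p • Y.m (Y.m w) = 4 • Y.m u := by
      rw [← map_nsmul, ← map_nsmul, hw]
      simp only [hm, map_sub, tt]
      abel
    rw [map_sub, map_nsmul, map_nsmul, nsmul_sub, smul_comm p (s * _), this, smul_smul, smul_smul,
      show p * p = s * (s + 1) * 4 + 1 by rw [hs]; ring, add_nsmul, one_nsmul, add_sub_cancel_left]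

end Vale.Agent.P014X.Ac
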