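import Vale.Agent.P014X.Ac.St

/-! # P014X, the anchor: a layer of fields inside a field -/

set_option autoImplicit false
set_option linter.all false

open NumberField NumberField.Units IsDedekindDomain Function Finset
open scoped Classical nonZeroDivisors

noncomputable section

namespace Vale.Agent.P014X.Ac

open An (Pm nU)

namespace Tp

variable {F₀ F L : Type} [Field F₀] [NumberField F₀] [Field F] [NumberField F] [Field L]
  [NumberField L]

/-- the exponent at a prime -/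
def ct (v : Pm F) : AI F →+ ℤ where
  toFun x := FractionalIdeal.count F v (Additive.toMul x : (FractionalIdeal (𝓞 F)⁰ F)ˣ).1
  map_zero' := FractionalIdeal.count_one F v
  map_add' _ _ := FractionalIdeal.count_mul F v (Units.ne_zero _) (Units.ne_zero _)

theorem ct_pm (v w : Pm F) : ct v (pm w) = if w = v then 1 else 0 :=
  FractionalIdeal.count_maximal F v w

/-- the divisor with given exponents -/
def cb {J : Type} [Fintype J] (u : J → Pm F) : (J → ℤ) →+ AI F where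
  toFun c := ∑ j, c j • pm (u j)
  map_zero' := by simp
  map_add' _ _ := by simp only [Pi.add_apply, add_zsmul, sum_add_distrib]

theorem cb_inj {J : Type} [Fintype J] {u : J → Pm F} (h : Injective u) : Injective (cb u) :=
  (injective_iff_map_eq_zero _).2 fun c e => funext fun j => by
    have := congrArg (ct (u j)) e
    simpa [cb, map_sum, ct_pm, h.eq_iff] using this

theorem cb_range {J : Type} [Fintype J] {u : J → Pm F} {S : Finset (Pm F)}
    (h : Set.range u = S) : (cb u).range = Js S := by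
  refine le_antisymm ?_ ((AddSubgroup.closure_le _).2 ?_)
  · rintro _ ⟨c, rfl⟩
    exact sum_mem fun j _ => zsmul_mem (AddSubgroup.subset_closure
      (Set.mem_image_of_mem pm (h.subset (Set.mem_range_self j)))) _
  · rintro _ ⟨w, k, rfl⟩
    obtain ⟨j, rfl⟩ : w ∈ Set.range u := h ▸ k
    exact ⟨Pi.single j 1, by simp [cb, Pi.single_apply]⟩

theorem am_inj (φ : F →+* L) : Injective (am φ) := fun _ _ e =>
  Additive.toMul.injective (Units.ext (φ.injective
    (congrArg (fun z : AM L => ((Additive.toMul z : Lˣ) : L)) e)))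

theorem au_inj : Injective (au F) := fun _ _ e =>
  Additive.toMul.injective (Units.ext (RingOfIntegers.coe_injective
    (congrArg (fun z : AM F => ((Additive.toMul z : Fˣ) : F)) e)))

theorem amu_inj (φ : F →+* L) : Injective ((am φ).comp (au F)) := (am_inj φ).comp au_inj

theorem cls (e : EXF) (φ : F →+* L) :
    ((am φ).range.map (ad L)).relIndex (ai φ).range = classNumber F := by
  have : (am φ).range.map (ad L) = (ad F).range.map (ai φ) := by
    rw [AddMonoidHom.map_range, AddMonoidHom.map_range]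
    exact congrArg _ (AddMonoidHom.ext fun x => ((e.1 F L L φ (RingHom.id L)).2.1 x).symm)
  rw [this, (ai φ).range_eq_map,
    AddSubgroup.relIndex_map_map_of_injective _ _ (e.1 F L L φ (RingHom.id L)).2.2,
    AddSubgroup.relIndex_top_right, (e.2 F).2.1]

theorem unt (e : EXF) (φ : F →+* L) :
    (am φ).range ⊓ (ad L).ker = ((am φ).comp (au F)).range := by
  obtain ⟨-, a, b⟩ := e.1 F L L φ (RingHom.id L)
  ext x
  refine ⟨?_, ?_⟩
  · rintro ⟨⟨y, rfl⟩, k⟩
    obtain ⟨z, rfl⟩ : y ∈ (au F).range := (e.2 F).2.2.1 ▸ b (by rw [a, map_zero]; exact k)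
    exact ⟨z, rfl⟩
  · rintro ⟨z, rfl⟩
    refine ⟨⟨_, rfl⟩, ?_⟩
    have : au F z ∈ (ad F).ker := (e.2 F).2.2.1 ▸ ⟨z, rfl⟩
    show ad L (am φ (au F z)) = 0
    rw [← a, show ad F _ = 0 from this, map_zero]

theorem rk (e : EXF) (φ : F →+* L) :
    Module.finrank ℤ ↥((am φ).range ⊓ (ad L).ker) = rank F := by
  rw [unt e, ← (e.2 F).2.2.2.2.1, (e.2 F).2.2.1]
  exact ((AddMonoidHom.ofInjective (amu_inj φ)).symm.trans
    (AddMonoidHom.ofInjective au_inj)).toIntLinearEquiv.finrank_eq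

theorem sup (j : JSF) {φ : F →+* L} {S T} (h : Ab φ S T) :
    (ai φ).range ⊓ Js T = (Js S).map (ai φ) := by
  ext x
  exact ⟨fun ⟨⟨y, a⟩, b⟩ => ⟨y, (j.2 F L φ S T h y).1 (a.symm ▸ b), a⟩,
    fun ⟨y, a, b⟩ => ⟨⟨y, b⟩, b ▸ (j.2 F L φ S T h y).2 a⟩⟩

variable [Algebra F₀ F] {n : ℕ} {s : F ≃+* F}

theorem nm_mem (c : Cc n F₀ s) (y : AM F) :
    ∑ i ∈ range n, am (s ^ i).toRingHom y ∈ (am (algebraMap F₀ F)).range := by
  have v : ((Additive.toMul (∑ i ∈ range n, am (s ^ i).toRingHom y) : Fˣ) : F) =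
      ∏ i ∈ range n, (s ^ i) ((Additive.toMul y : Fˣ) : F) := by
    rw [toMul_sum, Units.coe_prod]
    rfl
  obtain ⟨z, e⟩ := (c.fix _).1 (show s (∏ i ∈ range n, (s ^ i) ((Additive.toMul y : Fˣ) : F)) = _ by
    have k := (prod_range_succ' (fun i => (s ^ i) ((Additive.toMul y : Fˣ) : F)) n).symm.trans
      (prod_range_succ _ n)
    rw [← c.ord, pow_orderOf_eq_one, pow_zero, c.ord] at k
    rw [map_prod, ← mul_right_cancel₀ ((map_ne_zero _).2 (Units.ne_zero _)) k]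
    exact prod_congr rfl fun i _ => by rw [pow_succ']; rfl)
  rw [← v] at e
  exact ⟨Additive.ofMul (Units.mk0 z fun k => Units.ne_zero _ (by rw [← e, k, map_zero])),
    Additive.toMul.injective (Units.ext e)⟩

theorem und {S₀ : Finset (Pm F₀)} {S : Finset (Pm F)} (h : Ab (algebraMap F₀ F) S₀ S)
    (k : S.card = S₀.card) : Injective (fun w : S => w.1.under (𝓞 F₀)) ∧
      Set.range (fun w : S => w.1.under (𝓞 F₀)) = S₀ := by
  have a : ∀ w : Pm F, w ∈ S ↔ w.under (𝓞 F₀) ∈ S₀ := fun w => h w _ rfl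
  have b : ∀ v ∈ S₀, ∃ w ∈ S, w.under (𝓞 F₀) = v := fun v m => by
    have := v.isMaximal
    obtain ⟨Q, q, r⟩ := Ideal.exists_maximal_ideal_liesOver_of_isIntegral (S := 𝓞 F) v.asIdeal
    have e : HeightOneSpectrum.under (𝓞 F₀) (⟨Q, q.isPrime,
        Ideal.ne_bot_of_liesOver_of_ne_bot v.ne_bot Q⟩ : Pm F) = v :=
      HeightOneSpectrum.ext r.over.symm
    exact ⟨_, (a _).2 (e.symm ▸ m), e⟩
  refine ⟨fun x y e => Subtype.ext (Finset.injOn_of_surjOn_of_card_le _
    (fun w m => (a w).1 m) (fun v m => b v m) k.le x.2 y.2 e), Set.ext fun v => ⟨?_, fun m => ?_⟩⟩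
  · rintro ⟨w, rfl⟩
    exact (a _).1 w.2
  · obtain ⟨w, x, y⟩ := b v m
    exact ⟨⟨w, x⟩, y⟩

/-- multiplication by the residue degrees -/
def dg {J : Type} (f : J → ℕ) : (J → ℤ) →+ (J → ℤ) where
  toFun c j := f j * c j
  map_zero' := by ext; simp
  map_add' _ _ := by ext; simp [mul_add]

theorem dg_idx {J : Type} [Fintype J] (f : J → ℕ) : (dg f).range.index = ∏ j, f j := by
  have : (dg f).range = AddSubgroup.pi Set.univ fun j => AddSubgroup.zmultiples (f j : ℤ) := by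
    ext x
    simp only [AddSubgroup.mem_pi, Set.mem_univ, true_imp_iff, Int.mem_zmultiples_iff]
    refine ⟨fun ⟨c, e⟩ j => ⟨c j, (congrFun e j).symm⟩, fun h => ?_⟩
    choose c e using h
    exact ⟨c, funext fun j => (e j).symm⟩
  simp [this, AddSubgroup.index_pi, Int.index_zmultiples]

theorem nm_cb (r : NRM) (c : Cc n F₀ s) (S : Finset (Pm F)) (x : S → ℤ) :
    ∑ i ∈ range n, ai (s ^ i).toRingHom (cb (fun w : S => w.1) x) = ai (algebraMap F₀ F)
      (cb (fun w : S => w.1.under (𝓞 F₀)) (dg (fun w : S => w.1.asIdeal.inertiaDeg (𝓞 F₀)) x)) := by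
  show ∑ i ∈ range n, ai (s ^ i).toRingHom (∑ j, x j • pm j.1) = ai _ (∑ j : S, (_ * x j) • pm _)
  simp only [map_sum, map_zsmul]
  rw [sum_comm]
  refine sum_congr rfl fun j _ => ?_
  rw [sum_zsmul, (r n F₀ F s c).1 j.1 (j.1.under (𝓞 F₀)) rfl, mul_zsmul', natCast_zsmul]

end Tp

open Tp

theorem trp (exf : EXF) (jsf : JSF) (nrm : NRM) : TRP := by
  intro n F₀ F L _ _ _ _ _ _ _ s φ X S₀ S T c a₀ a k hd hJ com NJ hN hN' M₁ M₀ I₁ I₀ e1 e0 f1 f0
  subst e1 e0 f1 f0
  obtain ⟨cp, -, i0⟩ := exf.1 F₀ F L (algebraMap F₀ F) φ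
  have i1 := (exf.1 F L L φ (RingHom.id L)).2.2
  have i2 := (exf.1 F₀ L L (φ.comp (algebraMap F₀ F)) (RingHom.id L)).2.2
  obtain ⟨u1, u2⟩ := und a₀ k
  have r1 : (cb fun w : S => w.1).range = Js S := cb_range Subtype.range_coe
  have nb := fun x => (hN' _).trans ((congrArg (ai φ) (nm_cb nrm c S x)).trans (cp _).symm)
  have nu : ∀ y, X.N ((am φ).comp (au F) y) = (am (φ.comp (algebraMap F₀ F))).comp (au F₀)
      (Additive.ofMul (nU F₀ F (Additive.toMul y))) := fun y =>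
    (hN _).trans (congrArg (am φ) ((nrm n F₀ F s c).2.2 (Additive.toMul y)))
  have s0 : (ai (φ.comp (algebraMap F₀ F))).range ⊓ Js T =
      (Js S₀).map (ai (φ.comp (algebraMap F₀ F))) := by
    have q : ∀ y, ai (φ.comp (algebraMap F₀ F)) y ∈ Js T ↔ y ∈ Js S₀ := fun y => by
      rw [cp, jsf.2 F L φ S T a, jsf.2 F₀ F _ S₀ S a₀]
    ext x
    exact ⟨fun ⟨⟨y, a⟩, b⟩ => ⟨y, (q y).1 (a.symm ▸ b), a⟩,
      fun ⟨y, a, b⟩ => ⟨⟨y, b⟩, b ▸ (q y).2 a⟩⟩
  have dm : ∀ {K : Type} [Field K] [NumberField K] (ψ : K →+* L), ∀ x ∈ (am ψ).range,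
      X.d x ∈ (ai ψ).range := fun ψ x ⟨y, e⟩ =>
    ⟨_, by rw [(exf.1 _ L L ψ (RingHom.id L)).2.1, e, hd]⟩
  refine ⟨⟨com, NJ, dm _, dm _, ?_, ?_, ?_⟩, by rw [Dp.h, hd, cls exf], by rw [Dp.h, hd, cls exf],
    ?_, ?_, by rw [hd, rk exf], by rw [hd, rk exf], ?_, amu_inj φ⟩
  · rintro _ ⟨y, rfl⟩
    obtain ⟨z, e⟩ := nm_mem c y
    exact ⟨z, by rw [hN, ← e]; rfl⟩
  · rintro _ ⟨y, rfl⟩
    obtain ⟨z, e⟩ := (nrm n F₀ F s c).2.1 y
    exact ⟨z, by rw [hN', ← e, cp]⟩
  · rintro _ ⟨y, rfl⟩ m z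
    obtain ⟨x, rfl⟩ : y ∈ (cb fun w : S => w.1).range := r1 ▸ (jsf.2 F L φ S T a y).1 (hJ ▸ m)
    have := cb_inj u1 ((i2 (((nb x).symm.trans z).trans (map_zero _).symm)).trans (map_zero _).symm)
    obtain rfl : x = 0 := funext fun j => (mul_eq_zero.1 (congrFun this j)).resolve_left
      (have := j.1.isPrime; Int.natCast_ne_zero.2 (Ideal.inertiaDeg_pos _ _).ne')
    rw [map_zero, map_zero]
  · have : (((am φ).comp (au F)).range).map X.N = (nU F₀ F).range.toAddSubgroup.map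
        ((am (φ.comp (algebraMap F₀ F))).comp (au F₀)) := by
      ext x
      exact ⟨fun ⟨_, ⟨y, rfl⟩, e⟩ => ⟨_, ⟨_, rfl⟩, (nu y).symm.trans e⟩,
        fun ⟨_, ⟨y, rfl⟩, e⟩ => ⟨_, ⟨Additive.ofMul y, rfl⟩, (nu _).trans e⟩⟩
    rw [Dp.e, hd, unt exf, unt exf, this, AddMonoidHom.range_eq_map,
      AddSubgroup.relIndex_map_map_of_injective _ _ (amu_inj _), AddSubgroup.relIndex_top_right,
      Subgroup.index_toAddSubgroup]
  · have : ((Js S).map (ai φ)).map X.N' =
        (dg fun w : S => w.1.asIdeal.inertiaDeg (𝓞 F₀)).range.map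
          ((ai (φ.comp (algebraMap F₀ F))).comp (cb fun w : S => w.1.under (𝓞 F₀))) := by
      rw [← r1, AddMonoidHom.map_range, AddMonoidHom.map_range, AddMonoidHom.map_range]
      exact congrArg _ (AddMonoidHom.ext nb)
    rw [Dp.f, hJ, sup jsf a, s0, this, ← cb_range u2, (cb _).range_eq_map, AddSubgroup.map_map,
      AddSubgroup.relIndex_map_map_of_injective _ _ (by exact fun _ _ e => cb_inj u1 (i2 e)),
      AddSubgroup.relIndex_top_right, dg_idx,
      prod_coe_sort S fun w => w.asIdeal.inertiaDeg (𝓞 F₀)]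
  · rw [Dp.U, inf_right_comm, inf_comm X.d.ker, hd, unt exf]
    ext x
    refine ⟨fun ⟨⟨y, e⟩, z⟩ => ⟨y, ?_, e⟩, fun ⟨y, z, e⟩ => ⟨⟨y, e⟩, ?_⟩⟩
    · exact amu_inj _ (((nu y).symm.trans (e.symm ▸ z)).trans (map_zero _).symm)
    · show X.N x = 0
      rw [← e, nu, show nU F₀ F (Additive.toMul y) = 1 from z]
      exact map_zero _

end Vale.Agent.P014X.Ac
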