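import Vale.Agent.P014X.Ac.St

/-! # P014X, the anchor: the count of the singular numbers -/

set_option autoImplicit false
set_option linter.all false

open Function Finset
open scoped Classical

noncomputable section

namespace Vale.Agent.P014X.Ac

namespace Wct

theorem eqm {A : Type} [AddCommGroup A] {S : AddSubgroup A} {a b : A} (h : a ∈ S) (e : b = a) :
    b ∈ S := e ▸ h

theorem nr_apply {A : Type} [AddCommGroup A] (p k : ℕ) (g : AddMonoid.End A) (x : A) :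
    nr p k g x = ∑ i ∈ range p, (g ^ (p ^ k * i)) x :=
  AddMonoidHom.finset_sum_apply _ _ _

/-- maps which commute with the actions commute with the powers -/
theorem pow_com {A B : Type} [AddCommGroup A] [AddCommGroup B] (f : A →+ B) {g : AddMonoid.End A}
    {g' : AddMonoid.End B} (h : ∀ x, f (g x) = g' (f x)) (n : ℕ) (x : A) :
    f ((g ^ n) x) = (g' ^ n) (f x) := by
  induction n generalizing x with
  | zero => rfl
  | succ n ih => rw [pow_succ, pow_succ]; exact (ih _).trans (congrArg _ (h x))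

theorem nr_com {A B : Type} [AddCommGroup A] [AddCommGroup B] (f : A →+ B) {g : AddMonoid.End A}
    {g' : AddMonoid.End B} (h : ∀ x, f (g x) = g' (f x)) (p k : ℕ) (x : A) :
    f (nr p k g x) = nr p k g' (f x) := by
  rw [nr_apply, nr_apply, map_sum]
  exact sum_congr rfl fun i _ => pow_com f h _ x

/-- the bound for a subquotient -/
theorem sub (amd : AMD) {A : Type} [AddCommGroup A] {p k : ℕ} (hp : p.Prime) (G : AddMonoid.End A)
    (Q R : AddSubgroup A) (hQ : ∀ x ∈ Q, G x ∈ Q) (hR : ∀ x ∈ R, G x ∈ R)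
    (h1 : G ^ p ^ (k + 1) = 1) (h2 : ∀ x ∈ Q, nr p k G x ∈ R) (fin : R.relIndex Q ≠ 0) :
    p ^ min (padicValNat p (R.relIndex Q)) ((p - 1) * p ^ k) ≤
      R.relIndex (Q ⊓ R.comap (nsmulAddMonoidHom p)) := by
  let gQ : AddMonoid.End Q := (G.comp Q.subtype).codRestrict Q fun x => hQ _ x.2
  let f := QuotientAddGroup.mk' (R.addSubgroupOf Q)
  let gB : AddMonoid.End (Q ⧸ R.addSubgroupOf Q) :=
    QuotientAddGroup.map _ _ gQ fun x hx => hR _ hx
  have sf : Surjective f := QuotientAddGroup.mk'_surjective _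
  have c1 : ∀ x, Q.subtype (gQ x) = G (Q.subtype x) := fun _ => rfl
  have c2 : ∀ x, f (gQ x) = gB (f x) := fun _ => rfl
  haveI : Finite (Q ⧸ R.addSubgroupOf Q) := Nat.finite_of_card_ne_zero fin
  have a := amd (Q ⧸ R.addSubgroupOf Q) p k gB hp ?_ ?_
  · refine a.trans (le_of_eq ?_)
    have kf : f.ker = R.addSubgroupOf Q := QuotientAddGroup.ker_mk' _
    refine Eq.trans ?_ (AddSubgroup.relIndex_addSubgroupOf
      (inf_le_left : Q ⊓ R.comap (nsmulAddMonoidHom p) ≤ Q))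
    refine Eq.trans ?_ (congrArg (AddSubgroup.relIndex · _) kf)
    rw [AddSubgroup.relIndex_ker]
    refine congrArg (fun S : AddSubgroup (Q ⧸ R.addSubgroupOf Q) => Nat.card S) ?_
    ext z
    obtain ⟨x, rfl⟩ := sf z
    have e : ∀ x : Q, f x ∈ (nsmulAddMonoidHom p : _ →+ Q ⧸ R.addSubgroupOf Q).ker ↔ p • x.1 ∈ R :=
      fun x => by
      rw [AddMonoidHom.mem_ker, nsmulAddMonoidHom_apply, ← map_nsmul, ← AddMonoidHom.mem_ker,
        QuotientAddGroup.ker_mk']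
      rfl
    constructor
    · exact fun h => ⟨x, ⟨x.2, (e x).1 h⟩, rfl⟩
    · rintro ⟨y, hy, h⟩
      exact h ▸ (e y).2 hy.2
  · refine AddMonoidHom.ext fun z => ?_
    obtain ⟨x, rfl⟩ := sf z
    refine (pow_com f c2 _ x).symm.trans (congrArg f (Subtype.ext ?_))
    exact (pow_com Q.subtype c1 _ x).trans (by rw [h1]; rfl)
  · refine AddMonoidHom.ext fun z => ?_
    obtain ⟨x, rfl⟩ := sf z
    refine (nr_com f c2 p k x).symm.trans ((QuotientAddGroup.eq_zero_iff _).2 ?_)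
    exact eqm (S := R) (h2 _ x.2) (nr_com Q.subtype c1 p k x)

variable {M I : Type} [AddCommGroup M] [AddCommGroup I] {p k : ℕ} {Y : Mn M I p k}

theorem mem_R {z : M × I} : z ∈ Y.X.R ⊤ ⊤ ↔ ∃ x, Y.X.N x = z.1 ∧ z.2 - Y.d x ∈ Y.J := by
  constructor
  · intro h
    obtain ⟨_, ⟨x, -, rfl⟩, ⟨a, b⟩, ⟨h1, -, h2⟩, rfl⟩ := AddSubgroup.mem_sup.1 h
    obtain rfl : a = 0 := h1
    exact ⟨x, (add_zero _).symm, by
      have : (Y.X.d x + b) - Y.d x = b := add_sub_cancel_left _ _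
      exact this.symm ▸ h2⟩
  · rintro ⟨x, h1, h2⟩
    refine AddSubgroup.mem_sup.2 ⟨_, ⟨x, trivial, rfl⟩, (0, z.2 - Y.d x), ⟨rfl, trivial, h2⟩, ?_⟩
    exact Prod.ext ((add_zero _).trans h1) (add_sub_cancel _ _)

theorem mem_P {z : M × I} : z ∈ Y.X.P Y.M0 ⊤ ↔ z.1 ∈ Y.M0 ∧ Y.d z.1 - Y.X.N' z.2 ∈ Y.J := by
  have : (Y.X.d.coprod (-Y.X.N')) z = Y.d z.1 - Y.X.N' z.2 := (sub_eq_add_neg _ _).symm
  exact ⟨fun h => ⟨h.1.1, this ▸ h.2⟩, fun h => ⟨⟨h.1, trivial⟩, show _ ∈ Y.J from this.symm ▸ h.2⟩⟩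

theorem m_eq (x : M) : Y.m x = x - Y.t x := rfl

theorem m2_eq (z : M × I) : Y.m2 z = (z.1 - Y.t z.1, z.2 - Y.t' z.2) := rfl

variable (o : Y.Ok)
include o

theorem tN (x : M) : Y.t (Y.X.N x) = Y.X.N (Y.t x) :=
  nr_com Y.t (fun x => (DFunLike.congr_fun o.gt x).symm) p k x

theorem tN' (x : I) : Y.t' (Y.X.N' x) = Y.X.N' (Y.t' x) :=
  nr_com Y.t' (fun x => (DFunLike.congr_fun o.gt' x).symm) p k x

theorem mN (x : M) : Y.m (Y.X.N x) = Y.X.N (Y.m x) := by rw [m_eq, m_eq, map_sub, tN o]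

theorem dm (x : M) : Y.d (Y.m x) = Y.d x - Y.t' (Y.d x) := by rw [m_eq, map_sub, o.dt]

theorem tm (x : M) : Y.m x + Y.t (Y.m x) = 0 := by
  have : Y.t (Y.t x) = x := DFunLike.congr_fun o.tt x
  rw [m_eq, map_sub, this, sub_add_sub_cancel, sub_self]

theorem mJ {x : I} (h : x ∈ Y.J) : x - Y.t' x ∈ Y.J := sub_mem h (o.tJ x h)

theorem tM {x : M} (h : x ∈ Y.M0) : Y.t x ∈ Y.M0 := (o.M0 _).2 <|
  (pow_com Y.t (fun x => (DFunLike.congr_fun o.gt x).symm) _ x).symm.trans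
    (congrArg _ ((o.M0 x).1 h))

theorem m2R {z : M × I} (h : z ∈ Y.X.R ⊤ ⊤) : Y.m2 z ∈ Y.X.R ⊤ ⊤ := by
  obtain ⟨x, h1, h2⟩ := mem_R.1 h
  refine mem_R.2 ⟨Y.m x, by rw [← mN o, h1]; rfl, ?_⟩
  have := mJ o h2
  rw [map_sub] at this
  rw [dm o, m2_eq]
  exact eqm this (by simp only; abel)

theorem m2m2 (z : M × I) : Y.m2 (Y.m2 z) = 2 • Y.m2 z := by
  have a : Y.t (Y.t z.1) = z.1 := DFunLike.congr_fun o.tt _
  have b : Y.t' (Y.t' z.2) = z.2 := DFunLike.congr_fun o.tt' _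
  simp only [m2_eq, map_sub, a, b, two_nsmul, Prod.mk_add_mk]
  exact Prod.ext (by simp only; abel) (by simp only; abel)

theorem nM {y : M} (h : y ∈ Y.M0) : Y.X.N y = p • y := by
  have : ∀ i, (Y.g ^ (p ^ k * i)) y = y := fun i => by
    rw [pow_mul]
    induction i with
    | zero => rfl
    | succ i ih => rw [pow_succ]; exact (congrArg _ ((o.M0 y).1 h)).trans ih
  refine (nr_apply p k Y.g y).trans ?_
  simp only [this, sum_const, card_range]

omit o in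
variable (Y) in
/-- the action on pairs -/
def G : AddMonoid.End (M × I) := AddMonoidHom.prodMap Y.g Y.g'

theorem GR (z : M × I) (h : z ∈ Y.X.R ⊤ ⊤) : G Y z ∈ Y.X.R ⊤ ⊤ := by
  obtain ⟨x, h1, h2⟩ := mem_R.1 h
  refine mem_R.2 ⟨Y.g x, ?_, ?_⟩
  · exact (nr_com Y.g (g := Y.g) (fun _ => rfl) p k x).symm.trans (congrArg _ h1)
  · have := o.gJ _ h2
    rwa [map_sub, ← o.dg] at this

theorem GP (z : M × I) (h : z ∈ Y.X.P Y.M0 ⊤) : G Y z ∈ Y.X.P Y.M0 ⊤ := by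
  obtain ⟨h1, h2⟩ := mem_P.1 h
  refine mem_P.2 ⟨(o.M0 _).2 ?_, ?_⟩
  · exact (pow_com Y.g (g := Y.g) (fun _ => rfl) _ z.1).symm.trans (congrArg _ ((o.M0 _).1 h1))
  · have := o.gJ _ h2
    rwa [map_sub, ← o.dg, show Y.g' (Y.X.N' z.2) = Y.X.N' (Y.g' z.2) from
      nr_com Y.g' (g := Y.g') (fun _ => rfl) p k _] at this

theorem Gm (z : M × I) : Y.m2 (G Y z) = G Y (Y.m2 z) := by
  have a : Y.g (Y.t z.1) = Y.t (Y.g z.1) := DFunLike.congr_fun o.gt _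
  have b : Y.g' (Y.t' z.2) = Y.t' (Y.g' z.2) := DFunLike.congr_fun o.gt' _
  exact Prod.ext (show _ = Y.g (z.1 - Y.t z.1) by rw [map_sub, a]; rfl)
    (show _ = Y.g' (z.2 - Y.t' z.2) by rw [map_sub, b]; rfl)

theorem G1 : G Y ^ p ^ (k + 1) = 1 := AddMonoidHom.ext fun z => Prod.ext
  ((pow_com (AddMonoidHom.fst M I) (g := G Y) (g' := Y.g) (fun _ => rfl) _ z).trans
    (by rw [o.gp]; rfl))
  ((pow_com (AddMonoidHom.snd M I) (g := G Y) (g' := Y.g') (fun _ => rfl) _ z).trans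
    (by rw [o.gp']; rfl))

theorem nP (z : M × I) (h : z ∈ Y.X.P Y.M0 ⊤) : nr p k (G Y) z ∈ Y.X.R ⊤ ⊤ := by
  obtain ⟨h1, h2⟩ := mem_P.1 h
  refine mem_R.2 ⟨z.1, (nr_com (AddMonoidHom.fst M I) (g := G Y) (g' := Y.g)
    (fun _ => rfl) p k z).symm, ?_⟩
  have e : (nr p k (G Y) z).2 = Y.X.N' z.2 :=
    nr_com (AddMonoidHom.snd M I) (g := G Y) (g' := Y.g') (fun _ => rfl) p k z
  rw [e, ← neg_sub]
  exact neg_mem h2

theorem nR (z : M × I) (h : z ∈ Y.X.R ⊤ ⊤) : nr p k (G Y) z ∈ Y.X.R ⊤ ⊤ := by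
  rw [nr_apply]
  refine sum_mem fun i _ => ?_
  generalize p ^ k * i = n
  induction n with
  | zero => exact h
  | succ n ih => rw [pow_succ']; exact GR o _ ih

omit o in
variable (Y) in
/-- the triples -/
def V : AddSubgroup (M × M × I) where
  carrier := {v | v.2.1 ∈ Y.M0 ∧ p • v.2.1 = Y.X.N v.1 ∧ p • v.2.2 - Y.d v.1 ∈ Y.J ∧
    v.1 + Y.t v.1 ∈ pw M p}
  zero_mem' := ⟨zero_mem _, by simp, by simp, by simp⟩
  add_mem' := fun {v w} a b => ⟨add_mem a.1 b.1, by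
      rw [Prod.fst_add, Prod.snd_add, Prod.fst_add, nsmul_add, map_add, a.2.1, b.2.1], by
      have := add_mem a.2.2.1 b.2.2.1
      rw [Prod.fst_add, Prod.snd_add, Prod.snd_add, nsmul_add, map_add]
      exact eqm this (by abel), by
      have := add_mem a.2.2.2 b.2.2.2
      rw [Prod.fst_add, map_add]
      exact eqm this (by abel)⟩
  neg_mem' := fun {v} a => ⟨neg_mem a.1, by
      rw [Prod.fst_neg, Prod.snd_neg, Prod.fst_neg, neg_nsmul, map_neg, a.2.1], by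
      have := neg_mem a.2.2.1
      rw [Prod.fst_neg, Prod.snd_neg, Prod.snd_neg, neg_nsmul, map_neg]
      exact eqm this (by abel), by
      have := neg_mem a.2.2.2
      rw [Prod.fst_neg, map_neg]
      exact eqm this (by abel)⟩

omit o in
theorem VW : (V Y).map (AddMonoidHom.fst _ _) ≤ Y.W := by
  rintro _ ⟨v, ⟨-, h2, h3, h4⟩, rfl⟩
  refine ⟨⟨?_, ⟨_, h2⟩⟩, h4⟩
  exact AddSubgroup.mem_sup.2 ⟨_, neg_mem h3, _, ⟨v.2.2, rfl⟩, by
    rw [neg_sub]; exact sub_add_cancel _ _⟩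

theorem ker {v : M × M × I} (h : v ∈ V Y) (a : v.1 ∈ pw M p) : Y.m2 v.2 ∈ Y.X.R ⊤ ⊤ := by
  obtain ⟨-, h2, h3, -⟩ := h
  obtain ⟨w, e⟩ := a
  replace e : p • w = v.1 := e
  rw [← e, map_nsmul] at h2 h3
  rw [← nsmul_sub] at h3
  have a := o.mu (v.2.1 - Y.X.N w) (by rw [nsmul_sub, h2, sub_self])
  have b := mJ o (o.tf _ h3)
  rw [map_sub] at a b
  refine mem_R.2 ⟨Y.m w, ?_, ?_⟩
  · rw [← mN o, m_eq, m2_eq]
    exact sub_eq_sub_iff_sub_eq_sub.1 (by rw [← neg_sub, ← a, neg_sub])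
  · rw [dm o, m2_eq]
    exact eqm b (by simp only; abel)

theorem onto : ((Y.X.P Y.M0 ⊤).map Y.m2 ⊔ Y.X.R ⊤ ⊤) ⊓ (Y.X.R ⊤ ⊤).comap (nsmulAddMonoidHom p) ≤
    (V Y).map (Y.m2.comp (AddMonoidHom.snd _ _)) ⊔ Y.X.R ⊤ ⊤ := by
  rintro q ⟨h1, h2⟩
  obtain ⟨_, ⟨z, hz, rfl⟩, r, hr, rfl⟩ := AddSubgroup.mem_sup.1 h1
  refine add_mem ?_ (AddSubgroup.mem_sup_right hr)
  replace h2 : p • (Y.m2 z + r) ∈ Y.X.R ⊤ ⊤ := h2
  rw [nsmul_add, AddSubgroup.add_mem_cancel_right _ (nsmul_mem hr p)] at h2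
  obtain ⟨x, e1, e2⟩ := mem_R.1 h2
  have y0 : (Y.m2 z).1 ∈ Y.M0 := sub_mem (mem_P.1 hz).1 (tM o (mem_P.1 hz).1)
  have a : 4 • Y.m2 z ∈ (V Y).map (Y.m2.comp (AddMonoidHom.snd _ _)) := by
    refine ⟨(Y.m x, Y.m2 (Y.m2 z)), ⟨sub_mem y0 (tM o y0), ?_, ?_, ?_⟩, ?_⟩
    · rw [← mN o, e1]
      exact (map_nsmul Y.m p _).symm
    · have := mJ o e2
      rw [map_sub, Prod.smul_snd, map_nsmul] at this
      rw [dm o, m2_eq (Y.m2 z), nsmul_sub]
      exact eqm this (by abel)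
    · exact (tm o x).symm ▸ zero_mem _
    · show Y.m2 (Y.m2 (Y.m2 z)) = _
      rw [m2m2 o, m2m2 o, ← mul_nsmul']
  obtain ⟨n, hn⟩ := o.pr.odd_of_ne_two o.odd
  have e : Y.m2 z = p • p • Y.m2 z - (n * n + n) • 4 • Y.m2 z := by
    rw [← mul_nsmul', ← mul_nsmul', show p * p = (n * n + n) * 4 + 1 by rw [hn]; ring, succ_nsmul,
      add_sub_cancel_left]
  rw [e]
  exact sub_mem (AddSubgroup.mem_sup_right (nsmul_mem h2 p))
    (AddSubgroup.mem_sup_left (nsmul_mem a _))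

theorem unit : Y.X.U.map Y.m ≤ ((Y.X.R ⊤ ⊤).comap (Y.m2.comp (AddMonoidHom.snd _ _)) ⊓ V Y).map
    (AddMonoidHom.fst _ _) := by
  rintro _ ⟨u, ⟨h1, h2⟩, rfl⟩
  replace h1 : Y.d u = 0 := h1
  replace h2 : Y.X.N u = 0 := h2
  refine ⟨(Y.m u, 0), ⟨?_, zero_mem _, ?_, ?_, (tm o u).symm ▸ zero_mem _⟩, rfl⟩
  · exact show Y.m2 0 ∈ Y.X.R ⊤ ⊤ from (map_zero Y.m2).symm ▸ zero_mem _
  · rw [← mN o, h2, map_zero]
    exact nsmul_zero _
  · rw [dm o, h1, map_zero, sub_zero, sub_zero]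
    exact (nsmul_zero p : p • (0 : I) = 0).symm ▸ zero_mem _

omit o in
open AddSubgroup in
theorem main (amd : AMD) : WCT := by
  intro M I _ _ p k Y o hb hW
  have s := sub amd o.pr (G Y) _ _ ?_ (GR o) (G1 o) ?_ hb
  · set A := (pw M p).comap (AddMonoidHom.fst M (M × I))
    set K := (Y.X.R ⊤ ⊤).comap (Y.m2.comp (AddMonoidHom.snd M (M × I)))
    have le : A.relIndex (V Y) ≤ (pw M p).relIndex Y.W := by
      rw [relIndex_comap]
      exact relIndex_le_of_le_right VW hW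
    have ne : A.relIndex (V Y) ≠ 0 := by
      rw [relIndex_comap]
      exact fun e => hW (relIndex_eq_zero_of_le_right VW e)
    have e := relIndex_mul_relIndex (A ⊓ V Y) (K ⊓ V Y) (V Y)
      (fun v h => ⟨ker o h.2 h.1, h.2⟩) inf_le_right
    rw [inf_relIndex_right, inf_relIndex_right, ← inf_relIndex_right (A ⊓ V Y), inf_assoc,
      inf_eq_right.2 (inf_le_right : K ⊓ V Y ≤ V Y), inf_relIndex_right] at e
    rw [← e] at le ne
    refine le_trans (Nat.mul_le_mul ?_ (s.trans ?_)) le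
    · have := left_ne_zero_of_mul ne
      rw [relIndex_comap] at this ⊢
      exact relIndex_le_of_le_right (unit o) this
    · have := right_ne_zero_of_mul ne
      rw [relIndex_comap, ← relIndex_sup_right] at this
      rw [relIndex_comap, ← relIndex_sup_right (map _ (V Y))]
      exact relIndex_le_of_le_right (onto o) this
  · intro x h
    obtain ⟨_, ⟨z, hz, rfl⟩, r, hr, rfl⟩ := mem_sup.1 h
    rw [map_add, ← Gm o]
    exact add_mem (mem_sup_left ⟨_, GP o z hz, rfl⟩) (mem_sup_right (GR o r hr))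
  · intro x h
    obtain ⟨_, ⟨z, hz, rfl⟩, r, hr, rfl⟩ := mem_sup.1 h
    rw [map_add, ← nr_com Y.m2 (Gm o)]
    exact add_mem (m2R o (nP o z hz)) (nR o r hr)

end Wct

/-- the count of the singular numbers -/
theorem wct (amd : AMD) : WCT := Wct.main amd

end Vale.Agent.P014X.Ac
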