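import Vale.Agent.P014X.Ac.St

/-! # P014X: the row `ZCT` (helper80) -/

set_option autoImplicit false
set_option linter.all false

namespace Vale.Agent.P014X.Ac

open AddSubgroup

namespace Zct

/-- an index which is a power of `p` -/
theorem pow {M : Type} [AddCommGroup M] {p : ℕ} (hp : p.Prime) {K V : AddSubgroup M}
    (h : ∀ x ∈ V, p • x ∈ K) (n : K.relIndex V ≠ 0) : ∃ k, K.relIndex V = p ^ k := by
  refine ⟨_, Nat.eq_prime_pow_of_unique_prime_dvd n fun {q} hq d => ?_⟩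
  have := Fact.mk hq
  have : Finite (V ⧸ K.addSubgroupOf V) := Nat.finite_of_card_ne_zero n
  obtain ⟨x, hx⟩ := exists_prime_addOrderOf_dvd_card' (G := V ⧸ K.addSubgroupOf V) q d
  obtain ⟨x, rfl⟩ := QuotientAddGroup.mk_surjective x
  refine (Nat.prime_dvd_prime_iff_eq hq hp).1 (hx ▸ addOrderOf_dvd_of_nsmul_eq_zero ?_)
  rw [← QuotientAddGroup.mk_nsmul, QuotientAddGroup.eq_zero_iff]
  exact h x x.2

end Zct

theorem zct : ZCT := by
  intro M _ p C V hp le n _
  have := Fact.mk hp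
  have d : (C ⊔ pw M p).relIndex V ∣ C.relIndex V := relIndex_dvd_of_le_left _ le_sup_left
  obtain ⟨k, hk⟩ := Zct.pow hp (K := C ⊔ pw M p) (V := V)
    (fun x _ => mem_sup_right ⟨x, rfl⟩) (ne_zero_of_dvd_ne_zero n d)
  rw [← relIndex_sup_right V, ← relIndex_mul_relIndex _ (C ⊔ pw M p) _ le_sup_right
    (sup_le_sup_right le _), relIndex_sup_right, ← sup_eq_left.2 le, sup_assoc, relIndex_sup_right,
    sup_eq_left.2 le, hk]
  exact Nat.mul_le_mul_left _ (Nat.pow_le_pow_right hp.pos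
    ((padicValNat_dvd_iff_le n).1 (hk ▸ d)))

end Vale.Agent.P014X.Ac
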