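import Vale.Agent.P014X.An.All
import Vale.Agent.P014X.Ac.Anc
import Vale.Agent.P014X.Ac.Paa
import Vale.Agent.P014X.Ac.Beq
import Vale.Agent.P014X.Ac.Mi1
import Vale.Agent.P014X.Ac.Mi2
import Vale.Agent.P014X.Ac.Amd
import Vale.Agent.P014X.Ac.Wct
import Vale.Agent.P014X.Ac.Zct
import Vale.Agent.P014X.Ac.Rnk
import Vale.Agent.P014X.Ac.Exf
import Vale.Agent.P014X.Ac.Jsf
import Vale.Agent.P014X.Ac.Nrm
import Vale.Agent.P014X.Ac.Trp
import Vale.Agent.P014X.Ac.Smu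

/-! # P014X, the anchor on the side of the fields -/

namespace Vale.Agent.P014X.Ac

theorem anc0 : ANC :=
  anc An.gal (An.loc An.gal) An.idx0 exf jsf nrm (trp exf jsf nrm) smu rnk
    (paa beq mi1 mi2 mi3 (wct amd) zct)

end Vale.Agent.P014X.Ac
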