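import Vale.Agent.P014X.Ac.St2

/-! # P014X, the anchor: families of roots (rows `ROO`, `EPS`) -/

set_option autoImplicit false
set_option linter.all false

open Function Finset
open scoped Classical

noncomputable section

namespace Vale.Agent.P014X.Ac

open Vale.Agent.P022 (Qb GQ)

namespace Eps

/-- free coordinates -/
theorem core {G X : Type} [Group G] [MulAction G X] [Fintype X] {p e r : ℕ} {σ ι : G}
    (hp : p.Prime) (h2 : p ≠ 2) (fr : ∀ (i : ℕ) (y : X), σ ^ i • y = y ↔ p ∣ i)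
    (cm : ∀ y : X, σ • ι • y = ι • σ • y) (he : e = 0 ∨ e = 1 ∧ ∀ y : X, ι • y ≠ y ∧ ι • ι • y = y)
    (hr : (1 + e) * p * r = (p - 1) * Fintype.card X) : ∃ T : Finset X, r ≤ T.card ∧
    ∀ (V : Type) [AddCommGroup V] (d : X → V), (∀ y ∉ T, d y = 0) →
      (∀ y, d (σ • y) - d y = e • (d (σ • ι • y) - d (ι • y))) → d = 0 := by
  obtain ⟨k, rfl⟩ := Nat.exists_eq_succ_of_ne_zero hp.ne_zero
  let s : Setoid X := ⟨fun y z => ∃ i : ℕ, σ ^ i • y = z, fun y => ⟨0, by simp⟩,
    fun {y z} ⟨i, h⟩ => ⟨k * i, by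
      rw [← h, ← mul_smul, ← pow_add, ← Nat.succ_mul]; exact (fr _ y).2 (dvd_mul_right _ _)⟩,
    fun ⟨i, h⟩ ⟨j, h'⟩ => ⟨j + i, by rw [pow_add, mul_smul, h, h']⟩⟩
  obtain ⟨c, hc⟩ := Countable.exists_injective_nat (Quotient s)
  have ci (i : ℕ) (y : X) : σ ^ i • ι • y = ι • σ ^ i • y := by
    induction i with
    | zero => simp
    | succ i h => rw [pow_succ', mul_smul, mul_smul, h, cm]
  have mp (i : ℕ) (y : X) : (⟦σ ^ i • y⟧ : Quotient s) = ⟦y⟧ := (Quotient.sound (s := s) (a := y) ⟨i, rfl⟩).symm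
  obtain ⟨S, hS⟩ : ∃ S : Finset X, ∀ y, y ∈ S ↔ e = 0 ∨ c (.mk s y) < c (.mk s (ι • y)) :=
    ⟨_, fun y => mem_filter_univ (p := fun y => e = 0 ∨ c (.mk s y) < c (.mk s (ι • y))) y⟩
  have sp (i : ℕ) (y : X) : σ ^ i • y ∈ S ↔ y ∈ S := by rw [hS, hS, ← ci, mp, mp]
  obtain ⟨R, hR⟩ : ∃ R : Finset X, ∀ y, y ∈ R ↔ y ∈ S ∧ (⟦y⟧ : Quotient s).out = y :=
    ⟨_, fun y => mem_filter_univ (p := fun y => y ∈ S ∧ (⟦y⟧ : Quotient s).out = y) y⟩
  have c1 : Fintype.card X ≤ (1 + e) * S.card := by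
    obtain rfl | ⟨rfl, he⟩ := he
    · rw [eq_univ_of_forall fun y => (hS y).2 (.inl rfl), add_zero, one_mul, card_univ]
    rw [add_mul, one_mul, ← card_univ]
    refine (card_le_card (t := S ∪ S.image (ι • ·)) fun y _ => ?_).trans
      ((card_union_le _ _).trans (Nat.add_le_add_left card_image_le _))
    rcases lt_trichotomy (c (.mk s y)) (c (.mk s (ι • y))) with h | h | h
    · exact mem_union_left _ ((hS y).2 (.inr h))
    · obtain ⟨i, h⟩ := Quotient.exact (hc h)
      have := (fr (2 * i) y).1 (by rw [two_mul, pow_add, mul_smul, h, ci, h, (he y).2])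
      exact ((he y).1 (h.symm.trans ((fr i y).2 ((hp.dvd_mul.1 this).resolve_left fun d =>
        h2 ((Nat.prime_dvd_prime_iff_eq hp Nat.prime_two).1 d))))).elim
    · exact mem_union_right _ (mem_image.2 ⟨ι • y, (hS _).2 (.inr (by rwa [(he y).2])), (he y).2⟩)
  have c2 : R.card * (k + 1) ≤ S.card := by
    rw [← card_range (k + 1), ← card_product]
    refine card_le_card_of_injOn (fun x => σ ^ x.2 • x.1)
      (fun x h => (sp _ _).2 ((hR _).1 (mem_product.1 h).1).1) ?_
    rintro ⟨y, i⟩ h ⟨z, j⟩ h' (q : σ ^ i • y = σ ^ j • z)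
    simp only [mem_coe, mem_product, mem_range, hR] at h h'
    obtain rfl : y = z := by rw [← h.1.2, ← mp i, q, mp, h'.1.2]
    refine congrArg _ ?_
    wlog l : i ≤ j generalizing i j
    · exact (this j i h' q.symm h (le_of_not_ge l)).symm
    obtain ⟨j, rfl⟩ := Nat.exists_eq_add_of_le l
    rw [pow_add, mul_smul, smul_left_cancel_iff] at q
    rw [Nat.eq_zero_of_dvd_of_lt ((fr j y).1 q.symm) (by omega), add_zero]
  refine ⟨S \ R, ?_, fun V _ d d0 hd => funext fun y => ?_⟩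
  · have c3 := card_sdiff_add_card_eq_card (show R ⊆ S from fun y h => ((hR y).1 h).1)
    refine Nat.le_of_mul_le_mul_left ?_ (show 0 < (1 + e) * (k + 1) by positivity)
    rw [hr, Nat.succ_sub_one, mul_assoc]
    refine (Nat.mul_le_mul_left _ c1).trans ?_
    rw [mul_left_comm]
    refine Nat.mul_le_mul_left _ ?_
    nlinarith
  by_cases m : y ∈ S
  swap
  · exact d0 y fun h => m (mem_sdiff.1 h).1
  obtain ⟨i, h⟩ := Quotient.mk_out (s := s) y
  have o : (⟦y⟧ : Quotient s).out ∈ R := (hR _).2 ⟨(sp i _).1 (h.symm ▸ m), by rw [Quotient.out_eq]⟩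
  rw [← h]
  generalize (⟦y⟧ : Quotient s).out = z at o
  clear h
  induction i with
  | zero => simpa using d0 z fun h => (mem_sdiff.1 h).2 o
  | succ i h =>
    have m := (sp i z).2 ((hR z).1 o).1
    have := hd (σ ^ i • z)
    rw [h, Pi.zero_apply, sub_zero] at this
    rw [pow_succ', mul_smul, this]
    obtain rfl | ⟨rfl, he⟩ := he
    · exact zero_smul _ _
    have n : ι • σ ^ i • z ∉ S := fun n => by
      rw [hS, or_iff_right one_ne_zero] at m n
      rw [(he _).2] at n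
      omega
    rw [d0 _ fun h => n (mem_sdiff.1 h).1, d0 _ fun h => n ((sp 1 _).1 (by
      rw [pow_one]; exact (mem_sdiff.1 h).1)), sub_self, smul_zero, Pi.zero_apply]

variable {A B : ℤ} {D : Cd A B} {X : Type} [MulAction D.G X]

/-- the members, written additively -/
def ev : QQ X ≃+ (X → Additive Qbˣ) := AddEquiv.funAdditive X Qbˣ

theorem ev_T (h : D.G) (r : QQ X) (y : X) : ev (Tq D h r) y = ev r (h • y) := rfl

theorem ev_N (p : ℕ) (σ : D.G) (r : QQ X) (y : X) :
    ev (Nq D p σ r) y = ∑ i ∈ range p, ev r (σ ^ i • y) := by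
  rw [Nq, AddMonoidHom.finset_sum_apply, map_sum, Finset.sum_apply]
  rfl

theorem ev_n (e : ℕ) (ι : D.G) (r : QQ X) (y : X) :
    ev (nq D e ι r) y = ev r y - e • ev r (ι • y) := by
  rw [nq, AddMonoidHom.sub_apply, map_sub, AddMonoidHom.nsmul_apply, map_nsmul]
  rfl

theorem N_T {p : ℕ} {σ : D.G} (h : ∀ y : X, σ ^ p • y = y) (r : QQ X) :
    Nq D p σ (Tq D σ r) = Nq D p σ r ∧ Tq D σ (Nq D p σ r) = Nq D p σ r := by
  have k (y : X) : ∑ i ∈ range p, ev r (σ ^ (i + 1) • y) = ∑ i ∈ range p, ev r (σ ^ i • y) :=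
    add_right_cancel (b := ev r y) (by
      have := (sum_range_succ' (fun i => ev r (σ ^ i • y)) p).symm.trans (sum_range_succ _ p)
      rwa [h, pow_zero, one_smul] at this)
  refine ⟨ev.injective (funext fun y => ?_), ev.injective (funext fun y => ?_)⟩
  · simp only [ev_N, ev_T, ← k, pow_succ', mul_smul]
  · simp only [ev_N, ev_T, ← k y, pow_succ, mul_smul]

/-- the roots of unity -/
abbrev Vq (q : ℕ) : AddSubgroup (Additive Qbˣ) := (nsmulAddMonoidHom q).ker

theorem card_V {q : ℕ} (h : q ≠ 0) : Nat.card (Vq q) = q := by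
  have := NeZero.mk h
  exact HasEnoughRootsOfUnity.natCard_rootsOfUnity Qb q

end Eps

open Eps

theorem roo (h90 : H90) : ROO := fun A B D X _ q p σ q0 p0 fr x y hy h => by
  have rt (u : Additive Qbˣ) : ∃ v : Additive Qbˣ, q • v = u := by
    obtain ⟨z, e⟩ := IsAlgClosed.exists_pow_nat_eq (u.toMul : Qb) (Nat.pos_of_ne_zero q0)
    exact ⟨.ofMul (Units.mk0 z fun k => u.toMul.ne_zero (by rw [← e, k, zero_pow q0])),
      Units.ext e⟩
  choose v hv using fun t => rt (ev x t)
  obtain ⟨r, rfl⟩ := ev.surjective v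
  have e : q • r = x := ev.injective (funext fun t => by rw [map_nsmul]; exact hv t)
  have z : q • (y - Nq D p σ r) = 0 := by rw [nsmul_sub, ← map_nsmul, e, h, sub_self]
  obtain ⟨a, ha⟩ := (h90 D.G X (Vq q) p σ p0 fr).2
    (fun t => ⟨ev (y - Nq D p σ r) t, congrFun (((map_nsmul ev q _).symm.trans
      (congrArg ev z)).trans (map_zero ev)) t⟩) fun t => Subtype.ext (by
        show ev (Tq D σ (y - Nq D p σ r)) t = _
        rw [map_sub, hy, (N_T (fun t => (fr p t).2 dvd_rfl) r).2])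
  refine ⟨r + ev.symm fun t => a t, ?_, ev.injective (funext fun t => ?_)⟩
  · rw [nsmul_add, e, ← map_nsmul, add_eq_left, map_eq_zero_iff _ ev.symm.injective]
    exact funext fun t => (a t).2
  · have := congrArg Subtype.val (ha t)
    rw [AddSubgroup.val_finset_sum] at this
    rw [map_add, map_add, Pi.add_apply, ev_N _ _ (ev.symm _), ev.apply_symm_apply, this]
    simp

theorem eps : EPS := fun A B D X _ _ q p e r σ ι oq hp h2 fr cm he hr c hc => by
  have q0 : q ≠ 0 := oq.pos.ne'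
  obtain ⟨T, hT, inj⟩ := core hp h2 fr cm he hr
  have : Finite (Vq q) := Nat.finite_of_card_ne_zero ((card_V q0).symm ▸ q0)
  generalize hK : ((nsmulAddMonoidHom q).ker ⊓ (Nq D p σ).ker : AddSubgroup (QQ X)) = K at hc
  have : Finite K := .of_injective (fun k : K => fun t => (⟨ev k.1 t, congrFun
    (((map_nsmul ev q _).symm.trans (congrArg ev (hK.ge k.2).1)).trans (map_zero ev)) t⟩ : Vq q))
    fun _ _ h => Subtype.ext (ev.injective (funext fun t => congrArg Subtype.val (congrFun h t)))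
  have : Finite (K.map (nq D e ι)) := ((Set.toFinite (K : Set (QQ X))).image _).to_subtype
  obtain ⟨u, hu⟩ : ∃ u : (T → Vq q) → QQ X, ∀ a t, ev (u a) t = if h : t ∈ T then (a ⟨t, h⟩).1 else 0 :=
    ⟨fun a => ev.symm _, fun a t => congrFun (ev.apply_symm_apply _) t⟩
  have uq (a) : q • u a = 0 := ev.injective (funext fun t => by
    rw [map_nsmul, map_zero, Pi.smul_apply, hu]
    split_ifs
    exacts [(a _).2, smul_zero _])
  have m (a) : Tq D σ (u a) - u a ∈ K := hK.le ⟨show q • (Tq D σ (u a) - u a) = 0 by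
    rw [nsmul_sub, ← map_nsmul, uq, map_zero, sub_zero], show Nq D p σ _ = 0 by
    rw [map_sub, (N_T (fun t => (fr p t).2 dvd_rfl) _).1, sub_self]⟩
  refine hc ▸ ⟨Nat.card_pos.ne', (Nat.pow_le_pow_right oq.pos hT).trans (.trans (le_of_eq ?_)
    (Nat.card_le_card_of_injective (fun a => (⟨_, _, m a, rfl⟩ : K.map (nq D e ι)))
      fun a b h => funext fun t => Subtype.ext ?_))⟩
  · rw [Nat.card_fun, card_V q0, Nat.card_eq_fintype_card, Fintype.card_coe]
  have := congrFun (inj _ (ev (u a) - ev (u b)) (fun y n => by simp [hu, n]) fun y => by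
    have := congrFun (congrArg (fun x => ev x.1) h) y
    simp only [ev_n, map_sub, Pi.sub_apply, ev_T] at this ⊢
    linear_combination (norm := (simp only [nsmul_sub]; abel)) this) t
  simpa [hu, sub_eq_zero] using this

end Vale.Agent.P014X.Ac
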