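import Vale.Agent.P014X.Ac.St2
import Vale.Agent.P014X.An.Rye
import Vale.Agent.P014X.Fm.Crk

/-! # P014X, the anchor: the frame and the family of the units (row `WGT`) -/

set_option autoImplicit false
set_option linter.all false

open Function Finset
open scoped Classical

noncomputable section

namespace Vale.Agent.P014X.Ac

open Vale.Agent.P022 (Qb GQ)
open Vale.Agent.P014U
open Cd (Tv)

namespace Wg

/-- norms are fixed -/
theorem fix {H K : Subgroup GQ} {T : Finset GQ} (t : Tv H K T) {u : Qb} (f : ∀ g ∈ K, g u = u)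
    {h : GQ} (m : h ∈ H) : h (∏ s ∈ T, s u) = ∏ s ∈ T, s u := by
  choose! e e1 e2 using t.2
  have k : ∀ h ∈ H, ∀ s ∈ T, e (h⁻¹ * e (h * s)) = s := fun h m s a =>
    have b := e1 _ (mul_mem m (t.1 s a))
    (e2 _ (mul_mem (inv_mem m) (t.1 _ b.1)) s ⟨a, by simpa [mul_assoc] using inv_mem b.2⟩).symm
  rw [map_prod]
  refine prod_nbij' (fun s => e (h * s)) (fun s => e (h⁻¹ * s))
    (fun s a => (e1 _ (mul_mem m (t.1 s a))).1) (fun s a => (e1 _ (mul_mem (inv_mem m) (t.1 s a))).1)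
    (k h m) (fun s a => by simpa using k _ (inv_mem m) s a) fun s a => ?_
  rw [← f _ (e1 _ (mul_mem m (t.1 s a))).2, ← AlgEquiv.mul_apply (e _), mul_inv_cancel_left,
    f _ (e1 _ (mul_mem m (t.1 s a))).2, AlgEquiv.mul_apply]

variable [Pp] {A B : ℤ} {D : Cd A B} {k : ℕ} {C : Cr k} {a b : ℤ} {M : ℕ} (x : D.An C a b M)

theorem mem (K) (t : ℕ) (g : D.G) : g.1 ∈ Kg x K t ↔ (∀ f ∈ K, f g = 1) ∧ x.ξ₁ g ^ t = 1 := by
  rw [Kg, ← D.G.subtype_apply, Subgroup.mem_map_iff_mem D.G.subtype_injective]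
  simp [Subgroup.mem_iInf]

/-- the classes -/
abbrev Xk : Type := D.G ⧸ (Kg x x.I 1).subgroupOf D.G

theorem eqv (g h : D.G) : (g : Xk x) = h ↔ (∀ f ∈ x.I, f h = f g) ∧ x.ξ₁ h = x.ξ₁ g := by
  rw [QuotientGroup.eq, Subgroup.mem_subgroupOf, mem, pow_one]
  simp only [MonoidHom.eq_iff, MonoidHom.mem_ker]

theorem act (g h : D.G) : g • (h : Xk x) = ((g * h : D.G) : Xk x) := rfl

theorem gs : Gs D (Kg x x.I 1) ((1 : D.G) : Xk x) Quotient.out :=
  ⟨fun y => by rw [act, mul_one, QuotientGroup.out_eq'], fun g => by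
    rw [act, mul_one, eq_comm, eqv, mem]
    simp, fun g h y => by
    obtain ⟨s, rfl⟩ := QuotientGroup.mk_surjective y
    simp only [act, eqv, map_mul, mul_left_comm, implies_true, and_self]⟩

theorem out (g : D.G) : x.ξ₁ (g : Xk x).out = x.ξ₁ g :=
  ((eqv x _ _).1 (QuotientGroup.out_eq' (g : Xk x)).symm).2

end Wg

open Wg

/-- **the frame and the family of the units exist** -/
theorem wgt [Pp] (h90 : H90) : WGT := fun A B D M cf es k C a b x n' e γ ι s su ad => by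
  have fi : Finite (Xk x) := Nat.finite_of_card_ne_zero (su.idx.trans_ne (mul_ne_zero
    (card_ne_zero.2 ⟨1, x.one⟩) (pow_ne_zero _ pp_ne)))
  have z : IsPrimitiveRoot (x.ξ₁ (γ ^ pp ^ k)) pp := by
    rw [map_pow, su.gx]
    exact C.prim.pow (pow_pos pp_ne.bot_lt _) (pow_succ _ _)
  have z1 : ∀ i : ℕ, x.ξ₁ (γ ^ pp ^ k)⁻¹ ^ i = 1 ↔ pp ∣ i := fun i => by
    rw [← z.pow_eq_one_iff_dvd, ← map_pow, ← map_pow, inv_pow]
    exact x.ξ₁.ker.inv_mem_iff
  have z2 : IsPrimitiveRoot (x.ξ₁ (γ ^ pp ^ k)⁻¹) pp := ⟨(z1 _).2 dvd_rfl, fun i => (z1 i).1⟩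
  obtain ⟨w, hw⟩ := (h90 D.G (Xk x) C.O pp (γ ^ pp ^ k)⁻¹ pp_ne fun i y => by
    obtain ⟨t, rfl⟩ := QuotientGroup.mk_surjective y
    rw [act, eq_comm, eqv, ← z1, map_mul, map_pow,
      mul_eq_right₀ ((Group.isUnit t).map x.ξ₁).ne_zero]
    refine and_iff_right fun f m => ?_
    have : f (γ ^ pp ^ k)⁻¹ = 1 := f.ker.inv_mem (pow_mem (su.gf f m) _)
    rw [map_mul, map_pow, this, one_pow, one_mul]).1 (fun y => x.ξ₁ y.out) fun y => by
    obtain ⟨t, rfl⟩ := QuotientGroup.mk_surjective y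
    simp only [act, out, map_mul, map_pow x.ξ₁ (γ ^ pp ^ k)⁻¹]
    rw [← sum_mul, z2.geom_sum_eq_zero pp_prime.one_lt, zero_mul]
  obtain ⟨T, t⟩ := An.Rye.ex_tv (Kg x x.I 1) (Ev.hm_op cf ad.ne)
  refine ⟨Xk x, Fintype.ofFinite _, inferInstance, _, _, w, T, Additive.ofMul fun y =>
    Units.mk0 (y.out.1 (∏ r ∈ T, r (D.un s (D.mp M n')))) ((map_ne_zero _).2 (prod_ne_zero_iff.2
      fun r _ => (map_ne_zero _).2 (es.ne _ _ ad))), ⟨gs x, fun y => (hw y).symm⟩, t, fun h => ?_⟩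
  show (h • ((1 : D.G) : Xk x)).out.1 _ = _
  rw [act, mul_one, ← mul_inv_cancel_left h (h : Xk x).out, Subgroup.coe_mul, AlgEquiv.mul_apply,
    fix t (es.fix _ _ ad) (Subgroup.mem_subgroupOf.1
      (QuotientGroup.eq.1 (QuotientGroup.out_eq' (h : Xk x)).symm))]

end Vale.Agent.P014X.Ac
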