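import Vale.Agent.P014X.Ac.Co1
import Vale.Agent.P014X.Ac.Wgt
import Vale.Agent.P014X.Ac.Anc

/-! # P014X, the anchor: the count on the side of the fields (row `FLD`, helper5) -/

set_option autoImplicit false
set_option linter.all false

open NumberField Finset Function
open scoped Classical

noncomputable section

namespace Vale.Agent.P014X.Ac

namespace F5

open Vale.Agent.P022 (Qb GQ GK)
open An (Pm Sp GAL Cu vU)
open Ly (rM rI am_ext val_sum Ab1 ab_self)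

variable {A B : ℤ} {D : Cd A B} {X : Type} [MulAction D.G X] {F : Type} [Field F] [NumberField F]
  {jF : F →+* Qb} {x₀ : X} {sec : X → D.G} {s t : F ≃+* F} {σ ι h : D.G} {S : Finset (Pm F)}
  {m : D.O} {p e : ℕ}

theorem vq_ext {r r' : QQ X} (h : ∀ y, vq r y = vq r' y) : r = r' :=
  Additive.toMul.injective (funext fun y => Units.ext (h y))

theorem vq_sub (r r' : QQ X) (y : X) : vq (r - r') y = vq r y / vq r' y := by simp [vq]

variable (jF sec) in
/-- the family of a number -/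
def jq : AM F →+ QQ X := MonoidHom.toAdditive (MonoidHom.mk'
  (fun (a : Fˣ) y => Units.map ((sec y).1.toRingEquiv.toRingHom.comp jF).toMonoidHom a)
  fun _ _ => funext fun _ => map_mul _ _ _)

theorem vq_j (a : AM F) (y : X) : vq (jq jF sec a) y = (sec y).1 (jF (a.toMul : Fˣ)) := rfl

variable (G : Gs D (GK jF) x₀ sec)
include G

theorem same {g : D.G} (e : g • x₀ = h • x₀) (x : F) : g.1 (jF x) = h.1 (jF x) := by
  have := congrArg h.1 ((G.st (h⁻¹ * g)).1 (by rw [mul_smul, e, inv_smul_smul]) x)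
  rwa [← AlgEquiv.mul_apply, Subgroup.coe_mul, Subgroup.coe_inv, mul_inv_cancel_left] at this

theorem vq_g (a : AM F) (g : D.G) : vq (jq jF sec a) (g • x₀) = g.1 (jF (a.toMul : Fˣ)) :=
  same G (G.sec _) _

theorem ext0 {r r' : QQ X} (h : ∀ g : D.G, vq r (g • x₀) = vq r' (g • x₀)) : r = r' :=
  vq_ext fun y => G.sec y ▸ h _

theorem T_j (hs : ∀ x, jF (s x) = h.1 (jF x)) (a : AM F) :
    Tq D h (jq jF sec a) = jq jF sec (rM F s a) := ext0 G fun g => by
  rw [vq_T, G.com, ← mul_smul, vq_g G, vq_g G]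
  exact congrArg g.1 (hs _).symm

theorem j_inj : Injective (jq jF sec) := fun a b e => am_ext (jF.injective ((sec x₀).1.injective
  (congrArg (vq · x₀) e)))

theorem rng (fx : ∀ x : Qb, (∀ g ∈ GK jF, g x = x) → ∃ y, jF y = x) (a : GK jF ≤ D.G) :
    (jq jF sec).range = Fq D X := by
  refine le_antisymm ?_ fun r k => ?_
  · rintro _ ⟨x, rfl⟩ g y
    rw [← G.sec y, ← mul_smul, vq_g G, vq_g G]
    rfl
  · obtain ⟨y, e⟩ := fx (vq r x₀) fun g u => by rw [k ⟨g, a u⟩, (G.st ⟨g, a u⟩).2 u]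
    exact ⟨.ofMul (Units.mk0 y fun z => vq_ne r x₀ (by rw [← e, z, map_zero])), ext0 G fun g => by
      rw [vq_g G, ← k]; exact congrArg g.1 e⟩

theorem T_T (g h : D.G) (r : QQ X) : Tq D g (Tq D h r) = Tq D h (Tq D g r) :=
  vq_ext fun y => congrArg (vq r) (G.com h g y)

omit G in
variable (jF sec S s t σ ι p e) in
/-- the group of roots -/
def ro : Ro (AM F) (AI F) (QQ X) := ⟨dp p s S, fxM s, .id _ - e • am t.toRingHom,
  .id _ - e • ai t.toRingHom, jq jF sec, Nq D p σ, nq D e ι⟩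

theorem ok (exf : EXF) (jsf : JSF) (roo : ROO) (cf : D.Cf) (b : Ab1 D m jF) (sp : Sp D m jF S)
    (hp : p.Prime) (p2 : p ≠ 2) (hs : ∀ x, jF (s x) = σ.1 (jF x)) (ht : ∀ x, jF (t x) = ι.1 (jF x))
    (fr : ∀ (i : ℕ) (y : X), σ ^ i • y = y ↔ p ∣ i) (he : e = 0 ∨ e = 1 ∧ ι.1 * ι.1 ∈ GK jF) (n : ℕ) :
    (ro jF sec s t σ ι S p e).Ok (p ^ n) p n (1 + e) := by
  have da (τ : F ≃+* F) (x) : ad F (rM F τ x) = rI F exf τ (ad F x) :=
    ((exf.1 F F F _ (RingHom.id F)).2.1 x).symm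
  have jJ {τ : F ≃+* F} {h} (l : h ∈ D.G) (e : ∀ x, jF (τ x) = h (jF x)) (x) (z : x ∈ Js S) :
      rI F exf τ x ∈ Js S := (jsf.2 F F _ S S (ab_self cf b sp l e) x).2 z
  have N1 (x) : (dp p s S).N x = ∑ i ∈ range p, rM F (s ^ i) x := AddMonoidHom.finset_sum_apply _ _ _
  have N2 (x) : (dp p s S).N' x = ∑ i ∈ range p, rI F exf (s ^ i) x :=
    AddMonoidHom.finset_sum_apply _ _ _
  have N3 (r : QQ X) : Nq D p σ r = ∑ i ∈ range p, Tq D (σ ^ i) r := AddMonoidHom.finset_sum_apply _ _ _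
  have m1 (x : AM F) : (.id _ - e • am t.toRingHom : AM F →+ AM F) x = x - e • rM F t x := rfl
  have m2 (x : AI F) : (.id _ - e • ai t.toRingHom : AI F →+ AI F) x = x - e • rI F exf t x := rfl
  have m3 (r : QQ X) : nq D e ι r = r - e • Tq D ι r := rfl
  have sp1 : s ^ p = 1 := RingEquiv.ext fun x => jF.injective
    ((Ly.pw hs p x).trans ((G.st (σ ^ p)).1 ((fr p x₀).2 dvd_rfl) x))
  have st : Commute t s := RingEquiv.ext fun x => jF.injective (by
    rw [show (t * s) x = t (s x) from rfl, show (s * t) x = s (t x) from rfl, hs, ht, ht, hs, b.cm σ.2 ι.2])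
  have cM {M : Type} [AddCommGroup M] (f : (F ≃+* F) →* AddMonoid.End M) (i : ℕ) (x : M) :
      f t (f (s ^ i) x) = f (s ^ i) (f t x) :=
    DFunLike.congr_fun ((st.pow_right i).map f) x
  have two {M : Type} [AddCommGroup M] (f : M →+ M) (k : e = 1 → ∀ x, f (f x) = x) (x : M) :
      x - e • f x - e • f (x - e • f x) = (1 + e) • (x - e • f x) := by
    rcases he with rfl | ⟨rfl, -⟩
    · simp
    · simp only [one_nsmul, map_sub, k rfl, add_nsmul]
      abel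
  have ii (k : e = 1) : ι.1 * ι.1 ∈ GK jF := he.elim (fun z => by omega) (·.2)
  refine ⟨hp, rfl, ?_, fun x => ?_, fun x z => ?_, fun x => ?_, (jsf.1 F S p hp.ne_zero).1,
    fun x h => ?_, j_inj G, fun x => ?_, fun x => ?_, fun r => ?_, fun r => ?_, fun x => ?_,
    fun x => ?_, fun x z => ?_, fun x => ?_, fun x z => ?_, fun x y k e => ?_⟩
  · rcases he with rfl | ⟨rfl, -⟩
    exacts [hp.not_dvd_one, fun d => p2 ((Nat.prime_dvd_prime_iff_eq hp Nat.prime_two).1 d)]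
  · show ad F ((dp p s S).N x) = (dp p s S).N' (ad F x)
    rw [N1, N2, map_sum]
    exact sum_congr rfl fun i _ => da _ x
  · show (dp p s S).N' x ∈ Js S
    rw [N2]
    exact sum_mem fun i _ => jJ (pow_mem σ.2 i) (Ly.pw hs i) x z
  · show rM F s ((dp p s S).N x) = (dp p s S).N x
    have := sum_range_succ' (fun i => rM F (s ^ i) x) p
    rw [sum_range_succ, sp1, pow_zero, add_left_inj] at this
    rw [N1, map_sum]
    refine .trans (sum_congr rfl fun i _ => ?_) this.symm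
    rw [pow_succ', map_mul]
    rfl
  · simpa [Js] using (jsf.1 F ∅ p hp.ne_zero).1 x (h ▸ zero_mem _)
  · show Nq D p σ (jq jF sec x) = jq jF sec ((dp p s S).N x)
    rw [N3, N1, map_sum]
    exact sum_congr rfl fun i _ => T_j G (Ly.pw hs i) x
  · show nq D e ι (jq jF sec x) = jq jF sec (_ - e • rM F t x)
    rw [m3, T_j G ht, map_sub, map_nsmul]
    rfl
  · show nq D e ι (Nq D p σ r) = Nq D p σ (nq D e ι r)
    rw [m3, m3, map_sub, map_nsmul, G.T_N]
  · exact two (Tq D ι) (fun k r => vq_ext fun y => congrArg (vq r) (by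
      rw [← mul_smul]; exact (G.fix _ y).2 (ii k))) r
  · show ad F (x - e • rM F t x) = ad F x - e • rI F exf t (ad F x)
    rw [map_sub, map_nsmul, da]
  · show (dp p s S).N' x - e • rI F exf t ((dp p s S).N' x) = (dp p s S).N' (x - e • rI F exf t x)
    rw [map_sub, map_nsmul, N2 x, N2 (rI F exf t x), map_sum]
    simp only [cM]
  · exact sub_mem z (nsmul_mem (jJ ι.2 ht x z) e)
  · refine two (rI F exf t) (fun k x => ?_) x
    have : t * t = 1 := RingEquiv.ext fun x => jF.injective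
      ((ht _).trans ((congrArg ι.1 (ht x)).trans (ii k x)))
    exact DFunLike.congr_fun ((map_mul (rI F exf) t t).symm.trans
      ((congrArg _ this).trans (map_one _))) x
  · refine sub_mem z (nsmul_mem ?_ e)
    have := cM (rM F) 1 x
    rw [pow_one, show rM F s x = x from z] at this
    exact this.symm
  · refine roo A B D X _ p σ (pow_ne_zero n hp.ne_zero) hp.ne_zero fr _ _
      ((T_j G hs y).trans (congrArg _ k)) ?_
    show Nq D p σ (jq jF sec x) = p ^ n • jq jF sec y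
    rw [← map_nsmul, ← e, N3]
    refine .trans (sum_congr rfl fun i _ => T_j G (Ly.pw hs i) x) ((map_sum ..).symm.trans ?_)
    exact congrArg _ (N1 x).symm

/-- the elliptic units -/
theorem cu {u : F} {v : QQ X} (hv : ∀ h : D.G, vq v (h • x₀) = h.1 (jF u))
    (ex : ∀ h ∈ D.G, ∃ w, jF (vU w) = h (σ.1 (jF u) / jF u)) :
    ((Cu D jF (σ.1 (jF u) / jF u)).toAddSubgroup.map (au F)).map (jq jF sec) =
      AddSubgroup.closure (Set.range fun h : D.G => Tq D h (Tq D σ v - v)) := by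
  have k (g : D.G) (w) (e : jF (vU w) = g.1 (σ.1 (jF u) / jF u)) :
      jq jF sec (au F (.ofMul w)) = Tq D g (Tq D σ v - v) := ext0 G fun h => by
    rw [vq_g G, vq_T, vq_sub, vq_T, G.com g h, G.com σ h, G.com σ g, ← mul_smul g, ← mul_smul h,
      ← mul_smul h, hv, hv]
    refine (congrArg h.1 e).trans ?_
    rw [map_div₀, map_div₀]
    rfl
  rw [AddSubgroup.map_map]
  refine le_antisymm (Ly.ind _ _ _ fun w ⟨g, a, e⟩ => AddSubgroup.subset_closure ⟨⟨g, a⟩, (k _ w e).symm⟩)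
    ((AddSubgroup.closure_le _).2 ?_)
  rintro _ ⟨g, rfl⟩
  obtain ⟨w, e⟩ := ex g g.2
  exact ⟨.ofMul w, show w ∈ Cu D jF _ from Subgroup.subset_closure ⟨g, g.2, e⟩, k g w e⟩

omit G in
theorem card [Fintype X] {H : Subgroup GQ} (G : Gs D H x₀ sec) : Fintype.card X = H.relIndex D.G := by
  rw [Subgroup.relIndex, show H.subgroupOf D.G = MulAction.stabilizer D.G x₀ from
    Subgroup.ext fun g => (G.st g).symm, MulAction.index_stabilizer,
    Set.eq_univ_of_forall (s := MulAction.orbit D.G x₀) fun y => ⟨sec y, G.sec y⟩, Set.ncard_univ,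
    Nat.card_eq_fintype_card]

end F5

open F5 Ly

/-- **row FLD** -/
theorem fld5 (fos : FOS) (gal : An.GAL) (jsf : JSF) (exf : EXF) (pkf : PKF) (roo : ROO) (eps : EPS)
    (unr : UNR) (wcq : WCQ) (zcq : ZCQ) (rkq : RKQ) : FLD := by
  intro A B D cf eu p k a e r E m hp p2 es a1 ad H H' H₁ H₂ γ ι g ζ T Q I u ac tT hr hE
  obtain ⟨F, _, _, jF, rfl⟩ := fos H (Subgroup.isOpen_mono (H₁ := D.Hf m) (fun g h => Q.hm
    ((cf.hm m ad.ne g).2 ⟨1, isUnit_one, h.1, by rw [map_one]; exact h.2⟩)) (cf.oH m ad.ne))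
  have b := ab1 gal cf ad.ne Q.G Q.hm
  have fx := (gal A B D cf m ad.ne F jF Q.G Q.hm).2.2.2.1
  obtain ⟨s, hs⟩ := b.res _ (γ ^ p ^ k).2
  obtain ⟨t, ht⟩ := b.res _ ι.2
  obtain ⟨S, sp⟩ := b.sp
  obtain ⟨x, hx⟩ := fx _ fun h l => Wg.fix tT (es.fix a m ad) l
  obtain ⟨ex, P⟩ := pkf A B D cf eu p k a e r E m hp p2 es a1 ad F jF H' H₁ H₂ γ ι g ζ T x S s t Q I u ac
    tT hx sp hs ht hr hE
  refine ⟨p ^ padicValNat p ((dp p s S).im
      ((An.Cu D jF ((γ ^ p ^ k).1 (jF x) / jF x)).toAddSubgroup.map (au F)) (.id _ - e • am t.toRingHom)),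
    padicValNat p ((dp p s S).bm (fxM s) (.id _ - e • am t.toRingHom) (.id _ - e • ai t.toRingHom)),
    fun n le X _ _ x₀ sec v G hv z w hz hw z0 => ?_⟩
  have fr := G.free hp Q
  have o := ok G exf jsf roo cf b sp hp p2 hs ht fr (I.imp_right fun h => ⟨h.1, h.2.i2⟩) n
  set Y := ro jF sec s t (γ ^ p ^ k) ι S p e
  have ix (K) : Y.ix K = (Fq D X).relIndex (K.map (nq D e ι)) := by rw [← rng G fx Q.G]; rfl
  have e1 : Y.ix (Y.R0 (p ^ n)
      ((An.Cu D jF ((γ ^ p ^ k).1 (jF x) / jF x)).toAddSubgroup.map (au F))) = z := by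
    rw [ix, hz, Cq, ← cu G (fun h => (hv h).trans (by rw [hx])) ex]
    rfl
  obtain ⟨c0, c1⟩ := eps A B D X (p ^ n) p e r (γ ^ p ^ k) ι (hp.odd_of_ne_two p2).pow hp p2 fr
    (G.com _ _) (I.imp_right fun h => ⟨h.1, fun y => ⟨mt (G.fix ι y).1 h.2.i1, by
      rw [← mul_smul]; exact (G.fix _ y).2 h.2.i2⟩⟩) (by rw [card G, hr])
    (Nat.card ((Y.R0 (p ^ n) ⊥).map Y.n)) (by rw [Ro.R0, AddSubgroup.map_bot]; rfl)
  have u1 : (p ^ n) ^ (2 * r) ≤ Y.ix (Y.R0 (p ^ n) Y.X.U) := by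
    rw [two_mul, pow_add]
    exact (Nat.mul_le_mul_left _ c1).trans (rkq _ _ _ Y _ p n _ r o P.fg P.rk c0)
  have u2 := zcq _ _ _ Y _ p n _ _ o P.CU P.im (e1 ▸ z0)
  rw [e1] at u2
  refine ⟨u1.trans (u2.trans_eq (mul_comm _ _)), fun w0 => ?_⟩
  have l : (Y.RR (p ^ n)).map (nq D e ι) ≤
      (Aq D X (p ^ n) p (γ ^ p ^ k) ⊓ Iq D X m).map (nq D e ι) := by
    refine AddSubgroup.map_mono ?_
    rintro ρ ⟨⟨y, h1, h2⟩, y', -, h3⟩
    refine ⟨⟨rng G fx Q.G ▸ ⟨y, h2⟩, rng G fx Q.G ▸ ⟨y', h3⟩⟩, fun l P i o n' t' c => ?_⟩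
    exact unr A B D cf p n m hp ((dvd_pow_self _ two_ne_zero).trans ad.dv) ad.ne F jF S _ (sec c) _ Q.G
      Q.hm sp (Units.ne_zero _) ((jsf.1 F S _ (pow_ne_zero n hp.ne_zero)).2 y.toMul h1)
      ((vq_nsmul _ ρ c).symm.trans (congrArg (vq · c) h2.symm)) l P i o n' t'
  have u3 := wcq _ _ _ Y _ p n _ o P.bm le (by
    rw [ix]; exact fun z => w0 (hw ▸ AddSubgroup.relIndex_eq_zero_of_le_right l z))
  rw [ix (Y.RR _)] at u3
  have u4 := u3.trans (AddSubgroup.relIndex_le_of_le_right l (hw ▸ w0))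
  rw [← hw] at u4
  calc (p ^ n) ^ (4 * r) = (p ^ n) ^ (2 * r) * (p ^ n) ^ (2 * r) := by ring
    _ ≤ Y.ix (Y.R0 (p ^ n) Y.X.U) * (z * (p ^ _ * p ^ E)) := Nat.mul_le_mul u1 (u1.trans (u2.trans
      (Nat.mul_le_mul_left _ ((Nat.pow_le_pow_right hp.pos P.key).trans_eq (pow_add _ _ _)))))
    _ ≤ w * z * p ^ E := by
      rw [mul_left_comm, ← mul_assoc _ (p ^ _), mul_comm w, mul_assoc z]
      exact Nat.mul_le_mul_left _ (Nat.mul_le_mul_right _ u4)

end Vale.Agent.P014X.Ac
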