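import Vale.Agent.P014X.Ac.St2

/-! # P014X, the anchor: row FOS -/

set_option autoImplicit false
set_option linter.all false

noncomputable section

namespace Vale.Agent.P014X.Ac

open Vale.Agent.P022 (Qb GQ GK)

theorem fos : FOS := fun H hH => by
  have e : (IntermediateField.fixedField H).fixingSubgroup = H :=
    InfiniteGalois.fixingSubgroup_fixedField ⟨H, H.isClosed_of_isOpen hH⟩
  have : FiniteDimensional ℚ (IntermediateField.fixedField H) :=
    (InfiniteGalois.isOpen_iff_finite _).1 (e.symm ▸ hH)
  refine ⟨IntermediateField.fixedField H, inferInstance, ⟨⟩, (IntermediateField.val _).toRingHom,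
    Subgroup.ext fun g => ?_⟩
  rw [← e, IntermediateField.mem_fixingSubgroup_iff, e]
  exact Subtype.forall

end Vale.Agent.P014X.Ac
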