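import Vale.Agent.P014X.Ac.Kz

/-! # P014X, anchor: the characters separate -/

set_option autoImplicit false
set_option linter.all false

open Finset

noncomputable section

namespace Vale.Agent.P014X.Ac.Kz

open P014U
open P014U.Dr (Zn)

/-- `l` and its conjugate are a basis -/
theorem sep {a b : ℤ} {R : Type} [CommRing R] {l : Qa a b R}
    (lu : IsUnit (l.im * (2 * l.re + b * l.im))) {x y : R} (h : x • l + y • star l = 0) :
    x = 0 ∧ y = 0 := by
  have h1 := congrArg QuadraticAlgebra.re h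
  have h2 := congrArg QuadraticAlgebra.im h
  simp at h1 h2
  exact ⟨lu.mul_right_eq_zero.1 (by linear_combination l.im * h1 + (l.re + b * l.im) * h2),
    lu.mul_right_eq_zero.1 (by linear_combination l.im * h1 - l.re * h2)⟩

/-- orthogonality -/
theorem ort {Γ B L M : Type} [Group Γ] [Fintype Γ] [CommRing B] [CommRing L] [AddCommGroup M]
    [Module L M] (φ : B →+* L) {I : Finset (Γ →* B)} (u : IsUnit (I.card : L))
    (o : ∀ g, (∃ f ∈ I, f g ≠ 1) → ∑ f ∈ I, f g = 0) {v : Γ → M}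
    (h : ∀ f ∈ I, ∑ x, φ (f x) • v x = 0) (x : Γ) [Fintype (⨅ f ∈ I, f.ker :)] :
    ∑ y : (⨅ f ∈ I, f.ker :), v (x * y) = 0 := by
  classical
  have := sum_eq_zero (s := I) fun f k => (congrArg (φ (f x⁻¹) • ·) (h f k)).trans (smul_zero _)
  simp only [smul_sum, smul_smul, ← map_mul] at this
  rw [sum_comm, ← Equiv.sum_comp (Equiv.mulLeft x),
    ← sum_filter_of_ne (p := (· ∈ ⨅ f ∈ I, f.ker)) fun y _ k => ?_,
    sum_subtype (p := (· ∈ ⨅ f ∈ I, f.ker)) _ (by simp)] at this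
  · refine u.smul_eq_zero.1 (smul_sum.trans ((sum_congr rfl fun y _ => ?_).trans this))
    have k : ∀ f ∈ I, f y = 1 := fun f e => Subgroup.mem_iInf.1 (Subgroup.mem_iInf.1 y.2 f) e
    rw [sum_congr rfl fun f e => by rw [Equiv.coe_mulLeft, inv_mul_cancel_left, k f e, map_one, one_smul],
      sum_const, Nat.cast_smul_eq_nsmul]
  · by_contra z
    refine k ?_
    rw [← sum_smul, ← map_sum, Equiv.coe_mulLeft, inv_mul_cancel_left, o y (by simpa using z), map_zero,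
      zero_smul]

variable [Pp] {k n : ℕ} (C : Cr k) {a b : ℤ}

/-- **the kernel consists of invariant functions** -/
theorem ker {Γ : Type} [Group Γ] [Fintype Γ] {I : Finset (Γ →* Qa a b C.O)} (cop : ¬ pp ∣ I.card)
    (o : ∀ g, (∃ f ∈ I, f g ≠ 1) → ∑ f ∈ I, f g = 0) {ξ : Γ →* C.O}
    (inj : ∀ g, (∀ f ∈ I, f g = 1) → ξ g = 1 → g = 1) (rg : ∀ y, ∃ i : ℕ, ξ y = C.pb.gen ^ i)
    (on : ∃ γ, (∀ f ∈ I, f γ = 1) ∧ ξ γ = C.pb.gen) {l : Qa a b (C.L n)}
    (lu : IsUnit (l.im * (2 * l.re + b * l.im))) {v : Γ → Zn n} {A : Γ → C.L n}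
    (h : ∀ f ∈ I, ∑ x, qm a b (C.rd n) (f x) *
      ((C.io n (v x) * C.rd n (ξ x)) • l + A x • star l) = 0)
    {σ : Γ} (s : ∀ f ∈ I, f σ = 1) (hσ : σ ^ pp = 1) (x : Γ) : v (x * σ) = v x := by
  classical
  have m {g : Γ} : g ∈ ⨅ f ∈ I, f.ker ↔ ∀ f ∈ I, f g = 1 := by simp
  have u : IsUnit (I.card : C.O) := C.unit_nat.2 cop
  have := ort (qm a b (C.rd n)) (by simpa using u.map ((algebraMap _ _).comp (C.rd n))) o h x
  rw [sum_add_distrib, ← sum_smul, ← sum_smul] at this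
  have e := (sep lu this).1
  simp only [map_mul, mul_left_comm (C.io n _), ← mul_sum] at e
  obtain ⟨γ, c, d⟩ := on
  simpa using grp C (ξ := ξ.comp (⨅ f ∈ I, f.ker).subtype) ((injective_iff_map_eq_one _).2
    fun g z => Subtype.ext (inj _ (m.1 g.2) z)) (fun y => rg y) ⟨⟨γ, m.2 c⟩, d⟩
    (v := fun y => v (x * y)) ((((Group.isUnit x).map ξ).map (C.rd n)).mul_right_eq_zero.1 e)
    (σ := ⟨σ, m.2 s⟩) (Subtype.ext hσ) 1

end Vale.Agent.P014X.Ac.Kz
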