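import Vale.Agent.P014X.Es.Raw

/-! # P014X: Kummer classes with divided weights -/

set_option autoImplicit false
set_option linter.all false

open NumberField
open scoped Classical

noncomputable section

namespace Vale.Agent.P014X

open P022 (Qb GQ)
open P027M.S (Inert)
open P022E.GW (Ov)
open P014U
open P014U.Dr (Zn)
open P014U.Pp (ec)

namespace Zs

variable {A B : ℤ} {D : Cd A B} {R : Type} [CommRing R] {N : ℕ}
  {X X' : Type} [Fintype X] [Fintype X'] [MulAction D.G X] [MulAction D.G X']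
  {χ : D.G →* R} {w : X → R} {u u' ρ ρ' : X → Qb} {π : X → X'}

/-- weights up to functions on the quotient -/
def Wq (χ : D.G →* R) (π : X → X') (w : X → R) : Prop :=
  ∀ g : D.G, ∃ c : X' → R, ∀ x, w (g • x) = χ g * w x + c (π x)

variable (D) in
/-- the products over the fibres are equivariant -/
def Nq (π : X → X') (ρ : X → Qb) : Prop := ∀ (g : D.G) y, g.1 (ps π ρ y) = ps π ρ (g • y)

theorem ps_mul (y : X') : ps π (ρ * ρ') y = ps π ρ y * ps π ρ' y := Finset.prod_mul_distrib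

theorem ps_inv (y : X') : ps π ρ⁻¹ y = (ps π ρ y)⁻¹ := Finset.prod_inv_distrib _

theorem Nq.mul (h : Nq D π ρ) (h' : Nq D π ρ') : Nq D π (ρ * ρ') := fun g y => by
  rw [ps_mul, ps_mul, map_mul, h, h']

theorem Nq.inv (h : Nq D π ρ) : Nq D π ρ⁻¹ := fun g y => by rw [ps_inv, ps_inv, map_inv₀, h]

variable [Pp] (ι : Zn N →+* R)

theorem Nq.of_eqv (e : ∀ (g : D.G) x, π (g • x) = g • π x) (h : ∀ (g : D.G) x, g.1 (ρ x) = ρ (g • x)) :
    Nq D π ρ := fun g y => by rw [← ps_act e, ps, map_prod]; simp only [h]; rfl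

theorem Rf.inv (h : Rf D N u ρ) : Rf D N u⁻¹ ρ⁻¹ :=
  ⟨fun x => inv_ne_zero (h.ne x), fun g x => by simp [h.eqv], fun x => by simp [h.rt]⟩

theorem Rf.div (h : Rf D N u ρ) (h' : Rf D N u' ρ') : Rf D N (u / u') (ρ / ρ') := by
  simpa only [div_eq_mul_inv] using h.mul h'.inv

theorem Rf.of_eqv (n : ∀ x, ρ x ≠ 0) (h : ∀ (g : D.G) x, g.1 (ρ x) = ρ (g • x)) :
    Rf D N (ρ ^ pp ^ N) ρ := ⟨fun x => pow_ne_zero _ (n x), fun g x => by simp [h], fun _ => rfl⟩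

theorem q_eqv (n : ∀ x, ρ x ≠ 0) (h : ∀ (g : D.G) x, g.1 (ρ x) = ρ (g • x)) (g : D.G) (x : X) :
    q D ρ g x = 1 := by rw [q, h, smul_inv_smul, div_self (n x)]

theorem eqv_of_q (n : ∀ x, ρ x ≠ 0) (h : ∀ g x, q D ρ g x = 1) (g : D.G) (x : X) :
    g.1 (ρ x) = ρ (g • x) := by
  simpa only [inv_smul_smul] using (div_eq_one_iff_eq (n _)).1 (h g (g • x))

theorem dl_zero {z : Qb} (h : z ^ pp ^ N = 1) (e : dl N z = 0) : z = 1 := by
  rw [dl_spec h, e, ZMod.val_zero, pow_zero]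

theorem Z_eqv (n : ∀ x, ρ x ≠ 0) (h : ∀ (g : D.G) x, g.1 (ρ x) = ρ (g • x)) : Z D ι w ρ = 0 :=
  funext fun g => by simp [Z, q_eqv n h, dl_one]

theorem Z_sub (w w' : X → R) (ρ : X → Qb) : Z D ι (w - w') ρ = Z D ι w ρ - Z D ι w' ρ :=
  funext fun g => by simp only [Z, Pi.sub_apply, sub_mul, Finset.sum_sub_distrib]

theorem Z_add (w w' : X → R) (ρ : X → Qb) : Z D ι (w + w') ρ = Z D ι w ρ + Z D ι w' ρ :=
  funext fun g => by simp only [Z, Pi.add_apply, add_mul, Finset.sum_add_distrib]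

theorem Z_inv (h : Rf D N u ρ) : Z D ι w ρ⁻¹ = -Z D ι w ρ := by
  rw [eq_neg_iff_add_eq_zero, ← Z_mul ι h.inv h, show ρ⁻¹ * ρ = 1 from
    funext fun x => inv_mul_cancel₀ (h.ne' x)]
  exact Z_eqv ι (fun _ => one_ne_zero) fun g _ => map_one g.1

theorem Z_dv (h : Rf D N u ρ) (h' : Rf D N u' ρ') : Z D ι w (ρ / ρ') = Z D ι w ρ - Z D ι w ρ' := by
  rw [div_eq_mul_inv, Z_mul ι h h'.inv, Z_inv ι h', sub_eq_add_neg]

/-- translation of the roots -/
theorem Z_sh (t : X ≃ X) (e : ∀ (g : D.G) x, t (g • x) = g • t x) (w : X → R) (ρ : X → Qb) :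
    Z D ι w (ρ ∘ t) = Z D ι (w ∘ t.symm) ρ := by
  rw [← Z_comp ι t e (w ∘ t.symm) ρ]
  congr 1
  funext x
  simp

/-- **division** -/
theorem Z_div (h : Rf D N u ρ) (t : X ≃ X) (e : ∀ (g : D.G) x, t (g • x) = g • t x) :
    Z D ι w (ρ ∘ t / ρ) = Z D ι (w ∘ t.symm - w) ρ := by
  rw [Z_dv ι (h.comp e) h, Z_sh ι t e, Z_sub]

variable (e : ∀ (g : D.G) x, π (g • x) = g • π x)

/-- sums over the fibres -/
theorem sum_fib {f : X → Qb} (h : ∀ x, f x ^ pp ^ N = 1) (k : ∀ y, ps π f y = 1) (c : X' → R) :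
    ∑ x, c (π x) * ι (dl N (f x)) = 0 := by
  rw [← Finset.sum_fiberwise Finset.univ π]
  refine Finset.sum_eq_zero fun y _ => ?_
  rw [Finset.sum_congr rfl fun x k => by rw [(Finset.mem_filter.1 k).2], ← Finset.mul_sum, ← map_sum,
    ← dl_prod _ h]
  exact (congrArg (fun z => c y * ι (dl N z)) (k y)).trans (by simp [dl_one])

theorem sum_actq (hw : Wq χ π w) (g : D.G) {f : X → Qb} (h : ∀ x, f x ^ pp ^ N = 1)
    (k : ∀ y, ps π f y = 1) :
    ∑ x, w x * ι (dl N (g.1 (f (g⁻¹ • x)))) = D.ak ι χ g * ∑ x, w x * ι (dl N (f x)) := by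
  obtain ⟨c, hc⟩ := hw g
  rw [Finset.mul_sum, ← Equiv.sum_comp (MulAction.toPerm g), ← add_zero (∑ x, D.ak ι χ g * _),
    ← sum_fib ι h k fun y => ι (ec N g) * c y, ← Finset.sum_add_distrib]
  refine Finset.sum_congr rfl fun x _ => ?_
  simp only [MulAction.toPerm_apply, inv_smul_smul, hc x, dl_gal (h x), map_mul, ak_apply]
  ring

include e

theorem ps_q (h : Rf D N u ρ) (n : Nq D π ρ) (g : D.G) (y : X') : ps π (q D ρ g) y = 1 := by
  rw [← q_eqv (h.ps e).ne' n g y]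
  simp only [q, ← ps_act e]
  simp only [ps, map_prod, q, Finset.prod_div_distrib]

theorem Z_fib (h : Rf D N u ρ) (n : Nq D π ρ) (c : X' → R) : Z D ι (c ∘ π) ρ = 0 :=
  funext fun g => sum_fib ι (h.q_pow g) (ps_q e h n g) c

theorem Zq_coc (hw : Wq χ π w) (h : Rf D N u ρ) (n : Nq D π ρ) (g k : D.G) :
    Z D ι w ρ (g * k) = Z D ι w ρ g + D.ak ι χ g * Z D ι w ρ k := by
  rw [Z, Z, Z, ← sum_actq ι hw g (h.q_pow k) (ps_q e h n k), ← Finset.sum_add_distrib]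
  refine Finset.sum_congr rfl fun x _ => ?_
  rw [← mul_add, ← map_add, ← dl_mul (h.q_pow g x) (by rw [← map_pow, h.q_pow, map_one])]
  congr 3
  have := (map_ne_zero g.1).2 (h.ne' (g⁻¹ • x))
  simp only [q, mul_inv_rev, mul_smul, Subgroup.coe_mul, AlgEquiv.mul_apply, map_div₀]
  field_simp

omit e

/-- roots of unity give coboundaries -/
theorem Zq_mu (hw : Wq χ π w) (h : ∀ x, ρ x ^ pp ^ N = 1) (k : ∀ y, ps π ρ y = 1) (g : D.G) :
    Z D ι w ρ g = (D.ak ι χ g - 1) * ∑ x, w x * ι (dl N (ρ x)) := by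
  rw [sub_mul, one_mul, ← sum_actq ι hw g h k, Z, ← Finset.sum_sub_distrib]
  refine Finset.sum_congr rfl fun x _ => ?_
  have a : g.1 (ρ (g⁻¹ • x)) ^ pp ^ N = 1 := by rw [← map_pow, h, map_one]
  have n : ρ x ≠ 0 := fun e => zero_ne_one (by rw [← h x, e, zero_pow (pow_pos pp_pos N).ne'])
  rw [← mul_sub, ← map_sub, ← div_mul_cancel₀ (g.1 (ρ (g⁻¹ • x))) n,
    dl_mul (by rw [div_pow, a, h, div_one]) (h x), add_sub_cancel_right, q]

/-- other roots -/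
theorem Zq_ch (hw : Wq χ π w) (h : Rf D N u ρ) (h' : Rf D N u ρ') (k : ∀ y, ps π ρ y = ps π ρ' y) :
    D.Ch (D.ak ι χ) (Z D ι w ρ) (Z D ι w ρ') :=
  ⟨_, fun g => by
    rw [← Pi.sub_apply, ← Z_dv ι h h']
    exact Zq_mu ι hw (fun x => by rw [Pi.div_apply, div_pow, h.rt, h'.rt, div_self (h.ne x)])
      (fun y => by
        rw [div_eq_mul_inv, ps_mul, ps_inv, k]
        exact mul_inv_cancel₀ (Finset.prod_ne_zero_iff.2 fun x _ => h'.ne' x)) g⟩

theorem Z_zero (n : ∀ x, ρ x ≠ 0) {g : D.G} (a : ∀ x : X, g • x = x) (h : ∀ x, g.1 (ρ x) = ρ x) :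
    Z D ι w ρ g = 0 := Finset.sum_eq_zero fun x _ => by
  rw [q, inv_smul_eq_iff.2 (a x).symm, h, div_self (n x), dl_one, map_zero, mul_zero]

/-- locally constant -/
theorem Z_lc (n : ∀ x, ρ x ≠ 0) {H : Subgroup GQ} (o : IsOpen (H : Set GQ))
    (a : ∀ g : D.G, g.1 ∈ H → ∀ x : X, g • x = x) :
    ∃ W : Subgroup GQ, IsOpen (W : Set GQ) ∧ ∀ g : D.G, g.1 ∈ W → Z D ι w ρ g = 0 :=
  ⟨H ⊓ ⨅ x, MulAction.stabilizer GQ (ρ x), by
    rw [Subgroup.coe_inf, Subgroup.coe_iInf]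
    exact o.inter (isOpen_iInter_of_finite fun x => stabilizer_isOpen_of_isIntegral (K := ℚ) _),
    fun g b => Z_zero ι n (a g b.1) fun x => Subgroup.mem_iInf.1 b.2 x⟩

/-- inertia fixes the roots of a unit times a power -/
theorem in_fix {l : ℕ} {P : Ideal (𝓞 Qb)} (o : Ov l P) (n : l ≠ pp) {i : GQ} (k : Inert P i)
    {r t : Qb} (t0 : t ≠ 0) (ft : i t = t) (U : Cd.Uo P (r ^ pp ^ N / t ^ pp ^ N))
    (f : i (r ^ pp ^ N) = r ^ pp ^ N) : i r = r := by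
  have := Rw4.inert_fix (r := r / t) o (((Nat.coprime_primes o.1 pp_prime).2 n).pow_right N)
    (pow_pos pp_pos N).ne' k (by rwa [div_pow]) (by rw [div_pow, map_div₀, f, map_pow, ft])
  rwa [map_div₀, ft, div_left_inj' t0] at this

theorem Z_unr (h : Rf D N u ρ) {l : ℕ} {P : Ideal (𝓞 Qb)} (o : Ov l P) (n : l ≠ pp) {i : D.G}
    (k : Inert P i.1) (a : ∀ x : X, i • x = x)
    (U : ∀ x, ∃ t ≠ 0, i.1 t = t ∧ Cd.Uo P (u x / t ^ pp ^ N)) : Z D ι w ρ i = 0 :=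
  Z_zero ι h.ne' a fun x => let ⟨_, t0, ft, b⟩ := U x
    in_fix (N := N) o n k t0 ft (by rwa [h.rt]) (by rw [h.rt, h.eqv, a])

end Zs

end Vale.Agent.P014X
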