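import Vale.Agent.P014X.Ac.St2
import Vale.Agent.P014X.Ac.Kr
import Vale.Agent.P014X.Ac.Zw
import Vale.Agent.P014X.Fm.Ind

/-! # P014X, anchor: the kernel (row `KER`) -/

set_option autoImplicit false
set_option linter.all false

open Finset
open scoped Classical

noncomputable section

namespace Vale.Agent.P014X.Ac

open Vale.Agent.P022 (Qb GQ)
open Vale.Agent.P014U
open Vale.Agent.P014U.Dr (Zn)

namespace Ke

section

variable {A B : ℤ} {D : Cd A B} {X : Type} [MulAction D.G X] {H : Subgroup GQ} {x₀ : X}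
  {sec : X → D.G}

/-- characters are functions on `X` -/
theorem sec_act (s : Gs D H x₀ sec) {M : Type} [Monoid M] {φ : D.G →* M}
    (h : ∀ g : D.G, g.1 ∈ H → φ g = 1) (g : D.G) (y : X) : φ (sec (g • y)) = φ g * φ (sec y) := by
  rw [← map_mul, ← mul_inv_cancel_left (g * sec y) (sec (g • y)), map_mul,
    h (_ * sec (g • y)) ((s.st _).1 ?_), mul_one]
  rw [mul_smul, s.sec, inv_smul_eq_iff, mul_smul, s.sec]

theorem vq_T (h : D.G) (r : QQ X) (y : X) : vq (Tq D h r) y = vq r (h • y) := rfl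

theorem vq_ne (r : QQ X) (y : X) : vq r y ≠ 0 := Units.ne_zero _

theorem vq_sub (r r' : QQ X) : vq (r - r') = vq r / vq r' := funext fun y => by simp [vq]

theorem vq_n (q : ℕ) (r : QQ X) (y : X) : vq (q • r) y = vq r y ^ q := by simp [vq]

theorem vq_N (p : ℕ) (σ : D.G) (r : QQ X) (y : X) :
    vq (Nq D p σ r) y = ∏ i ∈ range p, vq r (σ ^ i • y) := by
  simp only [← vq_T]
  simp [vq, Nq, AddMonoidHom.finset_sum_apply, toMul_sum]

variable (c : ∀ (g h : D.G) (y : X), g • h • y = h • g • y) {q p : ℕ} {σ : D.G} {r : QQ X}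

include c

theorem T_F (h : D.G) (a : r ∈ Fq D X) : Tq D h r ∈ Fq D X := fun g y => by
  rw [vq_T, vq_T, a g, c]

theorem T_A (h : D.G) (a : r ∈ Aq D X q p σ) : Tq D h r ∈ Aq D X q p σ := by
  refine ⟨?_, ?_⟩
  · have := T_F c h (r := q • r) a.1
    rwa [map_nsmul] at this
  · intro g y
    have := a.2 g (h • y)
    simp only [vq_N, vq_T, c h] at this ⊢
    rw [this, c g h]

theorem n_A (e : ℕ) (ι : D.G) : (Aq D X q p σ).map (nq D e ι) ≤ Aq D X q p σ := by
  rintro _ ⟨r, a, rfl⟩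
  exact sub_mem a (nsmul_mem (T_A c ι a) e)

end

variable [Pp] {A B : ℤ} {D : Cd A B} {k : ℕ} {C : Cr k} {a b : ℤ} {M : ℕ} {x : D.An C a b M}
  {X : Type} [Fintype X] [MulAction D.G X] {x₀ : X} {sec : X → D.G} {w : X → C.O} {n n' e : ℕ}
  {γ ι : D.G} {r : QQ X}

theorem mem_K {g : D.G} : g.1 ∈ Kg x x.I 1 ↔ (∀ f ∈ x.I, f g = 1) ∧ x.ξ₁ g = 1 := by
  refine (Subgroup.mem_map_iff_mem D.G.subtype_injective).trans ?_
  simp

theorem rf {σ : D.G} (h : r ∈ Aq D X (pp ^ n) pp σ) : Zs.Rf D n (vq (pp ^ n • r)) (vq r) :=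
  ⟨vq_ne _, h.1, fun y => (vq_n _ _ y).symm⟩

theorem qm_smul (s : C.O) (z : Qa a b C.O) : qm a b (C.rd n) (s • z) = C.rd n s • qm a b (C.rd n) z :=
  QuadraticAlgebra.ext (by simp [qm]) (by simp [qm])

theorem qm_star (z : Qa a b C.O) : qm a b (C.rd n) (star z) = star (qm a b (C.rd n) z) :=
  QuadraticAlgebra.ext (by simp [qm]) (by simp [qm])

theorem st_smul {R : Type} [CommRing R] (s : R) (z : Qa a b R) : star (s • z) = s • star z :=
  QuadraticAlgebra.ext (by simp [mul_add, mul_left_comm]) (by simp)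

variable (S : Su x n' e γ ι) (F : Fr x γ x₀ sec w)

include F

theorem f_act {f : D.G →* Qa a b C.O} (h : f ∈ x.I) (g : D.G) (y : X) :
    f (sec (g • y)) = f g * f (sec y) := sec_act F.gs (fun _ k => (mem_K.1 k).1 f h) g y

theorem x_act (g : D.G) (y : X) : x.ξ₁ (sec (g • y)) = x.ξ₁ g * x.ξ₁ (sec y) :=
  sec_act F.gs (fun _ k => (mem_K.1 k).2) g y

theorem ext {y y' : X} (h : ∀ f ∈ x.I, f (sec y) = f (sec y')) (k : x.ξ₁ (sec y) = x.ξ₁ (sec y')) :
    y = y' := by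
  have := (F.gs.st ((sec y)⁻¹ * sec y')).2 (mem_K.2 ⟨fun f e => by
    rw [map_mul, ← h f e, ← map_mul, inv_mul_cancel, map_one], by
    rw [map_mul, ← k, ← map_mul, inv_mul_cancel, map_one]⟩)
  rwa [mul_smul, inv_smul_eq_iff, F.gs.sec, F.gs.sec, eq_comm] at this

include S

theorem pw_iff (i j : ℕ) (y : X) : γ ^ i • y = γ ^ j • y ↔ C.pb.gen ^ i = C.pb.gen ^ j :=
  ⟨fun h => by
    have := congrArg (fun z => x.ξ₁ (sec z)) h
    simpa only [x_act F, map_pow, S.gx, ((Group.isUnit (sec y)).map x.ξ₁).mul_left_inj] using this,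
  fun h => ext F (fun f e => by simp only [f_act F e, map_pow, S.gf f e, one_pow])
    (by simp only [x_act F, map_pow, S.gx, h])⟩

theorem free (i : ℕ) (y : X) : (γ ^ pp ^ k) ^ i • y = y ↔ pp ∣ i := by
  have := pw_iff S F (pp ^ k * i) 0 y
  rw [pow_zero, pow_zero, one_smul, pow_mul] at this
  rw [this, C.prim.pow_eq_one_iff_dvd, pow_succ, Nat.mul_dvd_mul_iff_left (pow_pos pp_pos k)]

/-- primitives of the logarithms -/
theorem ex_c (h90 : H90) (h : r ∈ Aq D X (pp ^ n) pp (γ ^ pp ^ k)) (g : D.G) : ∃ c : X → Zn n,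
    ∀ y, Zs.dl n (Zs.q D (vq r) g y) = c (γ ^ pp ^ k • y) - c y := by
  refine (h90 _ X _ pp _ pp_ne (free S F)).1 _ fun y => ?_
  rw [← Zs.dl_prod _ fun i => (rf h).q_pow g _, ← Zs.dl_one, ← Zs.q_eqv (vq_ne _) h.2 g y]
  simp only [Zs.q, vq_N, map_prod, prod_div_distrib, F.gs.com g⁻¹]

/-- summation by parts -/
theorem yf_eq {f : D.G →* Qa a b C.O} (h : f ∈ x.I) {g : D.G} {c : X → Zn n}
    (e : ∀ y, Zs.dl n (Zs.q D (vq r) g y) = c (γ ^ pp ^ k • y) - c y) : yf x n sec w f r g =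
      ∑ y, (C.io n (c y) * C.rd n (x.ξ₁ (sec y))) • qm a b (C.rd n) (f (sec y) * x.lam) := by
  simp only [yf, Zs.Z, e, map_sub, mul_sub, sum_sub_distrib]
  rw [← Equiv.sum_comp (MulAction.toPerm (γ ^ pp ^ k)⁻¹), ← sum_sub_distrib]
  refine sum_congr rfl fun y _ => ?_
  rw [MulAction.toPerm_apply, smul_inv_smul, f_act F h, ← F.wt,
    MonoidHom.mem_ker.1 (inv_mem (pow_mem (MonoidHom.mem_ker.2 (S.gf f h)) _))]
  simp only [qm_smul]
  simp only [RingHom.comp_apply, Algebra.smul_def, map_mul, map_sub, map_one]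
  ring

/-- the other characters kill the image -/
theorem yf_zero (h90 : H90) (h : r ∈ Aq D X (pp ^ n) pp (γ ^ pp ^ k)) {f : D.G →* Qa a b C.O}
    (i : f ∈ x.I) (j : f ι = 1) (g : D.G) : yf x n sec w f (r - Tq D ι r) g = 0 := by
  obtain ⟨c, e⟩ := ex_c S F h90 h g
  rw [yf_eq S F i (c := fun y => c y - c (ι • y)) fun y => ?_]
  · simp only [map_sub, sub_mul, sub_smul, sum_sub_distrib]
    rw [← Equiv.sum_comp (MulAction.toPerm ι), sub_eq_zero]
    simp only [MulAction.toPerm_apply, f_act F i, x_act F, j, S.ix, one_mul]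
  · have u := (rf (n_A F.gs.com 1 ι ⟨r, h, rfl⟩)).q_pow g y
    have v := Zs.dl_mul u ((rf h).q_pow g (ι • y))
    have m : nq D 1 ι r = r - Tq D ι r := by simp [nq]
    rw [m, show Zs.q D (vq (r - Tq D ι r)) g y * Zs.q D (vq r) g (ι • y) = Zs.q D (vq r) g y by
      have := (map_ne_zero g.1).2 (vq_ne r (g⁻¹ • ι • y))
      have := vq_ne r (ι • y)
      simp only [Zs.q, vq_sub, Pi.div_apply, vq_T, map_div₀, F.gs.com ι]
      field_simp, e, e] at v
    rw [F.gs.com ι]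
    linear_combination -v

/-- the characters separate -/
theorem inv {l : Qa a b (C.L n)} (lu : IsUnit (l.im * (2 * l.re + b * l.im))) {c : X → Zn n}
    {t : X → D.G} {d : X → C.L n}
    (h : ∀ f ∈ x.I, ∑ y, (C.io n (c y) * C.rd n (x.ξ₁ (sec y))) • (qm a b (C.rd n) (f (sec y)) * l) +
      ∑ y, d y • (qm a b (C.rd n) (f (t y)) * star l) = 0) (z : X) : c (γ ^ pp ^ k • z) = c z := by
  let s (g : D.G) : C.L n := if ∀ f ∈ x.I, f g = 1 then x.I.card else 0
  have o (g : D.G) (u : C.L n) (v : Qa a b (C.L n)) :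
      ∑ f ∈ x.I, qm a b (C.rd n) (f (sec z)⁻¹) * u • (qm a b (C.rd n) (f g) * v) =
        (s ((sec z)⁻¹ * g) * u) • v := by
    simp only [mul_smul_comm, ← mul_assoc, ← map_mul, ← smul_sum, ← sum_mul, ← map_sum, s]
    split_ifs with j
    · rw [sum_congr rfl j]
      simp [mul_comm _ u, mul_smul, Nat.cast_smul_eq_nsmul]
    · rw [x.ort _ (by simpa only [not_forall, exists_prop] using j)]
      simp
  have := sum_eq_zero (s := x.I) fun f i =>
    (congrArg (qm a b (C.rd n) (f (sec z)⁻¹) * ·) (h f i)).trans (mul_zero _)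
  simp only [mul_add, mul_sum, sum_add_distrib] at this
  rw [sum_comm, sum_comm (s := x.I)] at this
  simp only [o, ← sum_smul] at this
  have e := (Kz.sep lu this).1
  simp only [s, ite_mul, zero_mul, ← sum_filter, ← mul_sum] at e
  rw [(by simpa using (C.unit_nat.2 x.cop).map (C.rd n) : IsUnit (x.I.card : C.L n)).mul_right_eq_zero,
    ← sum_bij (s := range (pp ^ (k + 1))) (fun i _ => γ ^ i • z)
    (f := fun i => C.io n (c (γ ^ i • z)) * C.rd n C.pb.gen ^ i * C.rd n (x.ξ₁ (sec z)))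
    (fun i _ => mem_filter.2 ⟨mem_univ _, fun f j => by
      rw [map_mul, f_act F j, map_pow, S.gf f j, one_pow, one_mul, ← map_mul, inv_mul_cancel, map_one]⟩)
    (fun i u j v t => C.prim.pow_inj (mem_range.1 u) (mem_range.1 v) ((pw_iff S F i j z).1 t))
    (fun y u => ?_) fun i _ => by rw [x_act F, map_pow, S.gx, map_mul, map_pow, mul_assoc], ← sum_mul,
    (((Group.isUnit _).map x.ξ₁).map (C.rd n)).mul_left_eq_zero] at e
  · simpa using Kz.ker_inv C (v := fun i => c (γ ^ i • z)) e (Nat.pow_lt_pow_right one_lt k.lt_succ_self)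
      (pow_pos pp_pos _) (Nat.modEq_zero_iff_dvd.2 dvd_rfl)
  · obtain ⟨i, v⟩ := x.rg ((sec z)⁻¹ * sec y)
    refine ⟨_, mem_range.2 (Nat.mod_lt i (pow_pos pp_pos _)), ext F (fun f j => ?_) ?_⟩
    · rw [f_act F j, map_pow, S.gf f j, one_pow, one_mul, ← mul_one (f _), ← (mem_filter.1 u).2 f j,
        ← map_mul, mul_inv_cancel_left]
    · rw [x_act F, map_pow, S.gx, ← pow_eq_pow_mod i C.pw, ← v, mul_comm, ← map_mul, mul_inv_cancel_left]

end Ke

open Ke in
/-- **the kernel** -/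
theorem ker [Pp] (h90 : H90) : KER := fun A B D Cf M k C a b x n' e γ ι S X _ _ x₀ sec w F n =>
  ⟨n_A F.gs.com e ι, fun r h z => by
    have h' := n_A F.gs.com e ι h
    refine Zs.eqv_of_q (vq_ne r) fun g y => Zs.dl_zero ((rf h').q_pow g y) ?_
    obtain ⟨c, u⟩ := ex_c S F h90 h' g
    obtain ⟨d, v⟩ := ex_c S F h90 h' (D.cg g)
    rw [u, sub_eq_zero]
    refine inv S F (l := qm a b (C.rd n) x.lam) (by simpa [qm, map_ofNat] using x.lu.map (C.rd n))
      (t := fun y => D.cg (sec y)) (d := fun y => C.io n (d y) * C.rd n (x.ξ₁ (sec y))) (fun f i => ?_) y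
    have t : D.tc (yf x n sec w f r) g = 0 := by
      by_cases j : f ∈ x.J
      · exact Fm.Ind.vc_inj (((Fm.Ind.xt_G (fun g => vc (D.tc (yf x n sec w f r) g)) g).symm.trans
          (congrFun (z f j) g)).trans (Fm.Ind.vc_zero (R := C.L n)).symm)
      · obtain ⟨r, m, rfl⟩ := h
        obtain ⟨-, s⟩ | ⟨rfl, -, s, -⟩ := S.sg
        · exact absurd (s ▸ i) j
        · simp [Cd.tc, nq, yf_zero S F h90 m i ((s f i).1 j)]
    rw [Cd.tc, yf_eq S F i u, yf_eq S F i v] at t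
    simpa only [map_mul (qm a b _), star_sum, st_smul, star_mul', x.cj f i _, qm_star] using t⟩

end Vale.Agent.P014X.Ac
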