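import Vale.Agent.P014X.Ac.St2
import Vale.Agent.P014X.Ac.Rnk

/-! # P014X, the anchor: row `KY0` -/

set_option autoImplicit false
set_option linter.all false

noncomputable section

namespace Vale.Agent.P014X.Ac

open Rk in
/-- **row KY0** -/
theorem ky0 (beq : BEQ) : KY0 := by
  intro M I _ _ X M0 I0 C p r E s s' hp lp cu f h n1 e1 hs
  haveI := Fact.mk hp
  have n1' := e1 ▸ n1
  simp only [mul_ne_zero_iff] at n1 n1'
  obtain ⟨⟨i0, h0⟩, s0⟩ := n1
  obtain ⟨⟨⟨x1, x2⟩, x3⟩, s1⟩ := n1'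
  obtain ⟨-, c0, b1⟩ := beq M I X _ _ _ _ lp h0
  have b0 : X.b ⊤ M0 ⊤ ≠ 0 := left_ne_zero_of_mul (b1.trans_ne (by positivity))
  have eb : X.bm M0 (.id M) (.id I) = X.b ⊤ M0 ⊤ := by
    rw [Dp.bm, show (AddMonoidHom.id M).prodMap (.id I) = .id _ from rfl, AddSubgroup.map_id,
      AddSubgroup.relIndex_sup_right, Dp.b]
  have ei : X.im C (.id M) = C.relIndex X.U := by rw [Dp.im, AddSubgroup.map_id, AddSubgroup.map_id]
  have v1 := congrArg (padicValNat p) e1
  have v3 := congrArg (padicValNat p) b1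
  rw [padicValNat.mul (by positivity) s0, padicValNat.mul i0 h0,
    padicValNat.mul (by positivity) s1] at v1
  rw [padicValNat.mul b0 h0, padicValNat.mul (by positivity) c0] at v3
  have := fin_le (A := M0 ⊓ X.d.ker) inf_le_right
  have a1 := nul (A := X.d.ker) X.N
  have a4 := rk_le (A := X.d.ker.map X.N) (B := M0 ⊓ X.d.ker) (by
    rintro _ ⟨x, m, rfl⟩
    exact ⟨lp.n x trivial, (lp.com x).trans (by rw [show X.d x = 0 from m, map_zero])⟩)
  refine ⟨cu, eb ▸ b0, ei ▸ i0, by rw [eb, ei]; omega, fin_le (B := X.d.ker) inf_le_left, ?_⟩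
  rw [AddSubgroup.map_id]
  change _ + Module.finrank ℤ X.U = _ at a1
  omega

end Vale.Agent.P014X.Ac
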