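import Vale.Agent.P014X.Ac.St2
import Vale.Agent.P014X.Ac.Rnk

/-! # P014X, the anchor: the package with an involution (helper12) -/

set_option autoImplicit false
set_option linter.all false

open Module

noncomputable section

namespace Vale.Agent.P014X.Ac

open Rk in
theorem ky1 (beq : BEQ) (m1 : MI1) (m2 : MI2) (m3 : MI3) : KY1 := by
  intro M I _ _ p k Y r E s s' a a' o f h n1 n2 e1 e2 hs
  haveI := Fact.mk o.pr
  have n1' := e1 ▸ n1
  have n2' := e2 ▸ n2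
  simp only [mul_ne_zero_iff] at n1 n2 n1' n2'
  obtain ⟨⟨i0, h0⟩, s0⟩ := n1
  obtain ⟨⟨ip, hq⟩, a0⟩ := n2
  obtain ⟨⟨⟨x1, x2⟩, x3⟩, s1⟩ := n1'
  obtain ⟨⟨⟨y1, y2⟩, y3⟩, a1⟩ := n2'
  obtain ⟨-, c0, b1⟩ := beq M I Y.X _ _ _ _ o.l0 h0
  obtain ⟨-, cq, b2⟩ := beq M I Y.X _ _ _ _ o.lp hq
  have b0 : Y.X.b ⊤ Y.M0 ⊤ ≠ 0 := left_ne_zero_of_mul (b1.trans_ne (by positivity))
  have bp : Y.X.b Y.Mp (Y.M0 ⊓ Y.Mp) Y.Ip ≠ 0 := left_ne_zero_of_mul (b2.trans_ne (by positivity))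
  obtain ⟨bm, k1⟩ := m1 M I p k Y o b0 bp
  obtain ⟨im, k2⟩ := m2 M I p k Y o i0 ip
  have k3 := m3 M I p k Y o c0 cq
  have v1 := congrArg (padicValNat p) e1
  have v2 := congrArg (padicValNat p) e2
  have v3 := congrArg (padicValNat p) b1
  have v4 := congrArg (padicValNat p) b2
  rw [padicValNat.mul s1 a0, padicValNat.mul s0 a1] at hs
  rw [padicValNat.mul (by positivity) s0, padicValNat.mul i0 h0,
    padicValNat.mul (by positivity) s1] at v1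
  rw [padicValNat.mul (by positivity) a0, padicValNat.mul ip hq,
    padicValNat.mul (by positivity) a1] at v2
  rw [padicValNat.mul b0 h0, padicValNat.mul (by positivity) c0] at v3
  rw [padicValNat.mul bp hq, padicValNat.mul (by positivity) cq] at v4
  have key : padicValNat p Y.im ≤ padicValNat p Y.bm + E := by omega
  have hm (x) : Y.m x = x - Y.t x := rfl
  have fu := fin_le (A := Y.X.U) (B := Y.d.ker) inf_le_left
  have := fin_le (A := Y.M0 ⊓ Y.d.ker) inf_le_right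
  have := fin_le (A := Y.Mp ⊓ Y.d.ker) inf_le_right
  have := fin_le (A := Y.M0 ⊓ Y.Mp ⊓ Y.d.ker) inf_le_right
  have := fin_map (A := Y.Mp ⊓ Y.d.ker) Y.X.N
  have r1 := nul (A := Y.d.ker) Y.X.N
  have r2 := nul (A := Y.X.U) Y.m
  have r3 := nul (A := Y.Mp ⊓ Y.d.ker) Y.X.N
  have r4 := rk_le (A := Y.d.ker.map Y.X.N) (B := Y.M0 ⊓ Y.d.ker) (by
    rintro _ ⟨x, m, rfl⟩
    exact ⟨o.l0.n x trivial, (o.l0.com x).trans (by rw [show Y.X.d x = 0 from m, map_zero])⟩)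
  have r5 := rk_ge (A := (Y.Mp ⊓ Y.d.ker).map Y.X.N) (B := Y.M0 ⊓ Y.Mp ⊓ Y.d.ker) y1
  have r6 : Y.X.U ⊓ Y.m.ker = Y.Mp ⊓ Y.d.ker ⊓ Y.X.N.ker := AddSubgroup.ext fun x => by
    simp only [Dp.U, AddSubgroup.mem_inf, AddMonoidHom.mem_ker, hm, o.Mp, sub_eq_zero, eq_comm (a := x)]
    tauto
  rw [r6] at r2
  refine ⟨o.CU, bm, im, key, fu, ?_⟩
  change _ + finrank ℤ Y.X.U = _ at r1
  omega

end Vale.Agent.P014X.Ac
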