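import Vale.Agent.P014X.Ac.St

/-! # P014X, the anchor: cyclic layers of fields -/

set_option autoImplicit false
set_option linter.all false

open NumberField NumberField.Units IsDedekindDomain Function Finset
open scoped Classical nonZeroDivisors

noncomputable section

namespace Vale.Agent.P014X.Ac.Ly

open Vale.Agent.P022 (Qb GQ GK)
open Cd (Tv)
open An (Pm nU vU Sp GAL Pair)

variable {F₀ F : Type} [Field F₀] [NumberField F₀] [Field F] [NumberField F]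

/-- the fixed field -/
abbrev Fx (s : F ≃+* F) : Subfield F := RingHom.eqLocusField s.toRingHom (RingHom.id F)

theorem nf (s : F ≃+* F) : NumberField (Fx s) := NumberField.of_subfield _

theorem fx (s x) : s x = x ↔ x ∈ (algebraMap (Fx s) F).range :=
  ⟨fun h => ⟨⟨x, h⟩, rfl⟩, by rintro ⟨y, rfl⟩; exact y.2⟩

theorem zp [Algebra F₀ F] {n : ℕ} {s : F ≃+* F} (c : Cc n F₀ s) (τ : F ≃+* F)
    (h : ∀ y, τ (algebraMap F₀ F y) = algebraMap F₀ F y) : ∃ i : ℕ, s ^ i = τ := by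
  have := IntermediateField.fixingSubgroup_fixedField (Subgroup.zpowers s.toRatAlgEquiv)
  have k : τ.toRatAlgEquiv ∈ Subgroup.zpowers s.toRatAlgEquiv := by
    rw [← this, IntermediateField.mem_fixingSubgroup_iff]
    intro x hx
    obtain ⟨y, rfl⟩ := (c.fix x).1
      ((IntermediateField.mem_fixedField_iff _ x).1 hx _ (Subgroup.mem_zpowers _))
    exact h y
  obtain ⟨i, e⟩ := (Submonoid.mem_powers_iff _ _).1 (mem_powers_iff_mem_zpowers.2 k)
  refine ⟨i, RingEquiv.ext fun x => ?_⟩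
  have : ∀ (i : ℕ) x, (s.toRatAlgEquiv ^ i) x = (s ^ i) x := fun i => by
    induction i with
    | zero => exact fun _ => rfl
    | succ i e => exact fun x => by rw [pow_succ, pow_succ, AlgEquiv.mul_apply, e]; rfl
  rw [← this, e]
  rfl

theorem pw {jF : F →+* Qb} {s : F ≃+* F} {σ : GQ} (h : ∀ x, jF (s x) = σ (jF x)) (i : ℕ) (x : F) :
    jF ((s ^ i) x) = (σ ^ i) (jF x) := by
  induction i generalizing x with
  | zero => rfl
  | succ i e => rw [pow_succ, pow_succ, AlgEquiv.mul_apply, ← h, ← e]; rfl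

theorem ord {jF : F →+* Qb} {s : F ≃+* F} {σ : GQ} (h : ∀ x, jF (s x) = σ (jF x)) {n : ℕ}
    (hn : n.Prime) (a : σ ∉ GK jF) (b : σ ^ n ∈ GK jF) : orderOf s = n := by
  haveI := Fact.mk hn
  refine orderOf_eq_prime (RingEquiv.ext fun x => jF.injective ((pw h n x).trans (b x))) fun e =>
    a fun x => ?_
  rw [← h, e]
  rfl

variable {A B : ℤ} {D : Cd A B} {m : D.O}

/-- the elements of `G` act on `F` and commute -/
structure Ab1 (D : Cd A B) (m : D.O) (jF : F →+* Qb) : Prop where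
  G : GK jF ≤ D.G
  hm : D.Hm m ≤ GK jF
  res : ∀ g ∈ D.G, ∃ s : F ≃+* F, ∀ x, jF (s x) = g (jF x)
  com : ∀ x ∈ D.G, ∀ y ∈ D.G, x * y * x⁻¹ * y⁻¹ ∈ GK jF
  sur : ∀ e : D.O, ∃ y : 𝓞 F, jF y = D.j e
  rk : rank F + 1 = (GK jF).relIndex D.G
  sp : ∃ S, Sp D m jF S

theorem ab1 (gal : GAL) (cf : D.Cf) (m0 : m ≠ 0) {jF : F →+* Qb} (a : GK jF ≤ D.G)
    (b : D.Hm m ≤ GK jF) : Ab1 D m jF := by
  obtain ⟨-, rk, sp, fx, -, Γ, _, _, π, ρ, sur, ker, act, -⟩ := gal A B D cf m m0 F jF a b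
  refine ⟨a, b, fun g h => ⟨_, act ⟨g, h⟩⟩, fun x h y k => ?_, fun e => ?_, rk, sp⟩
  · have e : π (⟨x, h⟩ * ⟨y, k⟩ * (⟨x, h⟩ : D.G)⁻¹ * (⟨y, k⟩ : D.G)⁻¹) = 1 := by
      rw [map_mul, map_mul, map_mul, map_inv, map_inv, mul_comm (π ⟨x, h⟩), mul_inv_cancel_right,
        mul_inv_cancel]
    exact (ker _).1 e
  · obtain ⟨y, hy⟩ := fx (D.j e) fun g h => congrArg Subtype.val (cf.fix g (a h) e)
    exact ⟨⟨y, (isIntegral_algHom_iff jF.toIntAlgHom jF.injective).1 (by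
      rw [show jF.toIntAlgHom y = D.j e from hy]; exact (D.j e).2)⟩, hy⟩

variable {jF : F →+* Qb}

theorem Ab1.cm (a : Ab1 D m jF) {g h : GQ} (hg : g ∈ D.G) (hh : h ∈ D.G) (x : F) :
    g (h (jF x)) = h (g (jF x)) := by
  have := congrArg (h * g) (a.com _ (inv_mem hg) _ (inv_mem hh) x)
  rw [inv_inv, inv_inv, ← AlgEquiv.mul_apply, show h * g * (g⁻¹ * h⁻¹ * g * h) = g * h by group] at this
  exact this

theorem Ab1.gk [Algebra F₀ F] (a : Ab1 D m jF) {n : ℕ} {s : F ≃+* F} (c : Cc n F₀ s) {σ : GQ}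
    (hσ : σ ∈ D.G) (h : ∀ x, jF (s x) = σ (jF x)) (g : GQ) :
    g ∈ GK (jF.comp (algebraMap F₀ F)) ↔ ∃ i : ℕ, (σ ^ i)⁻¹ * g ∈ GK jF := by
  have f0 : ∀ y, σ (jF (algebraMap F₀ F y)) = jF (algebraMap F₀ F y) := fun y => by
    rw [← h, (c.fix _).2 ⟨y, rfl⟩]
  refine ⟨fun k => ?_, fun ⟨i, k⟩ => ?_⟩
  · obtain ⟨y, e⟩ := a.sur QuadraticAlgebra.omega
    obtain ⟨z, hz⟩ := (c.fix y).1 (jF.injective (by
      rw [h, e]; exact congrArg Subtype.val ((D.mem σ).1 hσ)))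
    have gG : g ∈ D.G := (D.mem g).2 (Subtype.ext (by
      have := k z
      rw [RingHom.comp_apply, hz, e] at this
      exact this))
    obtain ⟨τ, t⟩ := a.res g gG
    obtain ⟨i, e⟩ := zp c τ fun y => jF.injective ((t _).trans (k y))
    refine ⟨i, fun x => ?_⟩
    rw [AlgEquiv.mul_apply, ← t, ← e, pw h, ← AlgEquiv.mul_apply, inv_mul_cancel]
    rfl
  · rw [← mul_inv_cancel_left (σ ^ i) g]
    exact mul_mem (pow_mem (show σ ∈ GK (jF.comp (algebraMap F₀ F)) from f0) i) fun y => k _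

theorem Ab1.gG [Algebra F₀ F] (a : Ab1 D m jF) {n : ℕ} {s : F ≃+* F} (c : Cc n F₀ s) {σ : GQ}
    (hσ : σ ∈ D.G) (h : ∀ x, jF (s x) = σ (jF x)) : GK (jF.comp (algebraMap F₀ F)) ≤ D.G :=
  fun g k => by
    obtain ⟨i, e⟩ := (a.gk c hσ h g).1 k
    rw [← mul_inv_cancel_left (σ ^ i) g]
    exact mul_mem (pow_mem hσ i) (a.G e)

theorem le (φ : F₀ →+* F) : GK jF ≤ GK (jF.comp φ) := fun _ h _ => h _

theorem two {H : Subgroup GQ} {ι g : GQ} (h : ι * ι ∈ H) :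
    (∃ i : ℕ, (ι ^ i)⁻¹ * g ∈ H) ↔ g ∈ H ∨ ι⁻¹ * g ∈ H := by
  refine ⟨fun ⟨i, k⟩ => ?_, fun k => k.elim (fun k => ⟨0, by simpa using k⟩)
    fun k => ⟨1, by simpa using k⟩⟩
  obtain ⟨q, e | e⟩ := Nat.even_or_odd' i
  · left
    rw [← mul_inv_cancel_left (ι ^ i) g]
    exact mul_mem (by rw [e, pow_mul, pow_two]; exact pow_mem h q) k
  · right
    rw [show ι⁻¹ * g = (ι * ι) ^ q * ((ι ^ i)⁻¹ * g) by rw [e, ← pow_two, ← pow_mul]; group]
    exact mul_mem (pow_mem h q) k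

theorem Ab1.idx [Algebra F₀ F] (a : Ab1 D m jF) {n : ℕ} {s : F ≃+* F} (c : Cc n F₀ s) {σ : GQ}
    (hσ : σ ∈ D.G) (h : ∀ x, jF (s x) = σ (jF x)) :
    (GK jF).relIndex D.G = n * (GK (jF.comp (algebraMap F₀ F))).relIndex D.G := by
  rw [← Subgroup.relIndex_mul_relIndex _ _ _ (le (algebraMap F₀ F)) (a.gG c hσ h)]
  congr 1
  choose r hr using fun g : GK (jF.comp (algebraMap F₀ F)) => a.res g.1 (a.gG c hσ h g.2)
  let f : GK (jF.comp (algebraMap F₀ F)) →* (F ≃+* F) := MonoidHom.mk' r fun g k =>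
    RingEquiv.ext fun x => jF.injective (by
      rw [hr, show (r g * r k) x = r g (r k x) from rfl, hr, hr]; rfl)
  have k : f.ker = (GK jF).subgroupOf _ := Subgroup.ext fun g =>
    ⟨fun e x => (hr g x).symm.trans (by rw [show r g = 1 from e]; rfl),
      fun e => RingEquiv.ext fun x => jF.injective ((hr g x).trans (e x))⟩
  have q : f.range = Subgroup.zpowers s := by
    refine le_antisymm ?_ (Subgroup.zpowers_le.2
      ⟨⟨σ, (a.gk c hσ h σ).2 ⟨1, by simp⟩⟩, RingEquiv.ext fun x => jF.injective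
        ((hr _ x).trans (h x).symm)⟩)
    rintro _ ⟨g, rfl⟩
    obtain ⟨i, e⟩ := zp c (f g) fun y => jF.injective ((hr g _).trans (g.2 y))
    exact e ▸ pow_mem (Subgroup.mem_zpowers s) i
  rw [Subgroup.relIndex, ← k, Subgroup.index_ker, q, Nat.card_zpowers, c.ord]

theorem ab {φ : F₀ →+* F} {S₀ S} (h : ∃ y : 𝓞 F₀, jF (φ y) = D.j m) (a : Sp D m (jF.comp φ) S₀)
    (b : Sp D m jF S) : Ab φ S₀ S := fun w v e => by
  rw [a, b, ← e]
  refine ⟨fun ⟨y, k, l⟩ => ?_, fun ⟨y, k, l⟩ => ⟨_, k, l⟩⟩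
  obtain ⟨z, hz⟩ := h
  refine ⟨z, ?_, hz⟩
  rw [Ideal.mem_comap, show RingOfIntegers.mapRingHom φ z = y from
    Subtype.ext (jF.injective (hz.trans l.symm))]
  exact k

theorem ab_self (cf : D.Cf) (a : Ab1 D m jF) {S} (b : Sp D m jF S) {s : F ≃+* F} {g : GQ}
    (hg : g ∈ D.G) (h : ∀ x, jF (s x) = g (jF x)) : Ab s.toRingHom S S := by
  have k : ∀ y : F, jF (s y) = D.j m ↔ jF y = D.j m := fun y => by
    have q : g (D.j m) = D.j m := congrArg Subtype.val (cf.fix g hg m)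
    rw [h]
    exact ⟨fun e => g.injective (e.trans q.symm), fun e => by rw [e, q]⟩
  obtain ⟨y, e⟩ := a.sur m
  exact ab ⟨y, (k y).2 e⟩ (fun w => (b w).trans (exists_congr fun y => and_congr_right fun _ =>
    (k y).symm)) b

theorem tv {H H₁ K : Subgroup GQ} {ι : GQ} {T} (t : Tv H K T) (l : K ≤ H) (i : ι ∉ H)
    (h : ∀ x, x ∈ H₁ ↔ x ∈ H ∨ ι⁻¹ * x ∈ H) (x : Qb) : ∃ T₁, Tv H₁ K T₁ ∧
      ∏ s ∈ T₁, s x = (∏ s ∈ T, s x) * ι (∏ s ∈ T, s x) := by
  have n : ∀ g, g ∈ H → ι⁻¹ * g ∈ H → False := fun g a b =>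
    i (by simpa using mul_mem a (inv_mem b))
  refine ⟨T ∪ T.image (ι * ·), ⟨fun s k => (h s).2 ?_, fun g k => ?_⟩, ?_⟩
  · rcases mem_union.1 k with k | k
    · exact .inl (t.1 s k)
    · obtain ⟨s, k', rfl⟩ := mem_image.1 k
      exact .inr (by simpa using t.1 s k')
  · rcases (h g).1 k with k | k
    · obtain ⟨s, ⟨a, b⟩, e⟩ := t.2 g k
      refine ⟨s, ⟨mem_union_left _ a, b⟩, fun s' ⟨c, d⟩ => ?_⟩
      rcases mem_union.1 c with c | c
      · exact e s' ⟨c, d⟩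
      · obtain ⟨s', c', rfl⟩ := mem_image.1 c
        exact (n g k (by simpa [mul_assoc] using mul_mem (t.1 s' c') (l d))).elim
    · obtain ⟨s, ⟨a, b⟩, e⟩ := t.2 _ k
      refine ⟨ι * s, ⟨mem_union_right _ (mem_image_of_mem _ a), by simpa [mul_assoc] using b⟩,
        fun s' ⟨c, d⟩ => ?_⟩
      rcases mem_union.1 c with c | c
      · exact (n g (by simpa using mul_mem (t.1 s' c) (l d)) k).elim
      · obtain ⟨s', c', rfl⟩ := mem_image.1 c
        rw [e s' ⟨c', by simpa [mul_assoc] using d⟩]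
  · rw [prod_union, prod_image fun _ _ _ _ e => mul_left_cancel e, map_prod]
    · rfl
    · refine disjoint_left.2 fun s a b => ?_
      obtain ⟨s', c, rfl⟩ := mem_image.1 b
      exact n _ (t.1 _ a) (by simpa using t.1 s' c)

end Vale.Agent.P014X.Ac.Ly
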