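import Vale.Agent.P014X.Ac.Fld
import Vale.Agent.P014X.Ac.Lay

/-! # P014X, anchor: the package of a field -/

set_option autoImplicit false
set_option linter.all false

open NumberField NumberField.Units Function Finset
open scoped Classical

noncomputable section

namespace Vale.Agent.P014X.Ac

open Vale.Agent.P022 (Qb GQ GK)
open Cd (Tv)
open An (Pm nU iU vU Sp GAL LOC IDX Pair Cu sm)

namespace Pkf

theorem cop {H : Subgroup GQ} {p : ℕ} (o : Odd p) {x : GQ} (a : x ^ p ∈ H) (b : x * x ∈ H) : x ∈ H := by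
  obtain ⟨q, e⟩ := o
  have := mul_mem (inv_mem (pow_mem b q)) a
  rwa [e, ← pow_two, ← pow_mul, pow_succ, inv_mul_cancel_left] at this

theorem ari {p r n c : ℕ} (hp : 0 < p) (c0 : 0 < c) (h : c * p * r = (p - 1) * (p * (c * n))) :
    r + n = p * n := by
  obtain ⟨q, rfl⟩ : ∃ q, p = q + 1 := ⟨p - 1, (Nat.sub_add_cancel hp).symm⟩
  rw [Nat.add_sub_cancel, show q * ((q + 1) * (c * n)) = c * (q + 1) * (q * n) by ring] at h
  rw [Nat.eq_of_mul_eq_mul_left (by positivity) h, add_mul, one_mul]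

theorem ar2 {r k k0 k1 k2 n n0 n1 n2 : ℕ} (a : k + 1 = n) (a0 : k0 + 1 = n0) (a1 : k1 + 1 = n1)
    (a2 : k2 + 1 = n2) (b : n = 2 * n1) (c : n0 = 2 * n2) (d : r + n2 = n1) : r + k0 + k1 ≤ k + k2 := by
  omega

theorem sm0 {a : ℕ} (h : 1 < a) (H G g) : sm a H G g ≠ 0 := by
  by_cases e : H.relIndex (Subgroup.zpowers g) = 0
  · simp [sm, e]
  · exact pow_ne_zero _ (Nat.sub_ne_zero_of_lt (Nat.one_lt_pow (by omega) h))

theorem v2 {p x : ℕ} (hp : p.Prime) (o : p ≠ 2) (h : x ≠ 0) (q : ℕ) :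
    padicValNat p (2 ^ q * x) = padicValNat p x := by
  have := Fact.mk hp
  rw [padicValNat.mul (by positivity) h, padicValNat.eq_zero_of_not_dvd fun h =>
    o ((Nat.prime_dvd_prime_iff_eq hp Nat.prime_two).1 (hp.dvd_of_dvd_pow h)), zero_add]

theorem z0 {M : Type} [AddCommGroup M] (f g : M →+ M) : f - (0 : ℕ) • g = f := by ext; simp

theorem z1 {M : Type} [AddCommGroup M] (f g : M →+ M) : f - (1 : ℕ) • g = f - g := by ext; simp

end Pkf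

open Pkf Ly Fld

/-- **the package of a field** -/
theorem pkf (idx : IDX) (gal : GAL) (loc : LOC) (exf : EXF) (jsf : JSF) (nrm : NRM) (trp : TRP)
    (ky0 : KY0) (ky1 : KY1) : PKF := by
  intro A B D cf eu p k a e r E m hp p2 es a1 hd F _ _ jF H' H₁ H₂ γ ι g ζ T u S s t Q iv hζ ac tT hu hS
    hs ht hr hv
  have := Fact.mk hp
  have σp : (γ ^ p ^ k).1 ^ p ∈ GK jF := pow_mul γ.1 _ p ▸ Q.gp
  have g1 : (γ ^ p ^ k).1 ∉ GK jF := Q.g1
  have up : ∀ g, g ∈ H' ↔ ∃ i : ℕ, ((γ ^ p ^ k).1 ^ i)⁻¹ * g ∈ GK jF := Q.up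
  have σG := (γ ^ p ^ k).2
  generalize (γ ^ p ^ k).1 = σ at *
  have b := ab1 gal cf hd.ne Q.G Q.hm
  haveI := nf s
  have c0 : Cc p (Fx s) s := ⟨ord hs hp g1 σp, hp.ne_zero, fx s⟩
  set φ0 := algebraMap (Fx s) F with e0
  have k0 := b.gk c0 σG hs
  obtain rfl : H' = GK (jF.comp φ0) := Subgroup.ext fun g => (up g).trans (k0 g).symm
  have b0 := ab1 gal cf hd.ne (b.gG c0 σG hs) (Q.hm.trans (le φ0))
  have P0 : Pair D p m (Fx s) jF σ := ⟨b0.G, Q.hm, (k0 σ).2 ⟨1, by simp⟩, g1, σp,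
    fun g h => (k0 g).1 h, fun P h l => (Q.ns P h l).imp fun g h => ⟨h.1, h.2.2, h.2.1⟩⟩
  obtain ⟨S0, hS0⟩ := b0.sp
  obtain ⟨x1, x2, -, x3, q0, x4⟩ := idx A B D cf eu p a m hp p2 es a1 hd (Fx s) F jF σ g ζ T u S P0
    hζ ac tT hu hS
  have ag := ab_self cf b hS σG hs
  have a0 := ab (b0.sur m) hS0 hS
  have n0 := (loc A B D cf p m hp hd.ne (Fx s) F jF σ S0 S P0 hS0 hS).1
  have w0 := mul_ne_zero (mul_ne_zero x3 (classNumber_ne_zero (Fx s))) (sm0 a1 (GK (jF.comp φ0)) D.G g)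
  have i0 := b.idx c0 σG hs
  have rF := b.rk
  have r0 := b0.rk
  refine ⟨x1, ?_⟩
  obtain rfl | ⟨rfl, I⟩ := iv
  · rw [z0, z0]
    have := ari hp.pos one_pos (by rwa [i0, ← one_mul (Subgroup.relIndex _ _)] at hr)
    exact pg0 exf jsf trp ky0 hp c0 ag a0 n0 x2 w0 (z' := 2 ^ q0 * sm a (GK jF) D.G g) (by rw [x4]; ring)
      (by rw [v2 hp p2 (sm0 a1 _ _ _)]; simpa using hv) (by omega)
  rw [z1, z1]
  have ιG := ι.2
  generalize ι.1 = ι at *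
  have i2 : ι ^ 2 ∈ GK jF := pow_two ι ▸ I.i2
  haveI := nf t
  have c1 : Cc 2 (Fx t) t := ⟨ord ht Nat.prime_two I.i1 i2, two_ne_zero, fx t⟩
  set φ1 := algebraMap (Fx t) F with e1
  have k1 := fun g => (b.gk c1 ιG ht g).trans (two I.i2)
  have b1 := ab1 gal cf hd.ne (b.gG c1 ιG ht) (Q.hm.trans (le φ1))
  have m0 : ∀ i : ℕ, (σ ^ i)⁻¹ * ι ∉ GK jF := fun i h => I.i1 (cop (hp.odd_of_ne_two p2) (fun x => by
    have e : s ^ i = t := RingEquiv.ext fun x => jF.injective (by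
      rw [Ly.pw hs, ht, ← mul_inv_cancel_left (σ ^ i) ι, AlgEquiv.mul_apply, h x])
    rw [← Ly.pw ht, ← e, ← pow_mul, mul_comm, pow_mul, ← c0.ord, pow_orderOf_eq_one, one_pow]
    rfl) I.i2)
  have ι0 : ι ∉ GK (jF.comp φ0) := fun h => ((k0 ι).1 h).elim m0
  have n1 : ∀ (i : ℕ) x, x ∉ GK jF → (σ ^ i)⁻¹ * x ∈ GK jF → x ∉ GK (jF.comp φ1) := fun i x h e l =>
    ((k1 x).1 l).elim h fun l => m0 i (by simpa [mul_assoc] using mul_mem e (inv_mem l))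
  have σ1 : σ ∉ GK (jF.comp φ1) := n1 1 σ g1 (by simp)
  obtain ⟨s1, hs1⟩ := b1.res σ σG
  obtain ⟨t0, ht0⟩ := b0.res ι ιG
  haveI := nf s1
  have c2 : Cc p (Fx s1) s1 := ⟨ord hs1 hp σ1 (le φ1 σp), hp.ne_zero, fx s1⟩
  set φ2 := algebraMap (Fx s1) (Fx t) with e2
  have ss : ∀ x, φ1 (s1 x) = s (φ1 x) := fun x => jF.injective ((hs1 x).trans (hs _).symm)
  have tt : ∀ x, φ0 (t0 x) = t (φ0 x) := fun x => jF.injective ((ht0 x).trans (ht _).symm)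
  let ψ : Fx s1 →+* Fx s := (φ1.comp φ2).codRestrict (Fx s) fun x =>
    (ss _).symm.trans (congrArg φ1 x.2)
  letI : Algebra (Fx s1) (Fx s) := ψ.toAlgebra
  have c3 : Cc 2 (Fx s1) t0 := by
    refine ⟨ord ht0 Nat.prime_two ι0 (le φ0 i2), two_ne_zero, fun x => ⟨fun e => ?_, ?_⟩⟩
    · have e' : t (φ0 x) = φ0 x := by rw [← tt, e]
      exact ⟨⟨⟨φ0 x, e'⟩, φ1.injective ((ss _).trans x.2)⟩, rfl⟩
    · rintro ⟨y, rfl⟩
      exact φ0.injective ((tt _).trans y.1.2)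
  have k2 := b1.gk c2 σG hs1
  obtain rfl : H₁ = GK (jF.comp φ1) := Subgroup.ext fun g => (I.h1 g).trans (k1 g).symm
  obtain rfl : H₂ = GK ((jF.comp φ1).comp φ2) := Subgroup.ext fun g => (I.h2 g).trans
    ((b0.gk c3 ιG ht0 g).trans (two (le φ0 I.i2))).symm
  have b2 := ab1 gal cf hd.ne (b1.gG c2 σG hs1) (b1.hm.trans (le φ2))
  have P1 : Pair D p m (Fx s1) (jF.comp φ1) σ := ⟨b2.G, b1.hm, (k2 σ).2 ⟨1, by simp⟩, σ1, le φ1 σp,
    fun g h => (k2 g).1 h, fun P h l => by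
      obtain ⟨g, d, x, y⟩ := Q.ns P h l
      obtain ⟨i, y⟩ := (k0 g).1 y
      exact ⟨g, d, (k2 g).2 ⟨i, le φ1 y⟩, n1 i g x y⟩⟩
  obtain ⟨S1, hS1⟩ := b1.sp
  obtain ⟨S2, hS2⟩ := b2.sp
  obtain ⟨T1, tT1, hT1⟩ := tv tT Q.hm I.i1 k1 (D.un a m)
  have tt1 : t * t = 1 := by rw [← pow_two, ← c1.ord, pow_orderOf_eq_one]
  let u1 : Fx t := ⟨u * t u, show t (u * t u) = u * t u by
    rw [map_mul, show t (t u) = (t * t) u from rfl, tt1, mul_comm]; rfl⟩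
  have ju : (jF.comp φ1) u1 = jF u * ι (jF u) := by rw [← ht, ← map_mul]; rfl
  obtain ⟨y1, -, -, y3, q1, y4⟩ := idx A B D cf eu p a m hp p2 es a1 hd (Fx s1) (Fx t) (jF.comp φ1)
    σ g ζ T1 u1 S1 P1 hζ ac tT1 (by rw [ju, hT1, hu]) hS1
  set v := σ (jF u) / jF u with hv0
  set v1 := σ ((jF.comp φ1) u1) / (jF.comp φ1) u1 with hv1
  have ev : ∀ h ∈ D.G, h v1 = h v * ι (h v) := fun h l => by
    obtain ⟨w, e⟩ := x1 1 (one_mem _)
    have e : jF (vU w) = v := e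
    rw [hv1, ju, map_mul, mul_div_mul_comm, ← hv0, b.cm σG ιG, ← map_div₀, ← hv0, map_mul, ← e,
      b.cm l ιG]
  have i2 := b0.idx c3 ιG ht0
  refine pg1 exf jsf nrm trp (F₀ := Fx s) (F₂ := Fx s1) (C₁ := Cu D (jF.comp φ1) v1)
    ⟨hp, p2, RingEquiv.ext fun x => jF.injective ?_,
    c0, c1, c2, c3, rfl, ss, tt, ag, ab_self cf b hS ιG ht, a0, ab (b1.sur m) hS1 hS,
    ab (b2.sur m) hS2 hS1, n0, (loc A B D cf p m hp hd.ne (Fx s1) (Fx t) _ σ S2 S1 P1 hS2 hS1).1⟩ ky1 x2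
    (Subgroup.map_le_iff_le_comap.2 ((Subgroup.closure_le _).2 ?_)) (fun c h => ?_) w0
    (mul_ne_zero (mul_ne_zero y3 (classNumber_ne_zero _)) (sm0 a1 (GK ((jF.comp φ1).comp φ2)) D.G g))
    (z' := 2 ^ q0 * sm a (GK jF) D.G g) (a' := 2 ^ q1 * sm a (GK (jF.comp φ1)) D.G g)
    (by rw [x4]; ring) (by rw [y4]; ring) ?_ (ar2 rF r0 b1.rk b2.rk (b.idx c1 ιG ht) i2
      ((ari hp.pos two_pos (by rwa [i0, i2] at hr)).trans (b1.idx c2 σG hs1).symm))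
  · exact (hs _).trans ((congrArg σ (ht x)).trans ((b.cm σG ιG x).trans
      ((congrArg ι (hs x)).symm.trans (ht _).symm)))
  · rintro w ⟨h, l, e⟩
    obtain ⟨w1, z1⟩ := x1 h l
    obtain ⟨w2, z2⟩ := x1 (ι * h) (mul_mem ιG l)
    have z3 : w1 * w2 ∈ Cu D jF v := mul_mem (Subgroup.subset_closure ⟨h, l, z1⟩)
      (Subgroup.subset_closure ⟨_, mul_mem ιG l, z2⟩)
    refine (congrArg (· ∈ Cu D jF v) (Units.ext (Subtype.ext (jF.injective ?_)) :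
      w1 * w2 = iU (Fx t) F w)).mp z3
    refine .trans ?_ ((ev h l).symm.trans e.symm)
    rw [← z1, z1, ← AlgEquiv.mul_apply, ← z2, ← z1, ← map_mul]
    rfl
  · induction h using Subgroup.closure_induction with
    | mem w e =>
      obtain ⟨h, l, e⟩ := e
      obtain ⟨w1, z1⟩ := y1 h l
      exact ⟨w1, Subgroup.subset_closure ⟨h, l, z1⟩, jF.injective (z1.trans ((ev h l).trans
        (by rw [← e, ← ht, ← map_mul])))⟩
    | one => exact ⟨1, one_mem _, by simp [vU]⟩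
    | mul x y _ _ e e' =>
      obtain ⟨x', h, e⟩ := e
      obtain ⟨y', h', e'⟩ := e'
      exact ⟨x' * y', mul_mem h h', by
        simp only [vU, Units.val_mul, RingOfIntegers.coe_eq_algebraMap, map_mul] at *
        rw [e, e', mul_mul_mul_comm]⟩
    | inv x _ e =>
      obtain ⟨x', h, e⟩ := e
      exact ⟨x'⁻¹, inv_mem h, by
        simp only [vU, RingOfIntegers.coe_eq_algebraMap, map_units_inv, map_inv₀] at *
        rw [e, mul_inv]⟩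
  · rw [mul_assoc, mul_left_comm _ (2 ^ q1), v2 hp p2 (mul_ne_zero (sm0 a1 _ _ _) (sm0 a1 _ _ _)),
      v2 hp p2 (mul_ne_zero (sm0 a1 _ _ _) (sm0 a1 _ _ _)), padicValNat.mul (sm0 a1 _ _ _) (sm0 a1 _ _ _),
      padicValNat.mul (sm0 a1 _ _ _) (sm0 a1 _ _ _)]
    omega

end Vale.Agent.P014X.Ac
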