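import Vale.Agent.P014X.Ac.St2
import Vale.Agent.P014X.Ac.Rnk
import Vale.Agent.P014X.Ac.Ix

/-! # P014X, the anchor: the roots of all units (row RKQ, helper19) -/

set_option autoImplicit false
set_option linter.all false

open Module AddSubgroup

noncomputable section

namespace Vale.Agent.P014X.Ac

namespace Rq

variable {M : Type} [AddCommGroup M] {q : ℕ}

/-- the index of the multiples in a finitely generated group -/
theorem idx [Module.Finite ℤ M] (q0 : q ≠ 0) :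
    (pw M q).index = q ^ finrank ℤ M * Nat.card (nsmulAddMonoidHom q : M →+ M).ker := by
  let T := Submodule.torsion ℤ M
  let f := T.mkQ.toAddMonoidHom
  have k : ∀ x, x ∈ f.ker ↔ x ∈ T := fun x => Submodule.Quotient.mk_eq_zero _
  have t : ∀ x, q • x ∈ f.ker → x ∈ f.ker := fun x h => by
    obtain ⟨a, e⟩ := (k _).1 h
    exact (k _).2 ⟨a * ⟨q, mem_nonZeroDivisors_of_ne_zero (Nat.cast_ne_zero.2 q0)⟩, by
      rw [mul_smul]; exact (congrArg _ (natCast_zsmul x q)).trans e⟩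
  have : Finite T := Module.finite_of_fg_torsion T Submodule.torsion_isTorsion
  have : Finite f.ker := .of_injective (fun x => (⟨x.1, (k _).1 x.2⟩ : T)) fun x y e =>
    Subtype.ext (congrArg (fun y : T => y.1) e)
  rw [← relIndex_top_right, ix f le_top, top_inf_eq, ← AddMonoidHom.range_eq_map,
    AddMonoidHom.range_eq_top.2 T.mkQ_surjective, relIndex_top_right,
    ← finrank_quotient_eq_of_le_torsion (M' := T) le_rfl, ← index_range_nsmul,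
    show pw M q ⊓ f.ker = f.ker.map (nsmulAddMonoidHom q) from le_antisymm
      (fun _ ⟨⟨x, e⟩, h⟩ => ⟨x, t x (e ▸ h :), e⟩)
      fun _ ⟨x, h, e⟩ => ⟨⟨x, e⟩, e ▸ nsmul_mem h q⟩,
    relIndex, addSubgroupOf_map_nsmulAddMonoidHom_eq_range, index_range]
  refine congrArg₂ _ (congrArg index (le_antisymm ?_ ?_)) (Nat.card_congr
    ⟨fun x => ⟨x.1, congrArg Subtype.val x.2⟩,
      fun x => ⟨⟨x, t x (by rw [show q • x.1 = 0 from x.2]; exact zero_mem _)⟩, Subtype.ext x.2⟩,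
      fun _ => rfl, fun _ => rfl⟩)
  · rintro _ ⟨_, ⟨x, rfl⟩, rfl⟩
    exact ⟨f x, (map_nsmul f q x).symm⟩
  · rintro _ ⟨x, rfl⟩
    obtain ⟨x, rfl⟩ := T.mkQ_surjective x
    exact ⟨_, ⟨x, rfl⟩, map_nsmul f q x⟩

theorem rel (A : AddSubgroup M) [Module.Finite ℤ A] (q0 : q ≠ 0) :
    (A.map (nsmulAddMonoidHom q)).relIndex A =
      q ^ finrank ℤ A * Nat.card ↥(A ⊓ (nsmulAddMonoidHom q : M →+ M).ker) := by
  rw [relIndex, addSubgroupOf_map_nsmulAddMonoidHom_eq_range]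
  exact (idx q0).trans (congrArg _ (Nat.card_congr ⟨fun x => ⟨x.1, x.1.2, congrArg Subtype.val x.2⟩,
    fun x => ⟨⟨x, x.2.1⟩, Subtype.ext x.2.2⟩, fun _ => rfl, fun _ => rfl⟩))

theorem fin_ext {M' : Type} [AddCommGroup M'] (A : AddSubgroup M) (φ : M →+ M')
    [Module.Finite ℤ (A.map φ)] [Module.Finite ℤ ↥(A ⊓ φ.ker)] : Module.Finite ℤ A :=
  Module.Finite.iff_fg.2 (Submodule.fg_of_fg_map_of_fg_inf_ker φ.toIntLinearMap
    (s := A.toIntSubmodule) (Module.Finite.iff_fg.1 ‹Module.Finite ℤ (A.map φ)›)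
    (Module.Finite.iff_fg.1 ‹Module.Finite ℤ ↥(A ⊓ φ.ker)›))

theorem cpr {a b : ℕ} (c : a.Coprime b) {A : AddSubgroup M} {x : M} (h : a • x ∈ A)
    (k : b • x ∈ A) : x ∈ A := by
  obtain ⟨u, v, e⟩ := Nat.isCoprime_iff_coprime.2 c
  rw [← one_zsmul x, ← e, add_zsmul, mul_zsmul, mul_zsmul, natCast_zsmul, natCast_zsmul]
  exact add_mem (zsmul_mem h u) (zsmul_mem k v)

end Rq

open Rq Rk

/-- **row RKQ** -/
theorem rkq : RKQ := fun M I Q _ _ _ Y q p e κ r o f h E => by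
  have q0 : q ≠ 0 := o.hq ▸ pow_ne_zero e o.pr.ne_zero
  have c : κ.Coprime q := o.hq ▸ ((o.pr.coprime_iff_not_dvd.2 o.cop).symm.pow_right e)
  have tf : ∀ (n : ℕ) (x : I), p ^ n • x = 0 → x = 0 := fun n => by
    induction n with
    | zero => exact fun x k => (one_nsmul x).symm.trans k
    | succ n i => exact fun x k => o.tf0 x (i _ (by rwa [← mul_nsmul', ← pow_succ]))
  have tq : ∀ x : I, q • x = 0 → x = 0 := o.hq ▸ tf e
  obtain ⟨A, hA⟩ : ∃ A, A = (Y.R0 q Y.X.U).map Y.n := ⟨_, rfl⟩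
  have nz : ∀ a ∈ A, Y.N a = 0 := by
    subst hA
    rintro _ ⟨ρ, k, rfl⟩
    rw [← o.nN, show Y.N ρ = 0 from k.2, map_zero]
  have nk : ∀ a ∈ A, Y.n a = κ • a := by
    subst hA
    rintro _ ⟨ρ, k, rfl⟩
    exact o.nn ρ
  have a1 : A.map (nsmulAddMonoidHom q) = (Y.X.U.map Y.m).map Y.j := by
    subst hA
    refine le_antisymm ?_ ?_
    · rintro _ ⟨_, ⟨ρ, ⟨⟨u, k, e⟩, -⟩, rfl⟩, rfl⟩
      exact ⟨_, ⟨u, k, rfl⟩, (o.jm u).symm.trans ((congrArg _ e).trans (map_nsmul _ _ _))⟩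
    · rintro _ ⟨_, ⟨u, k, rfl⟩, rfl⟩
      obtain ⟨ρ, a, b⟩ := o.rt u 0 (zero_mem _) (k.2.trans (nsmul_zero q).symm)
      exact ⟨_, ⟨ρ, ⟨⟨u, k, a.symm⟩, b.trans (map_zero _)⟩, rfl⟩,
        (map_nsmul _ _ _).symm.trans ((congrArg _ a).trans (o.jm u))⟩
  have a2 : A ⊓ (nsmulAddMonoidHom q).ker = (Y.R0 q ⊥).map Y.n := by
    refine le_antisymm (fun a k => ?_) ?_
    · have z : q • a = 0 := k.2
      refine cpr c ⟨a, ⟨⟨0, rfl, (map_zero _).trans z.symm⟩, nz a k.1⟩, nk a k.1⟩ ?_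
      rw [z]
      exact zero_mem _
    rintro _ ⟨ρ, ⟨⟨_, rfl, e⟩, k⟩, rfl⟩
    exact ⟨hA ▸ ⟨ρ, ⟨⟨0, zero_mem _, e⟩, k⟩, rfl⟩, (map_nsmul _ _ _).symm.trans
      ((congrArg _ (e.symm.trans (map_zero _))).trans (map_zero _))⟩
  have a3 : Y.j.range ⊓ A = A.map (nsmulAddMonoidHom q) := by
    refine le_antisymm ?_ (le_inf (a1 ▸ map_le_range _ _) fun _ ⟨a, k, e⟩ => e ▸ nsmul_mem k q)
    rintro _ ⟨⟨x, rfl⟩, k⟩
    refine cpr c ?_ ⟨_, k, rfl⟩
    obtain ⟨_, ⟨u, m, rfl⟩, e⟩ := a1.le ⟨_, k, rfl⟩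
    have e : Y.m u = q • x := o.inj (e.trans (map_nsmul _ _ _).symm)
    rw [a1, ← nk _ k, o.jm]
    refine ⟨_, ⟨x, ⟨tq _ ?_, o.inj ?_⟩, rfl⟩, rfl⟩
    · rw [← map_nsmul, ← e, o.dm, show Y.X.d u = 0 from m.1, map_zero]
    · rw [← o.jN, nz _ k, map_zero]
  have := fin_map (A := Y.X.U) Y.m
  have := fin_map (A := Y.X.U.map Y.m) Y.j
  have : Finite ((Y.R0 q ⊥).map Y.n) := Nat.finite_of_card_ne_zero E
  have : Module.Finite ℤ (A.map (nsmulAddMonoidHom q)) := a1 ▸ inferInstance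
  have : Module.Finite ℤ ↥(A ⊓ (nsmulAddMonoidHom q).ker) := a2 ▸ inferInstance
  have := fin_ext A (nsmulAddMonoidHom q)
  have b := nul (A := A) (nsmulAddMonoidHom q)
  rw [a1, ← (equivMapOfInjective _ Y.j o.inj).toIntLinearEquiv.finrank_eq] at b
  rw [Ro.ix, ← hA, ← inf_relIndex_right, a3, rel A q0, a2]
  exact Nat.mul_le_mul_right _ (Nat.pow_le_pow_right (Nat.pos_of_ne_zero q0) (by omega))

end Vale.Agent.P014X.Ac
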