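import Vale.Agent.P014X.Fm.Crk
import Vale.Agent.P014X.An.Smo
import Vale.Agent.P014X.Es.Raw2

/-! # P014X, the anchor: the smoothing factors -/

set_option autoImplicit false
set_option linter.all false

open Finset Polynomial
open scoped Classical

noncomputable section

namespace Vale.Agent.P014X.Ac.Smr

open Vale.Agent.P022 (Qb GQ)
open Vale.Agent.P014U
open An (sm)

section

variable {O : Type} [CommRing O] [IsDomain O]

/-- the characteristic polynomial of a character -/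
theorem chp {Γ : Type} [CommGroup Γ] [Fintype Γ] (ψ : Γ →* O) {o : ℕ}
    (h : ∀ m, (∀ γ, ψ γ ^ m = 1) ↔ o ∣ m) (T : O) :
    ∏ γ, (T - ψ γ) = (T ^ o - 1) ^ (Nat.card Γ / o) := by
  let f := ψ.toHomUnits
  obtain ⟨x, hx⟩ := IsCyclic.exists_monoid_generator (α := f.range)
  have p : IsPrimitiveRoot (x.1 : O) o := ⟨by
    obtain ⟨γ, e⟩ := x.2
    rw [← e]
    exact (h o).2 dvd_rfl γ, fun l e => (h l).1 fun γ => by
      obtain ⟨n, k⟩ := hx ⟨f γ, γ, rfl⟩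
      have k : (x.1 : O) ^ n = ψ γ := by simpa [f] using congrArg (fun y : f.range => (y.1 : O)) k
      rw [← k, pow_right_comm, e, one_pow]⟩
  have c : Nat.card f.range = o := by
    rw [← orderOf_eq_card_of_forall_mem_powers hx, p.eq_orderOf, ← Subgroup.orderOf_coe, orderOf_units]
  have o0 : 0 < o := c ▸ Nat.card_pos
  have k : Nat.card Γ / o = #{γ | f γ = 1} := by
    rw [← f.ker.card_mul_index, Subgroup.index_ker, c, Nat.mul_div_cancel _ o0, Nat.card_eq_fintype_card,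
      Fintype.card_subtype]
    simp only [MonoidHom.mem_ker]
  have := congrArg (eval T) (X_pow_sub_one_eq_prod o0 p)
  simp only [eval_sub, eval_pow, eval_X, eval_one, eval_prod, eval_C] at this
  rw [this, ← prod_pow, k, show ∏ γ, (T - ψ γ) = _ from prod_comp (fun u : Oˣ => T - u) f]
  refine prod_bij (fun u _ => (u : O)) (fun u m => ?_) (fun _ _ _ _ => Units.ext) (fun y m => ?_)
    fun u m => congrArg _ (MonoidHom.card_fiber_eq_of_mem_range f (by simpa using m) ⟨1, f.map_one⟩)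
  · obtain ⟨γ, -, rfl⟩ := mem_image.1 m
    exact (mem_nthRootsFinset o0 _).2 ((h o).2 dvd_rfl γ)
  · have : NeZero o := ⟨o0.ne'⟩
    obtain ⟨i, -, rfl⟩ := p.eq_pow_of_pow_eq_one ((mem_nthRootsFinset o0 _).1 m)
    obtain ⟨γ, e⟩ := (x ^ i).2
    exact ⟨_, mem_image_of_mem f (mem_univ γ), by rw [e]; simp⟩

theorem chp2 {Γ : Type} [CommGroup Γ] [Fintype Γ] (c : Γ →* O) {n o : ℕ} (j : ℕ) {η : O} (n0 : n ≠ 0)
    (p : IsPrimitiveRoot η n) (h : ∀ m, ((∀ γ, c γ ^ m = 1) ∧ (η ^ j) ^ m = 1) ↔ o ∣ m) (T : O) :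
    ∏ γ, ∏ x ∈ nthRootsFinset n (1 : O), (T - c γ * x ^ j) =
      (T ^ o - 1) ^ (Nat.card Γ * n / o) := by
  have : NeZero n := ⟨n0⟩
  let _ := Fintype.ofFinite (rootsOfUnity n O)
  let v : rootsOfUnity n O →* O := (Units.coeHom O).comp (Subgroup.subtype _)
  have hv : ∀ x, v x ^ n = 1 := fun x => (mem_rootsOfUnity' _ _).1 x.2
  have := chp (c.coprod ((powMonoidHom j).comp v)) (o := o) (fun m => .trans ⟨fun e =>
    ⟨fun γ => by simpa using e (γ, 1), by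
      simpa [v] using e (1, rootsOfUnity.mkOfPowEq η p.pow_eq_one)⟩, fun e γ => by
      obtain ⟨i, -, b⟩ := p.eq_pow_of_pow_eq_one (hv γ.2)
      simp only [MonoidHom.coprod_apply, MonoidHom.comp_apply, powMonoidHom_apply, mul_pow, e.1, ← b]
      rw [pow_right_comm η, pow_right_comm _ i, e.2, one_pow, one_mul]⟩ (h m)) T
  rw [Nat.card_prod, p.card_rootsOfUnity, Fintype.prod_prod_type] at this
  rw [← this]
  refine prod_congr rfl fun γ _ => (prod_bij (fun x _ => v x)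
    (fun x _ => (mem_nthRootsFinset (NeZero.pos n) _).2 (hv x))
    (fun _ _ _ _ e => Subtype.ext (Units.ext e)) (fun y m => ⟨rootsOfUnity.mkOfPowEq y
      ((mem_nthRootsFinset (NeZero.pos n) _).1 m), mem_univ _, rfl⟩) fun _ _ => rfl).symm

end

variable [Pp] {k : ℕ} {C : Cr k}

theorem cq_prim {x : C.O} (h : IsPrimitiveRoot x (pp ^ (k + 1))) : C.cq (x - 1) = pp := by
  have : NeZero (pp ^ (k + 1)) := ⟨(pow_pos pp_pos _).ne'⟩
  obtain ⟨i, -, c, rfl⟩ := C.prim.isPrimitiveRoot_iff.1 h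
  rw [← C.cq_ass (C.prim.associated_sub_one_pow_sub_one_of_coprime c), ← pow_one (_ - 1), C.cq_w,
    pow_one]

theorem cq_nat {n : ℕ} (h : n ≠ 0) : C.cq n = (pp ^ padicValNat pp n) ^ C.pb.dim := by
  rw [← map_natCast (algebraMap ℤ_[pp] C.O), C.cq_alg (Nat.cast_ne_zero.2 h), pow_mul]
  simp [PadicInt.valuation]

/-- the conjugates -/
theorem ex_tau {x : C.O} (h : IsPrimitiveRoot x (pp ^ (k + 1))) :
    ∃ τ : C.O →+* C.O, τ C.pb.gen = x ∧ (∀ y, C.cq (τ y) = C.cq y) ∧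
      ∀ (y : C.O) (n : ℕ), ¬ pp ∣ n → y ^ n = 1 → τ y = y := by
  let τ := C.pb.lift x (by
    rw [C.min, ← eval_map_algebraMap, map_cyclotomic]
    exact h.isRoot_cyclotomic (pow_pos pp_pos _))
  have e : τ C.pb.gen = x := C.pb.lift_gen _ _
  have x0 := h.sub_one_ne_zero (Nat.one_lt_pow k.succ_ne_zero one_lt)
  refine ⟨τ, e, fun y => ?_, fun y n hn hy => ?_⟩
  · by_cases y0 : y = 0
    · rw [y0, map_zero]
    obtain ⟨n, u⟩ := C.ex_w y0
    rw [← C.cq_ass u, RingHom.coe_coe, ← C.cq_ass (u.map τ), map_pow, map_sub, map_one, e, C.cq_w,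
      C.cq_pow x0, cq_prim h]
  have r : ∀ y, C.π (τ y) = C.π y := fun y => by
    obtain ⟨z, b⟩ := (C.π_zero (y - ((C.π y).val : ℕ))).1 (by simp)
    rw [sub_eq_iff_eq_add.1 b]
    simp only [map_add, map_mul, map_natCast, (C.π_zero _).2 dvd_rfl, zero_mul]
    rw [map_sub, map_one, e, (C.π_zero _).2 ((C.nu_iff _).1 fun u =>
      pp_prime.ne_one ((cq_prim h).symm.trans (C.cq_one.2 u))), zero_mul]
  have u : IsUnit (∑ i ∈ range n, τ y ^ i * y ^ (n - 1 - i)) := (C.unit_iff _).2 (by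
    have y0 : C.π y ≠ 0 := ((IsUnit.of_pow_eq_one hy fun e => hn (e ▸ dvd_zero _)).map C.π).ne_zero
    simp only [map_sum, map_mul, map_pow, r]
    rw [geom_sum₂_self]
    exact mul_ne_zero (by rwa [Ne, ZMod.natCast_eq_zero_iff]) (pow_ne_zero _ y0))
  have := geom_sum₂_mul (τ y) y n
  rw [← map_pow, hy, map_one, sub_self] at this
  exact sub_eq_zero.1 ((mul_eq_zero.1 this).resolve_left u.ne_zero)

theorem split (F : C.O → C.O) : ∏ x ∈ nthRootsFinset (pp ^ (k + 1)) (1 : C.O), F x =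
    (∏ x ∈ nthRootsFinset (pp ^ k) (1 : C.O), F x) *
      ∏ x ∈ primitiveRoots (pp ^ (k + 1)) C.O, F x := by
  rw [← prod_filter_mul_prod_filter_not _ fun x => x ^ pp ^ k = 1]
  congr 2 <;> ext x <;> simp only [mem_filter, mem_nthRootsFinset (pow_pos pp_pos _),
    mem_primitiveRoots (pow_pos pp_pos _)]
  · exact and_iff_right_of_imp fun e => by rw [pow_succ, pow_mul, e, one_pow]
  · exact ⟨fun e => IsPrimitiveRoot.iff_orderOf.2 (orderOf_eq_prime_pow e.2 e.1), fun e =>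
      ⟨e.pow_eq_one, e.pow_ne_one_of_pos_of_lt (pow_pos pp_pos _).ne'
        (Nat.pow_lt_pow_right one_lt k.lt_succ_self)⟩⟩

theorem core {Γ : Type} [CommGroup Γ] [Fintype Γ] (hΓ : ¬ pp ∣ Nat.card Γ) (c : Γ →* C.O)
    {j o o' T : ℕ} (T1 : 1 < T) (o0 : o ≠ 0) (o1 : o' ≠ 0)
    (h : ∀ m, ((∀ γ, c γ ^ m = 1) ∧ (C.pb.gen ^ j) ^ m = 1) ↔ o ∣ m)
    (h' : ∀ m, ((∀ γ, c γ ^ m = 1) ∧ ((C.pb.gen ^ pp) ^ j) ^ m = 1) ↔ o' ∣ m) :
    (∀ γ, (T : C.O) - c γ * C.pb.gen ^ j ≠ 0) ∧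
    pp ^ padicValNat pp ((T ^ o - 1) ^ (Nat.card Γ * pp ^ (k + 1) / o)) =
      pp ^ padicValNat pp ((T ^ o' - 1) ^ (Nat.card Γ * pp ^ k / o')) *
        ∏ γ, C.cq (T - c γ * C.pb.gen ^ j) := by
  have e := chp2 c j (pow_pos pp_pos _).ne' C.prim h T
  have e' := chp2 c j (pow_pos pp_pos _).ne' (C.prim.pow (pow_pos pp_pos _) (pow_succ' pp k)) h' T
  have n : ∀ {o : ℕ} (a : ℕ), o ≠ 0 → (T ^ o - 1) ^ a ≠ 0 ∧
      ((T : C.O) ^ o - 1) ^ a = ((T ^ o - 1) ^ a : ℕ) := fun a b =>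
    ⟨pow_ne_zero _ (Nat.sub_ne_zero_of_lt (Nat.one_lt_pow b T1)), by
      push_cast [Nat.cast_sub (Nat.one_lt_pow b T1).le]; rfl⟩
  simp only [split, prod_mul_distrib, e', (n _ o0).2, (n _ o1).2] at e
  have z := prod_ne_zero_iff.1 (right_ne_zero_of_mul (e ▸ Nat.cast_ne_zero.2 (n _ o0).1))
  have z' := fun γ => prod_ne_zero_iff.1 (z γ (mem_univ _))
  refine ⟨fun γ => z' γ _ ((mem_primitiveRoots (pow_pos pp_pos _)).2 C.prim),
    Nat.pow_left_injective C.dim_pos.ne' ?_⟩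
  simp only [mul_pow, ← cq_nat (n _ o0).1, ← cq_nat (n _ o1).1, ← e, ← prod_pow]
  rw [C.cq_mul (Nat.cast_ne_zero.2 (n _ o1).1) (prod_ne_zero_iff.2 z), C.cq_prod _ _ z]
  refine congrArg _ (prod_congr rfl fun γ _ => ?_)
  rw [C.cq_prod _ _ (z' γ), C.dim, ← Nat.totient_prime_pow_succ pp_prime, ← C.prim.card_primitiveRoots,
    ← prod_const]
  refine prod_congr rfl fun x b => ?_
  obtain ⟨τ, t1, t2, t3⟩ := ex_tau (isPrimitiveRoot_of_mem_primitiveRoots b)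
  rw [← t2 (T - c γ * C.pb.gen ^ j), map_sub, map_mul, map_pow, t1, map_natCast,
    t3 _ _ hΓ (by rw [← map_pow, pow_card_eq_one', map_one])]

section

variable {G B : Type} [Group G] [CommMonoid B] {K : Finset (G →* B)}

omit [Pp]

/-- a finite set of characters as a group -/
def kg (h1 : 1 ∈ K) (hm : ∀ f ∈ K, ∀ f' ∈ K, f * f' ∈ K) : Subgroup (G →* Bˣ) :=
  let S : Submonoid (G →* Bˣ) := Submonoid.comap (MonoidHom.compHom (Units.coeHom B))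
    ⟨⟨K, fun a b => hm _ a _ b⟩, h1⟩
  { S with
    inv_mem' := fun {φ} h => Submonoid.powers_le.2 h <| by
      refine (IsOfFinOrder.mem_powers_iff_mem_zpowers (finite_powers.1 (Set.Finite.subset ?_
        (Submonoid.powers_le.2 h)))).2 (inv_mem (Subgroup.mem_zpowers φ))
      exact K.finite_toSet.preimage (f := MonoidHom.compHom (Units.coeHom B)) fun _ _ _ _ e => MonoidHom.ext fun g =>
        Units.ext (DFunLike.congr_fun (F := G →* B) e g) }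

/-- the same set -/
def ke (h1 : 1 ∈ K) (hm : ∀ f ∈ K, ∀ f' ∈ K, f * f' ∈ K) : K ≃ kg h1 hm where
  toFun f := ⟨f.1.toHomUnits, f.2⟩
  invFun φ := ⟨_, φ.2⟩
  left_inv _ := rfl
  right_inv _ := Subtype.ext (MonoidHom.ext fun _ => Units.ext rfl)

end

variable {A B a b : ℤ} {D : Cd A B} {M s : ℕ} {g : D.G}

omit [Pp] in
theorem hm_of (cf : D.Cf) {m ζ ζ' β : D.O} {g g' : GQ} (m0 : m ≠ 0) (z : IsUnit ζ) (z' : IsUnit ζ')
    (h : D.Ac m g (ζ * β)) (h' : D.Ac m g' (ζ' * β)) : g⁻¹ * g' ∈ D.Hm m := by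
  obtain ⟨u, e⟩ := z.exists_left_inv
  refine (cf.hm _ m0 _).2 ⟨ζ' * u, z'.mul (.of_mul_eq_one _ e), mul_mem (inv_mem h.1) h'.1, ?_⟩
  rw [P004M.TE.ga_mul, h'.2, show ζ' * β = ζ' * u * (ζ * β) by linear_combination -ζ' * β * e, ← Ev.am,
    cf.lin _ (inv_mem h.1), ← h.2, ← P004M.TE.ga_mul, inv_mul_cancel, P004M.TE.ga_one]

theorem mp_ne (M0 : M ≠ 0) (n : ℕ) : D.mp M n ≠ 0 := fun e =>
  mul_ne_zero M0 (pow_pos pp_pos n).ne' (by exact_mod_cast congrArg QuadraticAlgebra.re e)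

/-- the values at the Artin symbol of a rational number are real -/
theorem im0 (cf : D.Cf) (M0 : M ≠ 0) (ga : D.Ga M s g) {R : Type} [CommRing R] (u : IsUnit (2 : R))
    {χ : D.G →* Qa a b R} {n : ℕ} (t : D.Tr (D.mp M n) χ) (c : D.Cj χ) : (χ g⁻¹).im = 0 := by
  obtain ⟨ζ, z, h⟩ := ga.ac n
  have m0 := mp_ne (D := D) M0 n
  have c0 : D.c ∉ D.G := (cf.cG _).2 (cf.c2 ▸ one_mem _)
  have k : D.Ac (D.mp M n) (D.cg g) (star (D.η * ζ) * D.η * s) := ⟨(D.cg g).2, by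
    rw [Zs.cg_val cf, P004M.TE.ga_mul, P004M.TE.ga_mul, cf.ctp _ m0, cf.lin _ g.2, star_natCast, h.2,
      Ev.am, cf.sem _ c0, cf.ctp _ m0, Ev.am, star_natCast, ← mul_assoc, star_mul' _ (s : D.O),
      star_natCast, mul_right_comm]⟩
  have e := t ((D.cg g)⁻¹ * g) (hm_of cf m0 ((cf.eu.mul z).star.mul cf.eu) z k h)
  rw [← Zs.cg_inv cf, map_mul, c] at e
  have e' : star (χ g⁻¹) = χ g⁻¹ := by
    rw [← mul_one (star _), ← map_one χ, ← mul_inv_cancel g, map_mul, ← mul_assoc, e, one_mul]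
  have := congrArg QuadraticAlgebra.im e'
  rw [QuadraticAlgebra.im_star] at this
  exact u.mul_right_eq_zero.1 (by linear_combination -this)

variable (x : D.An C a b M)

/-- **the smoothing factors** -/
theorem smr (cf : D.Cf) (M0 : M ≠ 0) (ga : D.Ga M s g) {K : Finset (D.G →* Qa a b C.O)}
    (hK : K ⊆ x.I) (h1 : 1 ∈ K) (hm : ∀ f ∈ K, ∀ f' ∈ K, f * f' ∈ K) (hp : ¬ pp ∣ K.card)
    {H H' : Subgroup GQ} (h : ∀ y : D.G, y.1 ∈ H ↔ (∀ f ∈ K, f y = 1) ∧ x.ξ₁ y = 1)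
    (h' : ∀ y : D.G, y.1 ∈ H' ↔ (∀ f ∈ K, f y = 1) ∧ x.ξ₁ y ^ pp = 1)
    (i : H.relIndex D.G = K.card * pp ^ (k + 1)) (i' : H'.relIndex D.G = K.card * pp ^ k) :
    (∀ f ∈ K, sf s (f * x.ξ) g ≠ 0) ∧ pp ^ padicValNat pp (sm s H D.G g) =
      pp ^ padicValNat pp (sm s H' D.G g) * ∏ f ∈ K, C.cq (sf s (f * x.ξ) g) := by
  let e := ke h1 hm
  let _ := Fintype.ofEquiv _ e
  have ce : Nat.card (kg h1 hm) = K.card := by rw [← Nat.card_congr e, Nat.card_eq_fintype_card, Fintype.card_coe]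
  have r : ∀ φ : kg h1 hm, (φ.1 g⁻¹ : Qa a b C.O) = algebraMap _ _ (φ.1 g⁻¹ : Qa a b C.O).re :=
    fun φ => QuadraticAlgebra.ext rfl (im0 cf M0 ga C.unit_two (x.tr _ (hK φ.2)) (x.cj _ (hK φ.2)))
  have inj := FaithfulSMul.algebraMap_injective C.O (Qa a b C.O)
  let c : kg h1 hm →* C.O := ⟨⟨fun φ => (φ.1 g⁻¹ : Qa a b C.O).re, rfl⟩, fun φ ψ => inj (by
    rw [map_mul, ← r, ← r, ← r]; rfl)⟩
  obtain ⟨j, hj⟩ := x.rg g⁻¹
  have fa : ∀ y, (∀ f ∈ K, f y = 1) ↔ ∀ φ : kg h1 hm, (φ.1 y : Qa a b C.O) = 1 := fun y =>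
    ⟨fun k φ => k _ φ.2, fun k f m => k (e ⟨f, m⟩)⟩
  have hc : ∀ m, (∀ φ, c φ ^ m = 1) ↔ ∀ f ∈ K, f (g⁻¹ ^ m) = 1 := fun m => by
    rw [fa]
    refine forall_congr' fun φ => inj.eq_iff.symm.trans ?_
    rw [map_pow, map_pow, map_one, Units.val_pow_eq_pow_val, show algebraMap _ _ (c φ) = _ from (r φ).symm]
  have o : ∀ {H : Subgroup GQ} {n : ℕ}, (∀ y : D.G, y.1 ∈ H ↔ (∀ f ∈ K, f y = 1) ∧ x.ξ₁ y ^ n = 1) →
      H.relIndex D.G ≠ 0 → H.relIndex (Subgroup.zpowers g.1) ≠ 0 ∧ ∀ m, ((∀ φ, c φ ^ m = 1) ∧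
        ((C.pb.gen ^ n) ^ j) ^ m = 1) ↔ H.relIndex (Subgroup.zpowers g.1) ∣ m := fun {H n} h i => by
    refine ⟨fun z => i (Subgroup.relIndex_eq_zero_of_le_right (Subgroup.zpowers_le.2 g.2) z), fun m => ?_⟩
    let π : D.G →* (kg h1 hm → (Qa a b C.O)ˣ) × C.Oˣ :=
      (MonoidHom.pi fun φ => φ.1).prod ((powMonoidHom n).comp x.ξ₁.toHomUnits)
    have k : ∀ y, π y = 1 ↔ y.1 ∈ H := fun y => by
      rw [h, Prod.ext_iff, funext_iff, fa]
      exact and_congr (forall_congr' fun _ => Units.ext_iff) Units.ext_iff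
    rw [An.Smo.ord k, ← orderOf_inv, orderOf_dvd_iff_pow_eq_one, ← map_inv, ← map_pow, k, h, hc,
      map_pow, hj, pow_right_comm _ n, pow_right_comm _ n]
  have K0 : K.card ≠ 0 := card_ne_zero_of_mem h1
  obtain ⟨o0, o1⟩ := o (n := 1) (by simpa only [pow_one] using h)
    (i ▸ mul_ne_zero K0 (pow_pos pp_pos _).ne')
  obtain ⟨o2, o3⟩ := o h' (i' ▸ mul_ne_zero K0 (pow_pos pp_pos _).ne')
  have l0 : x.lam ≠ 0 := fun z => x.lu.ne_zero (by simp [z])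
  have ξ : x.ξ g⁻¹ = algebraMap _ _ (C.pb.gen ^ j) := by
    have y : x.ξ g⁻¹ = algebraMap _ _ (x.ξ g⁻¹).re :=
      QuadraticAlgebra.ext rfl (im0 cf M0 ga C.unit_two x.tx x.cx)
    have := x.lx g⁻¹
    rw [y, mul_comm, ← Algebra.smul_def, hj] at this
    rw [y, smul_left_injective _ l0 this]
  have v : ∀ f : K, sf s (f.1 * x.ξ) g = (s ^ 2 : ℕ) - c (e f) * C.pb.gen ^ j := fun f => by
    rw [sf, MonoidHom.mul_apply, ξ, show f.1 g⁻¹ = _ from r (e f), ← map_mul, ← map_natCast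
      (algebraMap C.O _), ← map_pow, ← map_sub, Nat.cast_pow]
    rfl
  obtain ⟨z, w⟩ := core (ce ▸ hp) c (Nat.one_lt_pow two_ne_zero ga.lt) o0 o2
    (by simpa only [pow_one] using o1) o3
  refine ⟨fun f m => v ⟨f, m⟩ ▸ z _, ?_⟩
  rw [sm, sm, i, i', pow_mul, pow_mul, ← ce, w, ← prod_coe_sort K, ← e.prod_comp]
  simp only [v]

/-- the kernel of a power of `ξ₁` -/
theorem idx1 {n n' : ℕ} (e : pp ^ (k + 1) = n * n') :
    ((powMonoidHom n).comp x.ξ₁.toHomUnits).ker.index = n' := by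
  have p := C.prim.pow (pow_pos pp_pos _) e
  have : NeZero n' := ⟨right_ne_zero_of_mul (e ▸ (pow_pos pp_pos _).ne')⟩
  obtain ⟨y, hy⟩ := x.on
  rw [Subgroup.index_ker, ← p.card_rootsOfUnity, ← IsPrimitiveRoot.zpowers_eq
    (ζ := x.ξ₁.toHomUnits y ^ n) (IsPrimitiveRoot.coe_units_iff.1 (by simpa [hy] using p))]
  congr 2
  refine le_antisymm ?_ (Subgroup.zpowers_le.2 ⟨y, rfl⟩)
  rintro _ ⟨z, rfl⟩
  obtain ⟨j, hj⟩ := x.rg z
  exact ⟨j, Units.ext (by simp [hy, hj, pow_right_comm])⟩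

theorem idx {K : Finset (D.G →* Qa a b C.O)} (c : K.card = (⨅ f ∈ K, f.ker).index)
    (hp : ¬ pp ∣ K.card) {n n' : ℕ} (e : pp ^ (k + 1) = n * n') {H : Subgroup GQ}
    (h : ∀ y : D.G, y.1 ∈ H ↔ (∀ f ∈ K, f y = 1) ∧ x.ξ₁ y ^ n = 1) :
    H.relIndex D.G = K.card * n' := by
  have q : H.subgroupOf D.G = (⨅ f ∈ K, f.ker) ⊓ ((powMonoidHom n).comp x.ξ₁.toHomUnits).ker :=
    Subgroup.ext fun y => (h y).trans (by simp [Subgroup.mem_iInf, Units.ext_iff])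
  have n0 : n' ≠ 0 := right_ne_zero_of_mul (e ▸ (pow_pos pp_pos _).ne')
  have cp : K.card.Coprime n' := .coprime_dvd_right (Dvd.intro_left _ e.symm)
    ((pp_prime.coprime_iff_not_dvd.2 hp).symm.pow_right _)
  rw [Subgroup.relIndex, q]
  refine le_antisymm (Subgroup.index_inf_le.trans_eq (by rw [← c, idx1 x e])) (Nat.le_of_dvd
    (Nat.pos_of_ne_zero (Subgroup.index_inf_ne_zero (c ▸ fun z => hp (z ▸ dvd_zero _))
      ((idx1 x e).symm ▸ n0))) (cp.mul_dvd_of_dvd_of_dvd (c ▸ Subgroup.index_dvd_of_le inf_le_left)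
      (idx1 x e ▸ Subgroup.index_dvd_of_le inf_le_right)))

theorem pw_card {f : D.G →* Qa a b C.O} (h : f ∈ x.I) (y : D.G) : f y ^ x.I.card = 1 := by
  let e := ke x.one x.mul
  have : (e ⟨f, h⟩) ^ x.I.card = 1 := by
    rw [← Fintype.card_coe, ← Nat.card_eq_fintype_card, Nat.card_congr e, pow_card_eq_one']
  simpa [e, ke] using congrArg (fun φ : kg x.one x.mul => (φ.1 y : Qa a b C.O)) this

/-- a generator of the cyclic layer -/
theorem ex_gen : ∃ γ : D.G, (∀ f ∈ x.I, f γ = 1) ∧ x.ξ₁ γ = C.pb.gen := by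
  obtain ⟨y, hy⟩ := x.on
  obtain ⟨i, e⟩ := exists_pow_eq_self_of_coprime (x := C.pb.gen) (n := x.I.card)
    (C.prim.eq_orderOf ▸ (pp_prime.coprime_iff_not_dvd.2 x.cop).symm.pow_right _)
  exact ⟨(y ^ x.I.card) ^ i, fun f h => by rw [map_pow, map_pow, pw_card x h, one_pow],
    by rw [map_pow, map_pow, hy, e]⟩

/-- the subfield of index `pp` -/
theorem mem_up {K : Finset (D.G →* Qa a b C.O)} {σ : D.G} (s1 : ∀ f ∈ K, f σ = 1)
    (s2 : x.ξ₁ σ = C.pb.gen ^ pp ^ k) (y : D.G) :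
    (∃ i : ℕ, (∀ f ∈ K, f ((σ ^ i)⁻¹ * y) = 1) ∧ x.ξ₁ ((σ ^ i)⁻¹ * y) = 1) ↔
      (∀ f ∈ K, f y = 1) ∧ x.ξ₁ y ^ pp = 1 := by
  have p := C.prim.pow (pow_pos pp_pos _) (pow_succ pp k)
  have q : ∀ {R : Type} [CommRing R] (f : D.G →* R) (i : ℕ), f ((σ ^ i)⁻¹ * y) = 1 ↔ f y = f σ ^ i :=
    fun f i => ⟨fun e => by rw [← mul_inv_cancel_left (σ ^ i) y, map_mul, e, mul_one, map_pow],
      fun e => by rw [map_mul, e, ← map_pow, ← map_mul, inv_mul_cancel, map_one]⟩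
  simp only [q, s2]
  refine ⟨fun ⟨i, u, v⟩ => ⟨fun f m => by rw [u f m, s1 f m, one_pow],
    by rw [v, pow_right_comm, p.pow_eq_one, one_pow]⟩, fun ⟨u, v⟩ => ?_⟩
  have : NeZero pp := ⟨pp_ne⟩
  obtain ⟨i, -, e⟩ := p.eq_pow_of_pow_eq_one v
  exact ⟨i, fun f m => by rw [u f m, s1 f m, one_pow], e.symm⟩

/-- the even characters -/
abbrev Ev (ι : D.G) : Finset (D.G →* Qa a b C.O) := x.I.filter (· ι = 1)

section

variable {x} {ι : D.G} (hJ : ∀ f, f ∈ x.J ↔ f ∈ x.I ∧ f ι = -1) (pm : ∀ f ∈ x.I, f ι = 1 ∨ f ι = -1)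
  (ne : x.J.Nonempty)

theorem ne1 : (-1 : Qa a b C.O) ≠ 1 := fun e => two_ne_zero (α := C.O) (by
  have := congrArg QuadraticAlgebra.re e
  simp only [QuadraticAlgebra.re_neg, QuadraticAlgebra.re_one] at this
  linear_combination -this)

theorem ev_one : 1 ∈ Ev x ι := mem_filter.2 ⟨x.one, rfl⟩

theorem ev_mul : ∀ f ∈ Ev x ι, ∀ f' ∈ Ev x ι, f * f' ∈ Ev x ι := fun f h f' h' =>
  mem_filter.2 ⟨x.mul _ (mem_filter.1 h).1 _ (mem_filter.1 h').1, by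
    rw [MonoidHom.mul_apply, (mem_filter.1 h).2, (mem_filter.1 h').2, one_mul]⟩

include hJ pm

theorem ev_union : x.I = Ev x ι ∪ x.J ∧ Disjoint (Ev x ι) x.J :=
  ⟨Finset.ext fun f => by
    rw [mem_union, mem_filter, hJ, ← and_or_left]
    exact (and_iff_left_of_imp (pm f)).symm, disjoint_left.2 fun f h h' =>
      ne1 (((hJ f).1 h').2.symm.trans (mem_filter.1 h).2)⟩

include ne

omit pm in
theorem ev_card : x.J.card = (Ev x ι).card := by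
  obtain ⟨f, h⟩ := ne
  obtain ⟨h, e⟩ := (hJ f).1 h
  have i : Function.Injective (f * ·) := fun u v l => MonoidHom.ext fun y =>
    ((Group.isUnit y).map f).mul_left_cancel (DFunLike.congr_fun l y)
  refine le_antisymm (card_le_card_of_injOn (f * ·) (fun u m => ?_) i.injOn)
    (card_le_card_of_injOn (f * ·) (fun u m => ?_) i.injOn)
  · obtain ⟨m, l⟩ := (hJ u).1 m
    exact mem_filter.2 ⟨x.mul _ h _ m, by rw [MonoidHom.mul_apply, e, l]; ring⟩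
  · obtain ⟨m, l⟩ := mem_filter.1 m
    exact (hJ _).2 ⟨x.mul _ h _ m, by rw [MonoidHom.mul_apply, e, l]; ring⟩

theorem card_two : x.I.card = 2 * (Ev x ι).card := by
  obtain ⟨u, v⟩ := ev_union hJ pm
  rw [congrArg card u, card_union_of_disjoint v, ev_card hJ ne, two_mul]

theorem ev_cop : ¬ pp ∣ (Ev x ι).card := fun d => x.cop (card_two hJ pm ne ▸ d.mul_left 2)

theorem ev_ker (y : D.G) :
    (∀ f ∈ Ev x ι, f y = 1) ↔ (∀ f ∈ x.I, f y = 1) ∨ ∀ f ∈ x.I, f (ι⁻¹ * y) = 1 := by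
  have q : ∀ f : D.G →* Qa a b C.O, f (ι⁻¹ * y) = 1 ↔ f y = f ι :=
    fun f => ⟨fun e => by rw [← mul_inv_cancel_left ι y, map_mul, e, mul_one],
      fun e => by rw [map_mul, e, ← map_mul, inv_mul_cancel, map_one]⟩
  simp only [q]
  refine ⟨fun h => or_iff_not_imp_left.2 fun n f m => ?_, fun h f m => h.elim
    (fun h => h f (mem_filter.1 m).1) fun h => (h f (mem_filter.1 m).1).trans (mem_filter.1 m).2⟩
  obtain l | l := pm f m
  · rw [l, h f (mem_filter.2 ⟨m, l⟩)]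
  obtain ⟨u, v⟩ := ev_union hJ pm
  have z := congrArg (f y * ·) (x.ort y (by simpa using n))
  simp only [u, sum_union v, mul_add] at z
  rw [sum_congr rfl h, mul_sum x.J, sum_congr (s₁ := x.J) (f := fun i => f y * i y) rfl fun f' m' => h (f * f') (mem_filter.2
    ⟨x.mul _ m _ ((hJ _).1 m').1, by rw [MonoidHom.mul_apply, l, ((hJ _).1 m').2]; ring⟩), sum_const,
    sum_const, ev_card hJ ne, nsmul_one, mul_zero] at z
  have w := (C.unit_nat.2 (ev_cop hJ pm ne)).map (algebraMap C.O (Qa a b C.O))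
  rw [map_natCast] at w
  rw [l, ← add_eq_zero_iff_eq_neg]
  exact w.mul_left_eq_zero.1 (by linear_combination z)

theorem ev_crd : (Ev x ι).card = (⨅ f ∈ Ev x ι, f.ker).index := by
  have l : (⨅ f ∈ x.I, f.ker) ≤ ⨅ f ∈ Ev x ι, f.ker := biInf_mono fun _ => mem_of_mem_filter _
  have := Subgroup.relIndex_mul_index l
  rw [← x.crd, card_two hJ pm ne, Subgroup.relIndex_eq_two_iff_exists_notMem_and'.2 ⟨ι⁻¹, ?_, ?_,
    fun y m => ?_⟩] at this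
  · omega
  · exact inv_mem (by simp [Subgroup.mem_iInf])
  · obtain ⟨f, h⟩ := ne
    exact fun m => ne1 (((hJ f).1 h).2.symm.trans
      (Subgroup.mem_iInf.1 (Subgroup.mem_iInf.1 (inv_mem_iff.1 m) f) ((hJ f).1 h).1))
  · simp only [Subgroup.mem_iInf, MonoidHom.mem_ker] at m ⊢
    exact ((ev_ker hJ pm ne y).1 m).symm

end

/-- all characters -/
theorem smrI (cf : D.Cf) (M0 : M ≠ 0) (ga : D.Ga M s g) {H H' : Subgroup GQ}
    (h : ∀ y : D.G, y.1 ∈ H ↔ (∀ f ∈ x.I, f y = 1) ∧ x.ξ₁ y = 1)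
    (h' : ∀ y : D.G, y.1 ∈ H' ↔ (∀ f ∈ x.I, f y = 1) ∧ x.ξ₁ y ^ pp = 1) :
    (∀ f ∈ x.I, sf s (f * x.ξ) g ≠ 0) ∧ pp ^ padicValNat pp (sm s H D.G g) =
      pp ^ padicValNat pp (sm s H' D.G g) * ∏ f ∈ x.I, C.cq (sf s (f * x.ξ) g) :=
  smr x cf M0 ga Subset.rfl x.one x.mul x.cop h h'
    (idx x x.crd x.cop (one_mul _).symm (by simpa only [pow_one] using h))
    (idx x x.crd x.cop (pow_succ' pp k) h')

/-- the odd characters -/
theorem smrJ (cf : D.Cf) (M0 : M ≠ 0) (ga : D.Ga M s g) {ι : D.G}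
    (hJ : ∀ f, f ∈ x.J ↔ f ∈ x.I ∧ f ι = -1) (pm : ∀ f ∈ x.I, f ι = 1 ∨ f ι = -1) (ne : x.J.Nonempty)
    {H H' H₁ H₁' : Subgroup GQ} (h : ∀ y : D.G, y.1 ∈ H ↔ (∀ f ∈ x.I, f y = 1) ∧ x.ξ₁ y = 1)
    (h' : ∀ y : D.G, y.1 ∈ H' ↔ (∀ f ∈ x.I, f y = 1) ∧ x.ξ₁ y ^ pp = 1)
    (h₁ : ∀ y : D.G, y.1 ∈ H₁ ↔ (∀ f ∈ Ev x ι, f y = 1) ∧ x.ξ₁ y = 1)
    (h₁' : ∀ y : D.G, y.1 ∈ H₁' ↔ (∀ f ∈ Ev x ι, f y = 1) ∧ x.ξ₁ y ^ pp = 1) :
    pp ^ padicValNat pp (sm s H D.G g * sm s H₁' D.G g) =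
      pp ^ padicValNat pp (sm s H' D.G g * sm s H₁ D.G g) * ∏ f ∈ x.J, C.cq (sf s (f * x.ξ) g) := by
  have c := ev_crd hJ pm ne
  have d := ev_cop hJ pm ne
  obtain ⟨-, e⟩ := smr x cf M0 ga (filter_subset _ _) ev_one ev_mul d h₁ h₁'
    (idx x c d (one_mul _).symm (by simpa only [pow_one] using h₁)) (idx x c d (pow_succ' pp k) h₁')
  obtain ⟨u, v⟩ := ev_union hJ pm
  have n : ∀ H, sm s H D.G g ≠ 0 := fun H => by
    by_cases e : H.relIndex (Subgroup.zpowers g.1) = 0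
    · simp [sm, e]
    · exact pow_ne_zero _ (Nat.sub_ne_zero_of_lt (Nat.one_lt_pow (by omega) ga.lt))
  rw [padicValNat.mul (n _) (n _), padicValNat.mul (n _) (n _), pow_add, pow_add,
    (smrI x cf M0 ga h h').2, e, prod_congr u fun _ _ => rfl, prod_union v]
  ring

end Vale.Agent.P014X.Ac.Smr
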