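import Vale.Agent.P014X.Ac.St2
import Vale.Agent.P014X.Ac.Smr

/-! # P014X, the anchor: the setting exists -/

set_option autoImplicit false
set_option linter.all false

open NumberField Finset
open scoped Classical

noncomputable section

namespace Vale.Agent.P014X.Ac

open Vale.Agent.P022 (Qb GQ)
open Vale.Agent.P022D.W (dec)
open Vale.Agent.P022E.GW (Ov)
open Vale.Agent.P014U

variable [Pp]

namespace Se

variable {A B a b : ℤ} {D : Cd A B} {k M t : ℕ} {C : Cr k} (x : D.An C a b M)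
  {K : Finset (D.G →* Qa a b C.O)}

theorem mem (y : D.G) : y.1 ∈ Kg x K t ↔ (∀ f ∈ K, f y = 1) ∧ x.ξ₁ y ^ t = 1 := by
  rw [Kg, show y.1 = D.G.subtype y from rfl, Subgroup.mem_map_iff_mem D.G.subtype_injective]
  simp [Subgroup.mem_iInf]

theorem mem1 (y : D.G) : y.1 ∈ Kg x K 1 ↔ (∀ f ∈ K, f y = 1) ∧ x.ξ₁ y = 1 := by
  rw [mem, pow_one]

theorem le : Kg x K t ≤ D.G := Subgroup.map_subtype_le _

theorem xi1 {y : D.G} (h : x.ξ y = 1) : x.ξ₁ y = 1 := by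
  have l0 : x.lam ≠ 0 := fun z => x.lu.ne_zero (by simp [z])
  have := x.lx y
  rw [h, mul_one] at this
  exact smul_left_injective _ l0 (this.symm.trans (one_smul _ _).symm)

omit [Pp] in
/-- a statement about elements of `G` -/
theorem all {H' : Subgroup GQ} (h' : H' ≤ D.G) {p : GQ → Prop}
    (hp : ∀ g, p g → g ∈ D.G) (e : ∀ y : D.G, y.1 ∈ H' ↔ p y.1) (g : GQ) : g ∈ H' ↔ p g :=
  ⟨fun m => (e ⟨g, h' m⟩).1 m, fun m => (e ⟨g, hp g m⟩).2 m⟩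

omit [Pp] in
theorem ov {P : Ideal (𝓞 Qb)} (p : P.IsPrime) {n : ℕ} (n0 : n ≠ 0) (h : (n : 𝓞 Qb) ∈ P) :
    ∃ l, l ∣ n ∧ Ov l P := by
  induction n using Nat.recOnMul with
  | zero => exact absurd rfl n0
  | one => exact absurd (by simpa using h) p.one_notMem
  | prime l q => exact ⟨l, dvd_rfl, q, p, h⟩
  | mul u v i j =>
    rw [Nat.cast_mul] at h
    obtain h | h := p.mem_or_mem h
    · exact (i (left_ne_zero_of_mul n0) h).imp fun l e => ⟨e.1.mul_right _, e.2⟩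
    · exact (j (right_ne_zero_of_mul n0) h).imp fun l e => ⟨e.1.mul_left _, e.2⟩

/-- no prime of the conductor splits -/
theorem ns (M0 : M ≠ 0) (n : ℕ) (P : Ideal (𝓞 Qb)) (p : P.IsPrime) (h : D.j (D.mp M n) ∈ P) :
    ∃ g ∈ dec P, g ∉ Kg x x.I 1 ∧ g ∈ Kg x x.I pp := by
  rw [map_natCast] at h
  obtain ⟨l, d, o⟩ := ov p (mul_ne_zero M0 (pow_pos pp_pos n).ne') h
  obtain ⟨g, gd, g1⟩ := x.ns l (by
    obtain d | d := (Nat.Prime.dvd_mul o.1).1 d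
    · exact mem_insert_of_mem (Nat.mem_primeFactors.2 ⟨o.1, d, M0⟩)
    · rw [(Nat.prime_dvd_prime_iff_eq o.1 pp_prime).1 (o.1.dvd_of_dvd_pow d)]
      exact mem_insert_self _ _) P o
  have e : x.ξ₁ g ^ pp ^ (k + 1) = 1 := by
    obtain ⟨j, e⟩ := x.rg g
    rw [e, pow_right_comm, C.pw, one_pow]
  have ex : ∃ j, (x.ξ₁ g ^ x.I.card) ^ pp ^ j = 1 := ⟨k + 1, by rw [pow_right_comm, e, one_pow]⟩
  obtain ⟨j, hj⟩ := Nat.exists_eq_succ_of_ne_zero (n := Nat.find ex) fun z => g1 (by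
    have := Nat.find_spec ex
    rw [z, pow_zero, pow_one] at this
    simpa [((pp_prime.coprime_iff_not_dvd.2 x.cop).symm.pow_right (k + 1)).gcd_eq_one] using
      pow_gcd_eq_one.2 ⟨this, e⟩)
  have q : ∀ f ∈ x.I, f ((g ^ x.I.card) ^ pp ^ j) = 1 := fun f m => by
    rw [map_pow, map_pow, Smr.pw_card x m, one_pow]
  refine ⟨((g ^ x.I.card) ^ pp ^ j : D.G), pow_mem (pow_mem gd _) _, fun m => ?_, (mem x _).2 ⟨q, ?_⟩⟩
  · exact Nat.find_min ex (hj ▸ j.lt_succ_self) (by simpa using ((mem1 x _).1 m).2)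
  · have := Nat.find_spec ex
    rw [hj, pow_succ, pow_mul] at this
    simpa using this

theorem tr_le (cf : D.Cf) (M0 : M ≠ 0) {R : Type} [CommRing R] {φ : D.G →* R} {n : ℕ}
    (t : D.Tr (D.mp M n) φ) : D.Tr (D.mp M (n + 2)) φ := fun g h => by
  have e : D.mp M (n + 2) = D.mp M n * (pp ^ 2 : ℕ) := by
    rw [← Nat.cast_mul, mul_assoc, ← pow_add]
  have := Smr.mp_ne (D := D) M0 (n + 2)
  rw [e] at h this
  exact t g (Ev.hm_le cf this h)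

theorem qv (cf : D.Cf) (M0 : M ≠ 0) {n : ℕ} (tr : ∀ f ∈ x.I, D.Tr (D.mp M n) f)
    (tx : D.Tr (D.mp M n) x.ξ) {γ : D.G} (gf : ∀ f ∈ x.I, f γ = 1) (gx : x.ξ₁ γ = C.pb.gen) :
    Qv D pp k (D.mp M n) (Kg x x.I 1) (Kg x x.I pp) γ := by
  have s1 : ∀ n : ℕ, ∀ f ∈ x.I, f (γ ^ n) = 1 := fun n f m => by rw [map_pow, gf f m, one_pow]
  have s2 : ∀ n : ℕ, x.ξ₁ (γ ^ n) = C.pb.gen ^ n := fun n => by rw [map_pow, gx]
  refine ⟨le x, fun g h => (mem1 x ⟨g, Ev.hm_G cf (Smr.mp_ne M0 n) h⟩).2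
    ⟨fun f m => tr f m _ h, xi1 x (tx _ h)⟩, fun h => ?_,
    (mem1 x (γ ^ pp ^ (k + 1))).2 ⟨s1 _, (s2 _).trans C.pw⟩,
    all (le x) (fun g ⟨i, h⟩ => ?_) fun y => ?_, ns x M0 n⟩
  · exact C.prim.pow_ne_one_of_pos_of_lt (pow_pos pp_pos _).ne'
      (Nat.pow_lt_pow_right one_lt k.lt_succ_self) ((s2 _).symm.trans ((mem1 x (γ ^ pp ^ k)).1 h).2)
  · exact (mul_mem_cancel_left (inv_mem (pow_mem (pow_mem γ.2 _) i))).1 (le x h)
  · rw [mem, ← Smr.mem_up x (s1 _) (s2 _)]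
    exact exists_congr fun i => (mem1 x (((γ ^ pp ^ k) ^ i)⁻¹ * y)).symm

end Se

open Se Smr

/-- **SET** -/
theorem set : SET := by
  intro A B D N M cf fm k C a b x
  obtain ⟨γ, gf, gx⟩ := ex_gen x
  have tr := fun f m => tr_le cf fm.ne (x.tr f m)
  have tx := tr_le cf fm.ne x.tx
  have q := qv x cf fm.ne tr tx gf gx
  have i := idx x x.crd x.cop (one_mul _).symm (mem x (K := x.I) (t := 1))
  obtain e | ⟨ι, hJ, pm, ix, ne⟩ := x.sgn
  · exact ⟨_, 0, γ, 1, fm.ne, Nat.le_add_left _ _, tr, tx, gx, gf, map_one _, q, i, by simp [e],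
      e.le, .inl ⟨rfl, e⟩⟩
  obtain ⟨u, v⟩ := ev_union hJ pm
  have w : x.I \ x.J = Ev x ι := by rw [congrArg (· \ x.J) u, union_sdiff_cancel_right v]
  have h : ∀ t g, g ∈ Kg x (Ev x ι) t ↔ g ∈ Kg x x.I t ∨ ι.1⁻¹ * g ∈ Kg x x.I t := fun t =>
    all (le x) (fun g m => m.elim (le x ·) fun m =>
      (mul_mem_cancel_left (inv_mem ι.2)).1 (le x m)) fun y => by
      have z : x.ξ₁ (ι⁻¹ * y) = x.ξ₁ y := by
        conv_rhs => rw [← mul_inv_cancel_left ι y, map_mul, ix, one_mul]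
      rw [mem, mem, ev_ker hJ pm ne, or_and_right]
      exact or_congr_right ((mem x (ι⁻¹ * y)).trans (by rw [z])).symm
  refine ⟨_, 1, γ, ι, fm.ne, Nat.le_add_left _ _, tr, tx, gx, gf, ix, q, i,
    by rw [card_two hJ pm ne, ev_card hJ ne], fun f m => ((hJ f).1 m).1, .inr ⟨rfl, ?_, fun f m => ?_,
      fun f m => ((hJ f).1 m).2, ?_⟩⟩
  · rw [w]
    obtain ⟨f, m⟩ := ne
    refine ⟨fun z => ne1 (((hJ f).1 m).2.symm.trans (((mem1 x ι).1 z).1 f ((hJ f).1 m).1)),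
      (mem1 x (ι * ι)).2 ⟨fun f m => ?_, by rw [map_mul, ix, one_mul]⟩, h 1, h pp⟩
    rw [map_mul]
    obtain l | l := pm f m <;> rw [l] <;> ring
  · exact ⟨fun n => (pm f m).resolve_right fun l => n ((hJ f).2 ⟨m, l⟩),
      fun l n => ne1 (((hJ f).1 n).2.symm.trans l)⟩
  · rw [w]
    exact idx x (ev_crd hJ pm ne) (ev_cop hJ pm ne) (one_mul _).symm (mem x)

end Vale.Agent.P014X.Ac
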