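import Vale.Agent.P014X.Ac.St2
import Vale.Agent.P014X.Ac.Smr

/-! # P014X, the anchor: row SMV -/

set_option autoImplicit false
set_option linter.all false

open Finset
open scoped Classical

noncomputable section

namespace Vale.Agent.P014X.Ac

open Vale.Agent.P014U
open An (sm)

variable [Pp]

theorem Smr.mem_Kg {A B a b : ℤ} {D : Cd A B} {k M : ℕ} {C : Cr k} (x : D.An C a b M)
    (K : Finset (D.G →* Qa a b C.O)) (t : ℕ) (y : D.G) :
    y.1 ∈ Kg x K t ↔ (∀ f ∈ K, f y = 1) ∧ x.ξ₁ y ^ t = 1 :=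
  (Subgroup.mem_map_iff_mem D.G.subtype_injective).trans (by simp [Subgroup.mem_iInf])

open Smr in
theorem smv : SMV := fun A B D N M cf fm k C a b x n' e γ ι s g _ u ga => by
  have m1 := fun K y => (mem_Kg x K 1 y).trans (by rw [pow_one])
  obtain ⟨z, w⟩ := smrI x cf fm.ne ga (m1 _) (mem_Kg x _ _)
  obtain ⟨E, hE⟩ := C.cq_ex (prod_ne_zero_iff.2 fun f h => z f (u.sub h))
  rw [C.cq_prod _ _ fun f h => z f (u.sub h)] at hE
  refine ⟨E, hE.symm, le_of_eq (Nat.pow_right_injective pp_prime.two_le ?_)⟩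
  obtain ⟨rfl, j⟩ | ⟨rfl, -, h1, h2, -⟩ := u.sg
  · simp only [zero_mul, add_zero, pow_add, w, ← hE, j, mul_comm]
  have pm : ∀ f ∈ x.I, f ι = 1 ∨ f ι = -1 := fun f h => (em' _).imp (h1 f h).1 (h2 f)
  have hJ : ∀ f, f ∈ x.J ↔ f ∈ x.I ∧ f ι = -1 := fun f => ⟨fun h => ⟨u.sub h, h2 f h⟩, fun h =>
    by_contra fun n => ne1 (h.2.symm.trans ((h1 f h.1).1 n))⟩
  have ne : x.J.Nonempty := card_pos.1 (by
    have := u.crd
    have := card_pos.2 ⟨_, x.one⟩
    omega)
  have ev : x.I \ x.J = Ev x ι := Finset.ext fun f => by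
    rw [mem_sdiff, mem_filter]
    exact and_congr_right (h1 f)
  have n : ∀ H, sm s H D.G g ≠ 0 := fun H => by
    by_cases e : H.relIndex (Subgroup.zpowers g.1) = 0
    · simp [sm, e]
    · exact pow_ne_zero _ (Nat.sub_ne_zero_of_lt (Nat.one_lt_pow (by omega) ga.lt))
  have := smrJ x cf fm.ne ga hJ pm ne (m1 _) (mem_Kg x _ _) (m1 _) (mem_Kg x _ _)
  rw [padicValNat.mul (n _) (n _), padicValNat.mul (n _) (n _), hE] at this
  simp only [one_mul, ev, this]
  ring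

end Vale.Agent.P014X.Ac
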