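import Vale.Agent.P014X.Ac.St2
import Vale.Agent.P014X.Ac.Zw

/-! # P014X: the classes of the elliptic units -/

set_option autoImplicit false
set_option linter.all false

open NumberField Function Finset
open scoped Classical

noncomputable section

namespace Vale.Agent.P014X.Ac

open Vale.Agent.P022 (Qb GQ)
open Vale.Agent.P014U
open Vale.Agent.P014U.Dr (Zn)
open Cd (Tv)
open Zs

namespace S1

section

variable {A B : ℤ} {D : Cd A B} {X : Type} [MulAction D.G X] {H : Subgroup GQ} {x₀ : X}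
  {sec : X → D.G}

theorem vq_ne (r : QQ X) (y : X) : vq r y ≠ 0 := Units.ne_zero _

theorem vq_add (r s : QQ X) : vq (r + s) = vq r * vq s := funext fun y => by simp [vq]

theorem vq_neg (r : QQ X) : vq (-r) = (vq r)⁻¹ := funext fun y => by simp [vq]

theorem vq_sub (r s : QQ X) : vq (r - s) = vq r / vq s := funext fun y => by simp [vq]

theorem vq_nsmul (n : ℕ) (r : QQ X) (y : X) : vq (n • r) y = vq r y ^ n := by simp [vq]

theorem vq_T (h : D.G) (r : QQ X) (y : X) : vq (Tq D h r) y = vq r (h • y) := rfl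

theorem T_T (g h : D.G) (r : QQ X) : Tq D g (Tq D h r) = Tq D (h * g) r :=
  Additive.toMul.injective (funext fun y => congrArg (Additive.toMul r) (mul_smul h g y).symm)

theorem T_com (G : Gs D H x₀ sec) (g h : D.G) (r : QQ X) : Tq D g (Tq D h r) = Tq D h (Tq D g r) :=
  Additive.toMul.injective (funext fun y => congrArg (Additive.toMul r) (G.com h g y))

theorem T_F (G : Gs D H x₀ sec) (h : D.G) {r : QQ X} (k : r ∈ Fq D X) : Tq D h r ∈ Fq D X :=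
  fun g y => by rw [vq_T, vq_T, k, G.com]

theorem N_T (G : Gs D H x₀ sec) (p : ℕ) (σ h : D.G) (r : QQ X) :
    Nq D p σ (Tq D h r) = Tq D h (Nq D p σ r) := by
  simp only [Nq, AddMonoidHom.finset_sum_apply, map_sum, T_com G _ h]

theorem triv (G : Gs D H x₀ sec) (g : D.G) (y : X) : g • y = y ↔ g.1 ∈ H := by
  rw [← G.st, ← G.sec y, G.com, smul_left_cancel_iff]

theorem N_sub (G : Gs D H x₀ sec) {p : ℕ} {σ : D.G} (h : (σ ^ p).1 ∈ H) (r : QQ X) :
    Nq D p σ (Tq D σ r - r) = 0 := by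
  have e : Tq D (σ ^ p) r = Tq D (σ ^ 0) r :=
    Additive.toMul.injective (funext fun y => congrArg (Additive.toMul r) (by
      rw [(triv G _ y).2 h, pow_zero, one_smul]))
  simp only [Nq, AddMonoidHom.finset_sum_apply, map_sub, T_T, ← pow_succ']
  rw [← sum_sub_distrib, sum_range_sub fun i => Tq D (σ ^ i) r, e, sub_self]

theorem ex_rt {q : ℕ} (q0 : q ≠ 0) (z : QQ X) : ∃ r, q • r = z := by
  choose r e using fun y => IsAlgClosed.exists_pow_nat_eq (vq z y) (Nat.pos_of_ne_zero q0)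
  have n : ∀ y, r y ≠ 0 := fun y k => vq_ne z y (by rw [← e, k, zero_pow q0])
  exact ⟨Additive.ofMul fun y => Units.mk0 _ (n y), Additive.toMul.injective
    (funext fun y => Units.ext (by simpa [vq] using e y))⟩

theorem ex_c (h90 : H90) {q p : ℕ} {σ : D.G} (p0 : p ≠ 0)
    (fr : ∀ (i : ℕ) (y : X), σ ^ i • y = y ↔ p ∣ i) {r : QQ X} (h : q • r = 0)
    (k : Nq D p σ r = 0) : ∃ c, q • c = 0 ∧ r = Tq D σ c - c := by
  obtain ⟨c, e⟩ := (h90 D.G X (nsmulAddMonoidHom q : Additive Qbˣ →+ Additive Qbˣ).ker p σ p0 fr).1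
    (fun y => ⟨Additive.ofMul (Additive.toMul r y), congrFun h y⟩) fun y => Subtype.ext (by
      have := congrFun (congrArg Additive.toMul k) y
      simp only [Nq, AddMonoidHom.finset_sum_apply, toMul_sum, Finset.prod_apply] at this
      simp only [AddSubgroup.val_finset_sum, ← ofMul_prod]
      exact congrArg Additive.ofMul this)
  exact ⟨Additive.ofMul fun y => Additive.toMul (c y).1, funext fun y => (c y).2,
    funext fun y => congrArg Subtype.val (e y)⟩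

/-- the conjugates of `v` -/
abbrev Cl (v : QQ X) : AddSubgroup (QQ X) := AddSubgroup.closure (Set.range fun h : D.G => Tq D h v)

theorem ex_z (G : Gs D H x₀ sec) (σ : D.G) (v : QQ X) {y : QQ X}
    (h : y ∈ AddSubgroup.closure (Set.range fun h : D.G => Tq D h (Tq D σ v - v))) :
    ∃ z ∈ Cl (D := D) v, y = Tq D σ z - z := by
  induction h using AddSubgroup.closure_induction with
  | mem x h =>
    obtain ⟨h, rfl⟩ := h
    exact ⟨_, AddSubgroup.subset_closure ⟨h, rfl⟩, by simp only [map_sub, T_com G h σ]⟩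
  | zero => exact ⟨0, zero_mem _, by simp⟩
  | add x y _ _ a b =>
    obtain ⟨z, m, rfl⟩ := a
    obtain ⟨z', m', rfl⟩ := b
    exact ⟨z + z', add_mem m m', by rw [map_add]; abel⟩
  | neg x _ a =>
    obtain ⟨z, m, rfl⟩ := a
    exact ⟨-z, neg_mem m, by rw [map_neg]; abel⟩

theorem cl_F (G : Gs D H x₀ sec) {v : QQ X} (k : v ∈ Fq D X) : Cl (D := D) v ≤ Fq D X :=
  (AddSubgroup.closure_le _).2 (by rintro _ ⟨h, rfl⟩; exact T_F G h k)

theorem cq_T (G : Gs D H x₀ sec) {q p : ℕ} {σ : D.G} {v r : QQ X} (ι : D.G) (h : r ∈ Cq D q p σ v) :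
    Tq D ι r ∈ Cq D q p σ v := by
  refine ⟨?_, by
    have : Nq D p σ r = 0 := h.2
    exact (N_T G p σ ι r).trans (by rw [this, map_zero])⟩
  have : AddSubgroup.closure (Set.range fun h : D.G => Tq D h (Tq D σ v - v)) ≤
      (AddSubgroup.closure (Set.range fun h : D.G => Tq D h (Tq D σ v - v))).comap (Tq D ι) :=
    (AddSubgroup.closure_le _).2 (by
      rintro _ ⟨h, rfl⟩
      exact AddSubgroup.subset_closure ⟨h * ι, (T_T _ _ _).symm⟩)
  show q • Tq D ι r ∈ AddSubgroup.closure _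
  rw [← map_nsmul]
  exact this h.1

theorem cq_n (G : Gs D H x₀ sec) {q p : ℕ} {σ : D.G} {v : QQ X} (e : ℕ) (ι : D.G) :
    (Cq D q p σ v).map (nq D e ι) ≤ Cq D q p σ v := by
  rintro _ ⟨r, h, rfl⟩
  exact sub_mem h (nsmul_mem (cq_T G ι h) e)

theorem cq_ex (h90 : H90) (G : Gs D H x₀ sec) {q p : ℕ} {σ : D.G} (q0 : q ≠ 0) (p0 : p ≠ 0)
    (fr : ∀ i : ℕ, (σ ^ i).1 ∈ H ↔ p ∣ i) {v r : QQ X} (h : r ∈ Cq D q p σ v) :
    ∃ ρ, q • ρ ∈ Cl (D := D) v ∧ r = Tq D σ ρ - ρ := by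
  obtain ⟨z, m, e⟩ := ex_z G σ v h.1
  obtain ⟨z, rfl⟩ := ex_rt q0 z
  have e' : q • r = _ := e
  have k : Nq D p σ r = 0 := h.2
  obtain ⟨c, c0, ec⟩ := ex_c h90 (q := q) (r := r - (Tq D σ z - z)) p0
    (fun i y => (triv G _ y).trans (fr i)) (by rw [nsmul_sub, e', nsmul_sub, map_nsmul, sub_self])
    (by rw [map_sub, k, N_sub G ((fr p).2 dvd_rfl), sub_self])
  exact ⟨z + c, by rwa [nsmul_add, c0, add_zero], by
    rw [map_add, sub_eq_iff_eq_add.1 ec]; abel⟩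

theorem ord {p k : ℕ} {m : D.O} {H' : Subgroup GQ} {γ : D.G} (pr : p.Prime) (h : Qv D p k m H H' γ)
    (i : ℕ) : ((γ ^ p ^ k) ^ i).1 ∈ H ↔ p ∣ i := by
  have a : (γ.1 ^ p ^ k) ^ p ∈ H := by rw [← pow_mul, ← pow_succ]; exact h.gp
  refine ⟨fun b => by_contra fun n => h.g1 ?_, ?_⟩
  · obtain ⟨u, -, e⟩ := Nat.exists_mul_mod_eq_one_of_coprime
      ((Nat.coprime_comm.1 ((Nat.Prime.coprime_iff_not_dvd pr).2 n))) pr.one_lt
    have c : (γ.1 ^ p ^ k) ^ (i * u) ∈ H := by rw [pow_mul]; exact pow_mem b u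
    rw [← Nat.div_add_mod (i * u) p, e, pow_succ, pow_mul] at c
    exact (mul_mem_cancel_left (pow_mem a _)).1 c
  · rintro ⟨j, rfl⟩
    show (γ.1 ^ p ^ k) ^ (p * j) ∈ H
    rw [pow_mul]
    exact pow_mem a j

/-- the projection -/
def pj (m : D.O) (x₀ : X) (x : Xm D m) : X := x.out • x₀

theorem pj_mk {m : D.O} (G : Gs D H x₀ sec) (le : D.Hm m ≤ H) (g : D.G) :
    pj m x₀ (g : Xm D m) = g • x₀ := by
  rw [pj, ← mul_inv_cancel_left g (g : Xm D m).out, mul_smul, (G.st _).2 (le (out_mk g))]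

theorem pj_act {m : D.O} (G : Gs D H x₀ sec) (le : D.Hm m ≤ H) (g : D.G) (x : Xm D m) :
    pj m x₀ (g • x) = g • pj m x₀ x := by
  obtain ⟨s, rfl⟩ := QuotientGroup.mk_surjective x
  rw [MulAction.Quotient.smul_mk, pj_mk G le, pj_mk G le, smul_eq_mul, mul_smul]

theorem ps_T {m : D.O} [Fintype (Xm D m)] (G : Gs D H x₀ sec) (le : D.Hm m ≤ H) (hG : H ≤ D.G)
    {T : Finset GQ} (t : Tv H (D.Hm m) T) {u : Qb} (h : ∀ g ∈ D.Hm m, g u = u) :
    Zs.ps (pj m x₀) (cu u) x₀ = ∏ s ∈ T, s u := by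
  refine (Finset.prod_bij (fun s k => ((⟨s, hG (t.1 s k)⟩ : D.G) : Xm D m)) (fun s k => ?_)
    (fun s k s' k' e => ?_) (fun x k => ?_) fun s k => (cu_mk h ⟨s, _⟩).symm).symm
  · rw [mem_filter, pj_mk G le]
    exact ⟨mem_univ _, (G.st _).2 (t.1 s k)⟩
  · exact (t.2 s' (t.1 s' k')).unique ⟨k, (QuotientGroup.eq (s := (D.Hm m).subgroupOf D.G)).1 e⟩ ⟨k', by simpa using one_mem _⟩
  · obtain ⟨s, ⟨a, b⟩, -⟩ := t.2 x.out ((G.st _).1 (mem_filter.1 k).2)
    exact ⟨s, a, ((QuotientGroup.eq (s := (D.Hm m).subgroupOf D.G) (a := ⟨s, hG (t.1 s a)⟩)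
      (b := x.out)).2 b).trans x.out_eq'⟩

variable [Pp] [Fintype X] {R : Type} [CommRing R] {N : ℕ} (ι : Zn N →+* R) {χ : D.G →* R} {w : X → R}

omit [Fintype X] in
theorem rf_of {ρ : QQ X} (h : pp ^ N • ρ ∈ Fq D X) : Rf D N (vq (pp ^ N • ρ)) (vq ρ) :=
  ⟨vq_ne _, h, fun y => (vq_nsmul _ _ y).symm⟩

theorem cl_ch (G : Gs D H x₀ sec) (hw : Wt χ w) {v v' : QQ X} (k : v ∈ Fq D X) (e : pp ^ N • v' = v)
    {z : QQ X} (h : z ∈ Cl (D := D) v) : ∀ ρ, pp ^ N • ρ = z →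
      ∃ β : R, D.Ch (D.ak ι χ) (Z D ι w (vq ρ)) (β • Z D ι w (vq v')) := by
  have K : ∀ z ∈ Cl (D := D) v, ∀ ρ ρ', pp ^ N • ρ = z → pp ^ N • ρ' = z →
      D.Ch (D.ak ι χ) (Z D ι w (vq ρ)) (Z D ι w (vq ρ')) := fun z h ρ ρ' a b =>
    Z_ch ι hw (rf_of (a ▸ cl_F G k h)) ((a.trans b.symm) ▸ rf_of (b ▸ cl_F G k h))
  have q0 := (pow_pos pp_pos N).ne'
  induction h using AddSubgroup.closure_induction with
  | mem x h =>
    obtain ⟨g, rfl⟩ := h
    refine fun ρ a => ⟨χ g⁻¹, (K _ (AddSubgroup.subset_closure ⟨g, rfl⟩) ρ (Tq D g v') a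
      (by rw [← map_nsmul, e])).trans (.of_eq ?_)⟩
    rw [← Z_smul, show χ g⁻¹ • w = w ∘ (MulAction.toPerm g).symm from funext fun y => (hw _ _).symm,
      ← Z_sh ι _ fun h y => G.com g h y]
    rfl
  | zero =>
    refine fun ρ a => ⟨0, (K _ (zero_mem _) ρ 0 a (nsmul_zero _)).trans (.of_eq ?_)⟩
    rw [zero_smul]
    exact Z_eqv ι (vq_ne _) (zero_mem (Fq D X))
  | add x y hx hy a b =>
    obtain ⟨x, rfl⟩ := ex_rt q0 x
    obtain ⟨y, rfl⟩ := ex_rt q0 y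
    obtain ⟨β, a⟩ := a x rfl
    obtain ⟨β', b⟩ := b y rfl
    refine fun ρ c => ⟨β + β', (K _ (add_mem hx hy) ρ (x + y) c (nsmul_add _ _ _)).trans ?_⟩
    rw [vq_add, Z_mul ι (rf_of (cl_F G k hx)) (rf_of (cl_F G k hy)), add_smul]
    exact a.add b
  | neg x hx a =>
    obtain ⟨x, rfl⟩ := ex_rt q0 x
    obtain ⟨β, a⟩ := a x rfl
    refine fun ρ c => ⟨-β, (K _ (neg_mem hx) ρ (-x) c (neg_nsmul _ _)).trans ?_⟩
    rw [vq_neg, Z_inv ι (rf_of (cl_F G k hx)), neg_smul]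
    exact a.neg

theorem v_ch (cf : D.Cf) (E : D.Es pp) {α m : D.O} (ad : D.Ad pp α m) (G : Gs D H x₀ sec)
    (le : D.Hm m ≤ H) (hG : H ≤ D.G) {T : Finset GQ} (t : Tv H (D.Hm m) T) (tr : D.Tr m χ)
    (hw : Wt χ w) {v' : QQ X} (k : pp ^ N • v' ∈ Fq D X)
    (e : vq (pp ^ N • v') x₀ = ∏ s ∈ T, s (D.un α m)) :
    D.Ch (D.ak ι χ) (Z D ι w (vq v')) (w x₀ • D.zc α m ι χ) := by
  haveI := Zs.fin cf ad.ne
  letI := Fintype.ofFinite (Xm D m)
  have r := (rf_un (N := N) E ad).ps (pj_act G le)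
  have a : w x₀ • (cw χ : Xm D m → R) = w ∘ pj m x₀ := funext fun x => by
    simp only [Pi.smul_apply, comp_apply, pj, hw _ _, cw, smul_eq_mul, mul_comm]
  rw [zc_eq E ad, ← Z_smul, a, Z_ps ι (rf_un E ad) (pj_act G le)]
  have b : Zs.ps (pj m x₀) (cu (D.un α m)) = vq (pp ^ N • v') := funext fun y => by
    rw [← G.sec y, ← r.eqv, ← k, e, ps_T G le hG t (E.fix α m ad)]
  exact Z_ch ι hw (rf_of k) (b ▸ r)

end

end S1

open S1

variable [Pp]

theorem sp1 (h90 : H90) : SP1 := by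
  intro A B D cf E M k C a b x n' e γ ι s su ad X _ _ x₀ sec w T v fr tv hv n
  have G := fr.gs
  have q0 := (pow_pos pp_pos n).ne'
  have vF : v ∈ Fq D X := fun g y => by rw [← G.sec y, ← mul_smul, hv, hv]; rfl
  refine ⟨fun r h => ⟨?_, ?_⟩, fun f hf r h => ?_⟩
  · obtain ⟨z, m, e⟩ := ex_z G _ v h.1
    show nsmulAddMonoidHom (pp ^ n) r ∈ Fq D X
    rw [e]
    exact sub_mem (T_F G _ (cl_F G vF m)) (cl_F G vF m)
  · show Nq D pp _ r ∈ Fq D X
    rw [show Nq D pp _ r = 0 from h.2]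
    exact zero_mem _
  obtain ⟨ρ, m, rfl⟩ := cq_ex h90 G q0 pp_pos.ne' (ord pp_prime su.qv) (cq_n G e ι h)
  obtain ⟨v', rfl⟩ := ex_rt q0 v
  have kg : ∀ g : D.G, g.1 ∈ Kg x x.I 1 → f g = 1 ∧ x.ξ₁ g = 1 := by
    rintro g ⟨g', ⟨h1, h2⟩, e⟩
    obtain rfl : g' = g := Subtype.ext e
    exact ⟨(Subgroup.mem_iInf.1 (Subgroup.mem_iInf.1 h1 f)) hf, by simpa using h2⟩
  have sc : ∀ (g : D.G) y, f (sec (g • y)) = f g * f (sec y) ∧
      x.ξ₁ (sec (g • y)) = x.ξ₁ g * x.ξ₁ (sec y) := fun g y => by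
    have := kg ((g * sec y)⁻¹ * sec (g • y)) ((G.st _).1 (by
      rw [mul_smul, G.sec, inv_smul_eq_iff, mul_smul, G.sec]))
    rw [← map_mul, ← map_mul, ← mul_inv_cancel_left (g * sec y) (sec (g • y)), map_mul f, map_mul x.ξ₁,
      this.1, this.2, mul_one, mul_one]
    exact ⟨rfl, rfl⟩
  let W : X → Qa a b (C.L n) := fun y => qm a b (C.rd n) (x.ξ₁ (sec y) • (x.lam * f (sec y)))
  have hw : Wt (qc (C.rd n) (f * x.ξ)) W := fun g y => by
    show qm a b _ _ = qm a b _ (f g * x.ξ g) * qm a b _ _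
    rw [← map_mul, (sc g y).1, (sc g y).2, mul_smul]
    congr 1
    have := x.lx g
    simp only [Algebra.smul_def] at this ⊢
    linear_combination (-algebraMap C.O (Qa a b C.O) (x.ξ₁ (sec y)) * f g * f (sec y)) * this
  have fσ : f (γ ^ pp ^ k)⁻¹ = 1 := by
    rw [← inv_pow, map_pow, ← mul_one (f _), ← su.gf f hf, ← map_mul, inv_mul_cancel, map_one, one_pow,
      su.gf f hf]
  have ey : yf x n sec w f (Tq D (γ ^ pp ^ k) ρ - ρ) =
      Z D ((algebraMap (C.L n) _).comp (C.io n)) W (vq ρ) := by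
    rw [yf, vq_sub]
    refine (Z_div _ (rf_of (cl_F G vF m)) (MulAction.toPerm (γ ^ pp ^ k))
      fun h y => G.com _ h y).trans ?_
    congr 1
    funext y
    show qm a b (C.rd n) (w ((γ ^ pp ^ k)⁻¹ • y) • (x.lam * f (sec ((γ ^ pp ^ k)⁻¹ • y)))) -
      qm a b (C.rd n) (w y • (x.lam * f (sec y))) = _
    rw [← map_sub, (sc _ y).1, fσ, one_mul, ← sub_smul, fr.wt]
  obtain ⟨β, hβ⟩ := cl_ch ((algebraMap (C.L n) _).comp (C.io n)) G hw vF rfl m ρ rfl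
  have tr : D.Tr (D.mp M n') (qc (C.rd n) (f * x.ξ)) := fun g h => by
    show qm a b _ (f g * x.ξ g) = 1
    rw [su.tr f hf g h, su.tx g h, mul_one, map_one]
  have := (v_ch ((algebraMap (C.L n) _).comp (C.io n)) cf E ad G su.qv.hm su.qv.G tv tr hw vF
    (by simpa using hv 1)).smul β
  rw [smul_smul] at this
  exact ⟨β * W x₀, ey ▸ hβ.trans this⟩

end Vale.Agent.P014X.Ac
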