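import Vale.Agent.P014X.Ac.St2
import Vale.Agent.P014X.Fm.Pz0
import Vale.Agent.P014X.Fm.Ind

/-! # P014X, the anchor: the row `SP2` (helper5) -/

set_option autoImplicit false
set_option linter.all false

open scoped Classical

noncomputable section

namespace Vale.Agent.P014X.Ac

open Vale.Agent.P014U
open Vale.Agent.P014U.Dr (Zn)

variable [Pp]

namespace Sp2

variable {A B : ℤ} {D : Cd A B} {a b : ℤ} {R : Type} [CommRing R]

/-- the class under conjugation -/
theorem ex_w (rw : D.Rw) {N s m : ℕ} (ι : Zn N →+* Qa a b R)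
    {χ : D.G →* Qa a b R} (cj : D.Cj χ) (ad : D.Ad pp s m) (tr : D.Tr m χ) : ∃ w, ∀ g,
      star (D.zc s m ι χ (D.cg g)) = -D.zc s m ι χ g + w * (D.ak ι χ g - 1) := by
  have e : (starRingEnd _).comp ι = ι := RingHom.ext_zmod _ _
  obtain ⟨w, hw⟩ := rw.cnj N s m _ ι χ ((starRingEnd _).toMonoidHom.comp χ) ad tr fun g => (cj g).symm
  refine ⟨star w, fun g => ?_⟩
  have k := rw.map N s m _ _ (starRingEnd _) ι χ g ad.ne
  have a := congrArg star (hw g)
  rw [e] at k
  rw [star_natCast, star_natCast, Pi.neg_apply, ← k, star_sub, star_neg, starRingEnd_apply, star_star,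
    star_mul', star_sub, star_one, show star (D.ak ι ((starRingEnd _).toMonoidHom.comp χ) g) =
      D.ak ι χ g from (star_mul' ..).trans (congrArg₂ (· * ·) (DFunLike.congr_fun e _) (star_star _))] at a
  linear_combination a

theorem xt_smul (r : R) (y : D.G → Qa a b R) :
    D.xt (fun g => vc (D.tc (fun g => algebraMap R _ r * y g) g)) = r • D.xt fun g => vc (D.tc y g) := by
  have e (g : D.G) : vc (D.tc (fun g => algebraMap R _ r * y g) g) = r • vc (D.tc y g) := by
    rw [Cd.tc, star_mul', Pz0.star_alg, ← mul_add, ← Algebra.smul_def]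
    ext i; fin_cases i <;> rfl
  funext g
  simp only [Cd.xt, Pi.smul_apply, e]
  split_ifs <;> simp

end Sp2

open Sp2

/-- **row SP2** -/
theorem sp2 : SP2 := fun A B D C W a b R _ N s m ι χ ρ y β u ad t j i ⟨v, k⟩ => by
  obtain ⟨w, hw⟩ := ex_w W ((algebraMap R (Qa a b R)).comp ι) j ad t
  obtain ⟨h, e⟩ := u.exists_left_inv
  have cj := Pz0.cj_aq C j ι
  rw [Cd.xz]
  set z := D.zc s m ((algebraMap R (Qa a b R)).comp ι) χ
  set Φ := D.aq ι χ
  set r := algebraMap R (Qa a b R) (h * β.im) with hr
  set t := algebraMap R (Qa a b R) (β.re + h * β.im * b) with ht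
  set q := algebraMap R (Qa a b R) h with hq
  have e1 : β = t + r * dl a b R := QuadraticAlgebra.ext (by simp [ht, hr, dl])
    (by simp [ht, hr, dl]; linear_combination (-β.im) * e)
  have e2 : q * 2 = 1 := by rw [hq, ← map_ofNat (algebraMap R (Qa a b R)), ← map_mul, e, map_one]
  obtain ⟨τ, k'⟩ := Pz0.xt_ch C i cj (y := fun g => y g - t * z g + (Φ g - 1) * (q * t * w))
    (y' := fun g => r * (dl a b R * z g)) ⟨v + q * t * w, fun g => by
      have := k g
      rw [e1] at this
      linear_combination this⟩ 1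
  simp only [one_mul] at k'
  rw [hr, xt_smul] at k'
  refine Submodule.mem_span_pair.2 ⟨τ, h * β.im, (add_comm _ _).trans (k'.symm.trans ?_)⟩
  refine congrArg D.xt (funext fun g => congrArg vc ?_)
  replace hw : ∀ g, star (z (D.cg g)) = -z g + w * (Φ g - 1) := hw
  have a1 := hw g
  have a2 := congrArg star (hw (D.cg g))
  simp only [Fm.Ind.cg_cg C, cj g, star_add, star_neg, star_mul', star_sub, star_star, star_one] at a2
  simp only [Cd.tc, cj g, star_add, star_mul', star_sub, star_star, star_one, ht, hq, Pz0.star_alg]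
  rw [← ht, ← hq]
  linear_combination (-(q * t)) * a1 - q * t * a2 + t * (z g + star (z (D.cg g))) * e2

end Vale.Agent.P014X.Ac
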