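import Vale.Agent.P014X.Ac.St2
import Vale.Agent.P014X.Fm.Crk
import Vale.Agent.P014X.Fm.Pz0

/-! # P014X, the anchor: the glue -/

set_option autoImplicit false
set_option linter.all false

open Finset
open scoped Classical

noncomputable section

namespace Vale.Agent.P014X.Ac

open Vale.Agent.P022 (Qb GQ)
open Vale.Agent.P014U
open Vale.Agent.P014U.Kq (M2)
open Vale.Agent.P014T.Ct (db)

namespace Top

theorem sp2 {R V : Type} [CommRing R] [Finite R] [AddCommGroup V] [Module R V] (u v : V) :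
    Nat.card (Submodule.span R {u, v}) ≠ 0 ∧ Nat.card (Submodule.span R {u, v}) ≤ Nat.card R ^ 2 := by
  have s : Function.Surjective fun c : R × R => (⟨c.1 • u + c.2 • v, Submodule.mem_span_pair.2
      ⟨_, _, rfl⟩⟩ : Submodule.span R {u, v}) := fun ⟨y, h⟩ =>
    let ⟨c, d, e⟩ := Submodule.mem_span_pair.1 h; ⟨(c, d), Subtype.ext e⟩
  haveI := Finite.of_surjective _ s
  exact ⟨Nat.card_pos.ne', (Nat.card_le_card_of_surjective _ s).trans_eq (by rw [Nat.card_prod, sq])⟩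

theorem one {J : Type} {s : Finset J} {z : J → ℕ} {L c : ℕ} (L0 : L ≠ 0) (le : ∀ f ∈ s, z f ≤ L)
    (h : L ^ s.card ≤ c * ∏ f ∈ s, z f) : ∀ f ∈ s, L ≤ c * z f := fun f m => by
  rw [← mul_prod_erase s z m, ← card_erase_add_one m, pow_succ', ← mul_assoc] at h
  exact Nat.le_of_mul_le_mul_right (h.trans (Nat.mul_le_mul_left _
    (prod_le_pow_card _ _ _ fun i n => le i (mem_of_mem_erase n)))) (pow_pos (Nat.pos_of_ne_zero L0) _)

theorem two {J : Type} {s : Finset J} {z w u t : J → ℕ} {L : ℕ} (L0 : L ≠ 0)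
    (e : ∀ f ∈ s, z f * w f * (u f * t f) = L)
    (h : L ^ s.card ≤ (∏ f ∈ s, w f) * (∏ f ∈ s, z f) * ∏ f ∈ s, u f) : ∀ f ∈ s, t f = 1 := by
  have a : ((∏ f ∈ s, w f) * (∏ f ∈ s, z f) * ∏ f ∈ s, u f) * ∏ f ∈ s, t f = L ^ s.card := by
    rw [← prod_const, ← prod_congr rfl e]
    simp only [prod_mul_distrib]
    ring
  have n := pow_ne_zero s.card L0
  rw [← a] at h n
  have b := Nat.le_of_mul_le_mul_left (h.trans_eq (mul_one _).symm)
    (Nat.pos_of_ne_zero (left_ne_zero_of_mul n))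
  have := right_ne_zero_of_mul n
  exact (prod_eq_one_iff ..).1 (by omega)

end Top

variable [Pp]

theorem anc2 (raw : RAW) (fld : FLD) (cnt : CNT) (set : SET) (wgt : WGT) (co1 : CO1) (co2 : CO2)
    (ker : KER) (sp1 : SP1) (sp2 : SP2) (smv : SMV) : P014X.ANC := by
  intro A B D N M cf eu es fm k C a b x s g α hd ga mo
  obtain ⟨n', e, γ, ι, su⟩ := set A B D N M cf fm k C a b x
  have ad := Pz0.ad fm.ne ga su.two
  obtain ⟨X, iX, aX, x₀, sec, w, T, v, fr, tv, hv⟩ := wgt A B D M cf es k C a b x n' e γ ι s su ad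
  obtain ⟨E, hE, sv⟩ := smv A B D N M cf fm k C a b x n' e γ ι s g hd su ga
  obtain ⟨ζ, uζ, ac⟩ := ga.ac n'
  obtain ⟨c₀, n₀, fl⟩ := fld A B D cf eu pp k s e (C.pb.dim * x.J.card) E _ pp_prime pp_ne_two es ga.lt ad
    _ _ _ _ γ ι g ζ T su.qv (su.sg.imp And.left fun h => ⟨h.1, h.2.1⟩) uζ ac tv
    (by rw [su.idx, ← su.crd, C.dim]; ring) sv
  obtain ⟨n, hn, lt⟩ : ∃ n, n₀ ≤ n ∧ c₀ < Nat.card (C.L n) := ⟨n₀ + c₀, by omega, by
    rw [C.card_L]
    exact lt_of_le_of_lt (by nlinarith [C.dim_pos]) (Nat.lt_pow_self pp_prime.one_lt)⟩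
  have L0 : Nat.card (C.L n) ≠ 0 := by omega
  have qL (j : ℕ) : (pp ^ n) ^ (j * (C.pb.dim * x.J.card)) = (Nat.card (C.L n) ^ j) ^ x.J.card := by
    rw [C.card_L]; ring
  have c2 := co2 A B D N M cf fm k C a b x n' e γ ι su X x₀ sec w fr n
  choose! ρ hρ using fun f h => (c2 f h).1
  have c1 := co1 A B D cf M k C a b x n' e γ ι su X x₀ sec w fr n
  obtain ⟨k1, k2⟩ := ker A B D cf M k C a b x n' e γ ι su X x₀ sec w fr n
  obtain ⟨s1, s2⟩ := sp1 A B D cf es M k C a b x n' e γ ι s su ad X x₀ sec w T v fr tv hv n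
  have tr : ∀ f ∈ x.I, D.Tr (D.mp M n') (qc (C.rd n) (f * x.ξ)) := fun f h y m => by
    simp [su.tr f h y m, su.tx y m]
  have ct := fun W S (l : W ≤ Aq D X (pp ^ n) pp (γ ^ pp ^ k)) h₁ h₂ =>
    cnt _ _ _ x.J (W.map (nq D e ι)) (Fq D X) (ps x n sec w) S (fun f h r m r' m' =>
      ((c1 f (su.sub h) r (k1 (AddSubgroup.map_mono l m))).2 r' (k1 (AddSubgroup.map_mono l m'))).2)
      h₁ (fun r m => k2 r (AddSubgroup.map_mono l m)) h₂
  obtain ⟨z0, zl⟩ := ct _ (fun f => Submodule.span (C.L n) {db (ρ f) ![1, 0],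
      D.xz s (D.mp M n') (C.io n) (qc (C.rd n) (f * x.ξ))}) s1
    (fun f h r m => (s2 f (su.sub h) r m).elim fun β c =>
      sp2 A B D cf (raw A B D cf es) a b _ n s _ _ _ _ _ β (by simpa only [map_ofNat] using C.unit_two.map (C.rd n)) ad
        (tr f (su.sub h)) (Pz0.cj_map (fun y => by
          rw [MonoidHom.mul_apply, MonoidHom.mul_apply, x.cj f (su.sub h), x.cx, star_mul']) _)
        (hρ f (su.sub h)) c) fun f _ => (Top.sp2 _ _).1
  obtain ⟨f2, f1⟩ := fl n hn X x₀ sec v fr.gs hv _ _ rfl rfl z0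
  rw [qL] at f1 f2
  have mo' := fun f h => mo f h n n' (ρ f) c₀ su.two (tr f (su.sub h)) (hρ f (su.sub h)) lt
    (Top.one (pow_ne_zero 2 L0) (fun f _ => (Top.sp2 _ _).2) (f2.trans (Nat.mul_le_mul_left _ zl)) f h)
  obtain ⟨w0, wl⟩ := ct _ (fun f => Pq.Zq (C.L n) (Sb M) (ρ f) D.c) inf_le_left
    (fun f h r m => (c2 f (su.sub h)).2 _ (hρ f (su.sub h)) r m) fun f h => right_ne_zero_of_mul
      (left_ne_zero_of_mul ((mo' f h).2.trans_ne (pow_ne_zero 4 L0)))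
  exact fun f h => C.cq_one.1 (Top.two (t := fun f => C.cq (α f)) (pow_ne_zero 4 L0) (fun f h => by
    rw [← (mo' f h).2]
    exact congrArg _ (C.cq_mul (left_ne_zero_of_mul (mo' f h).1) (right_ne_zero_of_mul (mo' f h).1)).symm)
    ((f1 w0).trans (Nat.mul_le_mul (Nat.mul_le_mul wl zl) hE.le)) f h)

end Vale.Agent.P014X.Ac
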