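import Vale.Agent.P014X.Ac.St2

/-! # P014X, anchor: roots of local powers are not ramified -/

set_option autoImplicit false
set_option linter.all false

open NumberField IsDedekindDomain Function Finset
open scoped Classical

noncomputable section

namespace Vale.Agent.P014X.Ac

open Vale.Agent.P022 (Qb GQ GK below)
open Vale.Agent.P027M.S (Inert)
open Vale.Agent.P022E.GW (Ov)
open An (Pm Sp)

namespace Unr

/-- congruent roots are equal -/
theorem eq_of {R : Type} [CommRing R] [IsDomain R] {P : Ideal R} (hP : P.IsPrime) {q : ℕ}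
    (hq : (q : R) ∉ P) {x y : R} (hy : y ∉ P) (c : x - y ∈ P) (e : x ^ q = y ^ q) : x = y := by
  by_contra n
  have s := (Commute.all x y).geom_sum₂_mul q
  rw [e, sub_self] at s
  have s' := congrArg (Ideal.Quotient.mk P) ((mul_eq_zero.1 s).resolve_right (sub_ne_zero.2 n))
  simp only [map_sum, map_mul, map_pow, Ideal.Quotient.eq.2 c, geom_sum₂_self, map_zero] at s'
  rw [← map_natCast (Ideal.Quotient.mk P), ← map_pow, ← map_mul, Ideal.Quotient.eq_zero_iff_mem] at s'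
  exact (hP.mem_or_mem s').elim hq fun h => hy (hP.mem_of_pow_mem _ h)

/-- roots of units are fixed by the inertia -/
theorem core {P : Ideal (𝓞 Qb)} (hP : P.IsPrime) {i : GQ} (hi : Inert P i) {q : ℕ}
    (hq : (q : 𝓞 Qb) ∉ P) {s t : 𝓞 Qb} (hs : s ∉ P) (ht : t ∉ P) (is : i s = s) (it : i t = t)
    {u : Qb} (h : (s : Qb) * u ^ q = t) : i u = u := by
  obtain ⟨k, rfl⟩ : ∃ k, q = k + 1 := Nat.exists_eq_succ_of_ne_zero fun e => hq (by simp [e])
  have e : ((s : Qb) * u) ^ (k + 1) = ((s ^ k * t : 𝓞 Qb) : Qb) := by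
    refine Eq.trans ?_ (show (s : Qb) ^ k * t = ((s ^ k * t : 𝓞 Qb) : Qb) by simp)
    rw [← h]
    ring
  let v : 𝓞 Qb := ⟨s * u, IsIntegral.of_pow k.succ_pos (e ▸ (s ^ k * t).isIntegral_coe)⟩
  have ev : v ^ (k + 1) = s ^ k * t := RingOfIntegers.ext e
  have hv : v ∉ P := fun m => (hP.mem_or_mem (ev ▸ P.pow_mem_of_mem m _ k.succ_pos)).elim
    (fun m => hs (hP.mem_of_pow_mem _ m)) ht
  have is' : i • s = s := RingOfIntegers.ext is
  have it' : i • t = t := RingOfIntegers.ext it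
  have := eq_of hP hq hv (hi v) (by rw [← smul_pow', ev, smul_mul', smul_pow', is', it'])
  have e2 : i (s * u) = s * u := congrArg (fun x : 𝓞 Qb => (x : Qb)) this
  rw [map_mul, is] at e2
  exact mul_left_cancel₀ (fun z => hs (by
    rw [show s = 0 from RingOfIntegers.ext z]; exact P.zero_mem)) e2

variable {A B : ℤ} {D : Cd A B}

theorem in_hm (C : D.Cf) {l : ℕ} {P : Ideal (𝓞 Qb)} {i : GQ} {m : D.O} (o : Ov l P)
    (hi : Inert P i) (k : i ∈ D.G) (m0 : m ≠ 0) (h : D.j m ∉ P) : i ∈ D.Hm m := by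
  have : IsDomain D.O := D.inj.isDomain D.j
  have := D.pid
  obtain ⟨π, p, q, -⟩ := C.bel l P o
  obtain ⟨ζ, u, a⟩ := C.mt π P 0 i ⟨p, o.2.1, q, k, fun x => by simpa using hi x⟩
  refine (C.hm m m0 _).2 ⟨ζ, u, ?_⟩
  simpa using a m m0 (p.coprime_iff_not_dvd.2 fun ⟨y, e⟩ =>
    h (by rw [e, map_mul]; exact P.mul_mem_right _ q)).symm

theorem one (C : D.Cf) {p n : ℕ} {m : D.O} (d : (p : D.O) ∣ m) (m0 : m ≠ 0) {F : Type} [Field F]
    [NumberField F] {jF : F →+* Qb} {S : Finset (Pm F)} {a : F} {r : Qb} (hm : D.Hm m ≤ GK jF)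
    (hS : Sp D m jF S) (a0 : a ≠ 0) (lo : ∀ w ∉ S, Lo (p ^ n) w a) (hr : r ^ p ^ n = jF a) {l : ℕ}
    {P : Ideal (𝓞 Qb)} {i : GQ} (o : Ov l P) (h : D.j m ∉ P) (hi : Inert P i) (k : i ∈ D.G) :
    i r = r := by
  have fx : ∀ x, i (jF x) = jF x := hm (in_hm C o hi k m0 h)
  have hP := o.2.1
  let w : Pm F := ⟨below jF P, Ideal.comap_isPrime _ _, fun e => by
    have : (l : 𝓞 F) ∈ below jF P := Ideal.mem_comap.2 (by rw [map_natCast]; exact o.2.2)
    rw [e, Ideal.mem_bot, Nat.cast_eq_zero] at this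
    exact o.1.ne_zero this⟩
  obtain ⟨t, x, y, hx, hy, e⟩ := lo w fun k => by
    obtain ⟨y, hy, e⟩ := (hS w).1 k
    exact h (by rw [← show RingOfIntegers.mapRingHom jF y = D.j m from RingOfIntegers.ext e]; exact hy)
  have x0 : (x : F) ≠ 0 := fun z => hx (by
    rw [show x = 0 from RingOfIntegers.ext z]; exact w.asIdeal.zero_mem)
  have t0 : jF t ^ p ^ n ≠ 0 := by
    rw [← map_pow, map_ne_zero]
    exact right_ne_zero_of_mul (e ▸ mul_ne_zero x0 a0)
  have hq : ((p ^ n : ℕ) : 𝓞 Qb) ∉ P := fun k => h (by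
    obtain ⟨z, rfl⟩ := d
    rw [Nat.cast_pow] at k
    rw [map_mul, map_natCast]
    exact P.mul_mem_right _ (hP.mem_of_pow_mem _ k))
  have t1 : jF t ≠ 0 := by
    rintro z
    rcases Nat.eq_zero_or_pos (p ^ n) with q | q
    · exact hq (by simp [q])
    · exact t0 (by rw [z, zero_pow q.ne'])
  have := core hP hi hq (s := RingOfIntegers.mapRingHom jF x) (t := RingOfIntegers.mapRingHom jF y)
    hx hy (fx _) (fx _) (u := r / jF t) (by
      rw [RingOfIntegers.mapRingHom_apply, RingOfIntegers.mapRingHom_apply, div_pow, hr,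
        ← mul_div_assoc, ← map_mul, e, map_mul, map_pow, mul_div_cancel_right₀ _ t0])
  rwa [map_div₀, fx, div_left_inj' t1] at this

end Unr

/-- **roots of local powers are not ramified** -/
theorem unr : UNR := by
  intro A B D C p n m _ d m0 F _ _ jF S a g r _ hm hS a0 lo hr l P i o h hi
  let φ := MulSemiringAction.toRingHom GQ (𝓞 Qb) g.1
  have mem : ∀ x, x ∈ P.comap φ ↔ g.1 • x ∈ P := fun _ => Iff.rfl
  have := o.2.1
  have k := Unr.one C d m0 hm hS a0 lo (r := g.1⁻¹ r) (P := P.comap φ) (i := g.1⁻¹ * i.1 * g.1)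
    (by rw [← map_pow, hr, ← AlgEquiv.mul_apply, inv_mul_cancel, AlgEquiv.one_apply])
    ⟨o.1, Ideal.comap_isPrime _ _, Ideal.mem_comap.2 (by rw [map_natCast]; exact o.2.2)⟩
    (by rwa [mem, C.fix g g.2]) (fun x => by
      rw [mem, smul_sub, mul_smul, mul_smul, smul_inv_smul]
      exact hi _) (mul_mem (mul_mem (inv_mem g.2) i.2) g.2)
  rw [← AlgEquiv.mul_apply, mul_inv_cancel_right, AlgEquiv.mul_apply] at k
  exact g.1⁻¹.injective k

end Vale.Agent.P014X.Ac
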