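import Vale.Agent.P014X.Ac.St2
import Vale.Agent.P014X.Ac.Ix

/-! # P014X, the anchor: the count of the singular pairs -/

set_option autoImplicit false
set_option linter.all false

open Function AddSubgroup

noncomputable section

namespace Vale.Agent.P014X.Ac

namespace Wcq

theorem eqm {A : Type} [AddCommGroup A] {S : AddSubgroup A} {a b : A} (h : a ∈ S) (e : b = a) :
    b ∈ S := e ▸ h

/-- the elements killed by a large power of `p` -/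
theorem syl {A : Type} [AddCommGroup A] {p e : ℕ} (hp : p.Prime) {R B : AddSubgroup A} (le : R ≤ B)
    (n0 : R.relIndex B ≠ 0) (he : padicValNat p (R.relIndex B) ≤ e) :
    p ^ padicValNat p (R.relIndex B) ≤ R.relIndex (B ⊓ R.comap (nsmulAddMonoidHom (p ^ e))) := by
  have := Fact.mk hp
  set T := B ⊓ R.comap (nsmulAddMonoidHom (p ^ e))
  have e1 := relIndex_mul_relIndex R T B (le_inf le fun x h => nsmul_mem h _) inf_le_left
  obtain ⟨o, ho⟩ : p ^ padicValNat p (R.relIndex B) ∣ R.relIndex B := pow_padicValNat_dvd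
  have nd : ¬ p ∣ o := fun ⟨c, d⟩ => pow_succ_padicValNat_not_dvd n0
    ⟨c, by rw [pow_succ, mul_assoc, ← d, ← ho]⟩
  obtain ⟨u, rfl⟩ := Nat.exists_eq_add_of_le he
  have k := not_dvd hp nd (R := T) (P := B) (fun x h => ⟨nsmul_mem h _, by
    show p ^ (_ + u) • o • x ∈ R
    rw [← mul_nsmul', pow_add, mul_right_comm, ← ho, mul_nsmul]
    exact nsmul_mem (R.nsmul_relIndex_mem h) _⟩) (right_ne_zero_of_mul (e1 ▸ n0))
  refine Nat.le_of_dvd (Nat.pos_of_ne_zero (left_ne_zero_of_mul (e1 ▸ n0)))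
    ((((hp.coprime_iff_not_dvd).2 k).pow_left _).dvd_of_dvd_mul_right ?_)
  rw [e1]
  exact pow_padicValNat_dvd

variable {M I Q : Type} [AddCommGroup M] [AddCommGroup I] [AddCommGroup Q] {Y : Ro M I Q}
  {q p e κ : ℕ}

theorem mem_R {X : Dp M I} {z : M × I} : z ∈ X.R ⊤ ⊤ ↔ ∃ x, X.N x = z.1 ∧ z.2 - X.d x ∈ X.J := by
  constructor
  · intro h
    obtain ⟨_, ⟨x, -, rfl⟩, ⟨a, b⟩, ⟨h1, -, h2⟩, rfl⟩ := mem_sup.1 h
    obtain rfl : a = 0 := h1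
    exact ⟨x, (add_zero _).symm, eqm h2 (add_sub_cancel_left _ _)⟩
  · rintro ⟨x, h1, h2⟩
    refine mem_sup.2 ⟨_, ⟨x, trivial, rfl⟩, (0, z.2 - X.d x), ⟨rfl, trivial, h2⟩, ?_⟩
    exact Prod.ext ((add_zero _).trans h1) (add_sub_cancel _ _)

variable (Y q) in
/-- roots with their data -/
def V : AddSubgroup ((Q × M) × M × I) where
  carrier := {v | q • v.1.1 = Y.j v.1.2 ∧ Y.N v.1.1 = Y.j v.2.1 ∧ v.2.1 ∈ Y.M0 ∧
    q • v.2.2 - Y.X.d v.1.2 ∈ Y.X.J}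
  zero_mem' := ⟨by simp, by simp, zero_mem _, by simp⟩
  add_mem' {v w} a b := ⟨by simp [a.1, b.1], by simp [a.2.1, b.2.1], add_mem a.2.2.1 b.2.2.1,
    eqm (add_mem a.2.2.2 b.2.2.2) (by simp only [Prod.fst_add, Prod.snd_add, nsmul_add, map_add]; abel)⟩
  neg_mem' {v} a := ⟨by simp [a.1], by simp [a.2.1], neg_mem a.2.2.1,
    eqm (neg_mem a.2.2.2) (by simp only [Prod.fst_neg, Prod.snd_neg, neg_nsmul, map_neg]; abel)⟩

variable (Y) in
/-- the root -/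
abbrev fa : (Q × M) × M × I →+ Q := Y.n.comp ((AddMonoidHom.fst _ _).comp (AddMonoidHom.fst _ _))

variable (Y) in
/-- the pair -/
abbrev fb : (Q × M) × M × I →+ M × I := (Y.m.prodMap Y.m').comp (AddMonoidHom.snd _ _)

theorem VW : (V Y q).map (fa Y) ≤ (Y.RR q).map Y.n := by
  rintro _ ⟨v, ⟨h1, h2, h3, h4⟩, rfl⟩
  refine ⟨v.1.1, ⟨⟨v.1.2, ?_, h1.symm⟩, v.2.1, h3, h2.symm⟩, rfl⟩
  exact mem_sup.2 ⟨_, neg_mem h4, _, ⟨v.2.2, rfl⟩, by rw [neg_sub]; exact sub_add_cancel _ _⟩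

theorem unit : (Y.R0 q Y.X.U).map Y.n ≤ ((Y.X.R ⊤ ⊤).comap (fb Y) ⊓ V Y q).map (fa Y) := by
  rintro _ ⟨r, ⟨⟨u, ⟨h1, -⟩, h2⟩, h3⟩, rfl⟩
  replace h1 : Y.X.d u = 0 := h1
  refine ⟨((r, u), 0), ⟨?_, h2.symm, h3.trans (map_zero _).symm, zero_mem _, by simp [h1]⟩, rfl⟩
  exact show Y.m.prodMap Y.m' 0 ∈ Y.X.R ⊤ ⊤ from (map_zero (Y.m.prodMap Y.m')).symm ▸ zero_mem _

variable (o : Y.Ok q p e κ)
include o

theorem tfq {x : I} (h : q • x ∈ Y.X.J) : x ∈ Y.X.J := by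
  rw [o.hq] at h
  generalize e = n at h
  induction n generalizing x with
  | zero => rwa [pow_zero, one_nsmul] at h
  | succ n ih => exact ih (o.tf _ (by rwa [pow_succ, mul_nsmul] at h))

theorem ker {v : (Q × M) × M × I} (h : v ∈ V Y q) (a : fa Y v ∈ Y.j.range) :
    fb Y v ∈ Y.X.R ⊤ ⊤ := by
  obtain ⟨h1, h2, -, h4⟩ := h
  obtain ⟨t, a⟩ := a
  replace a : Y.j t = Y.n v.1.1 := a
  refine mem_R.2 ⟨t, o.inj ?_, tfq o ?_⟩
  · rw [← o.jN, a, ← o.nN, h2, o.jm]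
    rfl
  · have c : q • t = Y.m v.1.2 := o.inj (by rw [map_nsmul, a, ← map_nsmul, h1, o.jm])
    refine eqm (o.mJ _ h4) ?_
    rw [nsmul_sub, ← map_nsmul Y.X.d, c, o.dm, map_sub, map_nsmul]
    rfl

theorem onto : ((Y.X.P Y.M0 ⊤).map (Y.m.prodMap Y.m') ⊔ Y.X.R ⊤ ⊤) ⊓
    (Y.X.R ⊤ ⊤).comap (nsmulAddMonoidHom q) ≤ (V Y q).map (fb Y) ⊔ Y.X.R ⊤ ⊤ := by
  rintro _ ⟨h1, h2⟩
  obtain ⟨_, ⟨z, hz, rfl⟩, r, hr, rfl⟩ := mem_sup.1 h1
  refine add_mem ?_ (mem_sup_right hr)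
  replace h2 : q • (Y.m.prodMap Y.m' z + r) ∈ Y.X.R ⊤ ⊤ := h2
  rw [nsmul_add, AddSubgroup.add_mem_cancel_right _ (nsmul_mem hr q)] at h2
  obtain ⟨x, e1, e2⟩ := mem_R.1 h2
  obtain ⟨s, s1, s2⟩ := o.rt x _ (o.m0 _ hz.1.1) e1
  have a : κ • Y.m.prodMap Y.m' z ∈ (V Y q).map (fb Y) :=
    ⟨((s, x), Y.m.prodMap Y.m' z), ⟨s1, s2, o.m0 _ hz.1.1, e2⟩, Prod.ext (o.inj (by
      show Y.j (Y.m (Y.m z.1)) = Y.j (κ • Y.m z.1)
      rw [map_nsmul, ← o.jm, ← o.jm, o.nn])) (o.mm _)⟩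
  obtain ⟨c, d, k⟩ : IsCoprime (κ : ℤ) q := Nat.isCoprime_iff_coprime.2
    (o.hq ▸ ((o.pr.coprime_iff_not_dvd.2 o.cop).symm.pow_right e))
  rw [← one_zsmul (Y.m.prodMap Y.m' z), ← k, add_zsmul, mul_zsmul, mul_zsmul, natCast_zsmul,
    natCast_zsmul]
  exact add_mem (mem_sup_left (zsmul_mem a c)) (mem_sup_right (zsmul_mem h2 d))

end Wcq

open Wcq

/-- **row WCQ** -/
theorem wcq : WCQ := by
  intro M I Q _ _ _ Y q p e κ o hb he hW
  have s := syl o.pr le_sup_right hb he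
  rw [← o.hq] at s
  set A := Y.j.range.comap (fa Y)
  set K := (Y.X.R ⊤ ⊤).comap (fb Y)
  have le : A.relIndex (V Y q) ≤ Y.ix (Y.RR q) := by
    rw [relIndex_comap]
    exact relIndex_le_of_le_right VW hW
  have ne : A.relIndex (V Y q) ≠ 0 := by
    rw [relIndex_comap]
    exact fun e => hW (relIndex_eq_zero_of_le_right VW e)
  have c := relIndex_mul_relIndex (A ⊓ V Y q) (K ⊓ V Y q) (V Y q)
    (fun v h => ⟨ker o h.2 h.1, h.2⟩) inf_le_right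
  rw [inf_relIndex_right, inf_relIndex_right, ← inf_relIndex_right (A ⊓ V Y q), inf_assoc,
    inf_eq_right.2 (inf_le_right : K ⊓ V Y q ≤ V Y q), inf_relIndex_right] at c
  rw [← c] at le ne
  refine le_trans (Nat.mul_le_mul ?_ (s.trans ?_)) le
  · have := left_ne_zero_of_mul ne
    rw [relIndex_comap] at this ⊢
    exact relIndex_le_of_le_right unit this
  · have := right_ne_zero_of_mul ne
    rw [relIndex_comap, ← relIndex_sup_right] at this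
    rw [relIndex_comap, ← relIndex_sup_right (map _ (V Y q))]
    exact relIndex_le_of_le_right (onto o) this

end Vale.Agent.P014X.Ac
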