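import Vale.Agent.P014X.Ac.St2
import Vale.Agent.P014X.Ac.Ix

/-! # P014X, the anchor: the roots of the elliptic units -/

set_option autoImplicit false
set_option linter.all false

namespace Vale.Agent.P014X.Ac

open AddSubgroup

namespace Zq0

variable {M I Q : Type} [AddCommGroup M] [AddCommGroup I] [AddCommGroup Q] {Y : Ro M I Q}
  {q p e κ : ℕ}

theorem mem_R0 {K : AddSubgroup M} {r : Q} :
    r ∈ Y.R0 q K ↔ (∃ x ∈ K, Y.j x = q • r) ∧ Y.N r = 0 := Iff.rfl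

/-- a quotient which is killed by a power of `p` -/
theorem le_pow {A : Type} [AddCommGroup A] (hp : p.Prime) {R P : AddSubgroup A}
    (h : ∀ x ∈ P, p ^ e • x ∈ R) {n : ℕ} (n0 : n ≠ 0) (d : R.relIndex P ∣ n) :
    R.relIndex P ∣ p ^ padicValNat p n := by
  have := Fact.mk hp
  have t0 := ne_zero_of_dvd_ne_zero n0 d
  have k := Nat.eq_prime_pow_of_unique_prime_dvd (p := p) t0 fun {l} hl k => by_contra fun ne =>
    not_dvd hl (fun t => ne ((Nat.prime_dvd_prime_iff_eq hl hp).1 (hl.dvd_of_dvd_pow t))) h t0 k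
  rw [k] at d ⊢
  exact pow_dvd_pow _ ((padicValNat_dvd_iff_le n0).1 d)

/-- torsion elements of the image of `n` -/
theorem tor (h : Y.Ok q p e κ) {r : Q} (h1 : q • Y.n r = 0) : ∃ c : ℤ, Y.n (c • Y.n r) = Y.n r := by
  have c : IsCoprime (κ : ℤ) q := Nat.isCoprime_iff_coprime.2
    (h.hq ▸ ((h.pr.coprime_iff_not_dvd.2 h.cop).symm.pow_right e))
  obtain ⟨a, b, k⟩ := c
  refine ⟨a, ?_⟩
  rw [map_zsmul, h.nn, ← natCast_zsmul, ← mul_smul, eq_sub_of_add_eq k, sub_smul, one_smul, mul_smul,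
    natCast_zsmul, h1, smul_zero, sub_zero]

theorem ker (h : Y.Ok q p e κ) {C : AddSubgroup M} (hC : C ≤ Y.X.U) :
    ((C.map Y.m).map Y.j).comap (nsmulAddMonoidHom q) ⊓ (Y.R0 q Y.X.U).map Y.n ≤
      (Y.R0 q C).map Y.n := by
  rintro _ ⟨⟨_, ⟨c, hc, rfl⟩, k⟩, r, hr, rfl⟩
  obtain ⟨s, s1, s2⟩ := h.rt c 0 (zero_mem _) (by rw [smul_zero]; exact (hC hc).2)
  have k : Y.j (Y.m c) = q • Y.n r := k
  have t : q • Y.n (r - s) = 0 := by rw [map_sub, smul_sub, ← k, ← map_nsmul, s1, h.jm, sub_self]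
  obtain ⟨a, ha⟩ := tor h t
  refine ⟨s + a • Y.n (r - s), add_mem (mem_R0.2 ⟨⟨c, hc, s1.symm⟩, by rw [s2, map_zero]⟩)
    (zsmul_mem (mem_R0.2 ⟨⟨0, zero_mem _, by rw [t, map_zero]⟩, ?_⟩) _), ?_⟩
  · rw [← h.nN, map_sub, (mem_R0.1 hr).2, s2, map_zero, sub_zero, map_zero]
  · rw [map_add, ha, map_sub, add_sub_cancel]

end Zq0

open Zq0

theorem zcq : ZCQ := by
  intro M I Q _ _ _ Y q p e κ C h hC i0 _
  set A := (Y.R0 q Y.X.U).map Y.n
  set B := (Y.R0 q C).map Y.n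
  have le : B ≤ A := map_mono (inf_le_inf_right _ (comap_mono (map_mono hC)))
  have a : ∀ x ∈ A, q • x ∈ (Y.X.U.map Y.m).map Y.j := by
    rintro _ ⟨r, hr, rfl⟩
    obtain ⟨⟨x, hx, k⟩, -⟩ := mem_R0.1 hr
    exact ⟨_, ⟨x, hx, rfl⟩, by rw [← h.jm, k, map_nsmul]⟩
  have d : (B ⊔ Y.j.range ⊓ A).relIndex A ∣ Y.X.im C Y.m := by
    refine (relIndex_dvd_of_le_left _ ((ker h hC).trans le_sup_left)).trans ?_
    rw [inf_relIndex_right, relIndex_comap, Dp.im, ← relIndex_map_map_of_injective _ _ h.inj]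
    exact dvd_right _ (map_le_iff_le_comap.2 a)
  have t := le_pow (e := e) h.pr (fun x k => mem_sup_right (mem_inf.2
    ⟨map_le_range _ _ (h.hq ▸ a x k), nsmul_mem k _⟩)) i0 d
  have s := relIndex_mul_relIndex (Y.j.range ⊓ A) (B ⊔ Y.j.range ⊓ A) A le_sup_right
    (sup_le le inf_le_right)
  rw [relIndex_sup_right, inf_relIndex_right, ← inf_relIndex_right (_ ⊓ A) B, inf_assoc,
    inf_eq_right.2 le, inf_relIndex_right] at s
  exact s.ge.trans (Nat.mul_le_mul_left _ (Nat.le_of_dvd (pow_pos h.pr.pos _) t))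

end Vale.Agent.P014X.Ac
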