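import Vale.Agent.P014X.An.All
import Vale.Agent.P014X.Ac.Top
import Vale.Agent.P014X.Ac.Fl5
import Vale.Agent.P014X.Ac.Pkf
import Vale.Agent.P014X.Ac.Beq
import Vale.Agent.P014X.Ac.Mi1
import Vale.Agent.P014X.Ac.Mi2
import Vale.Agent.P014X.Ac.Exf
import Vale.Agent.P014X.Ac.Jsf
import Vale.Agent.P014X.Ac.Nrm
import Vale.Agent.P014X.Ac.Trp
import Vale.Agent.P014X.Ac.Ky0
import Vale.Agent.P014X.Ac.Ky1
import Vale.Agent.P014X.Ac.Fos
import Vale.Agent.P014X.Ac.H90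
import Vale.Agent.P014X.Ac.Ker
import Vale.Agent.P014X.Ac.Sp1
import Vale.Agent.P014X.Ac.Sp2
import Vale.Agent.P014X.Ac.Set
import Vale.Agent.P014X.Ac.Smv
import Vale.Agent.P014X.Ac.Unr
import Vale.Agent.P014X.Ac.Wcq
import Vale.Agent.P014X.Ac.Zcq
import Vale.Agent.P014X.Ac.Rkq
import Vale.Agent.P014X.Ac.Eps

/-! # P014X: the anchor -/

namespace Vale.Agent.P014X.Ac

theorem fld0 : FLD :=
  fld5 fos An.gal jsf exf (pkf An.idx0 An.gal (An.loc An.gal) exf jsf nrm (trp exf jsf nrm) (ky0 beq)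
    (ky1 beq mi1 mi2 mi3)) (roo h90) eps unr wcq zcq rkq

theorem anc_all [P014U.Pp] : P014X.ANC :=
  anc2 raw fld0 cnt set (wgt h90) (co1 h90) (co2 Fm.ind (co1 h90)) (ker h90) (sp1 h90) sp2 smv

end Vale.Agent.P014X.Ac
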