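import Vale.Agent.P014X.Ac.St2
import Vale.Agent.P014X.Ac.Zw
import Vale.Agent.P014X.Fm.Pz0
import Vale.Agent.P014X.Fm.Ind

/-! # P014X, the anchor: the classes of the roots -/

set_option autoImplicit false
set_option linter.all false

open NumberField Finset
open scoped Classical

noncomputable section

namespace Vale.Agent.P014X.Ac

open Vale.Agent.P022 (Qb GQ)
open Vale.Agent.P027M.S (Inert)
open Vale.Agent.P022E.GW (Ov)
open Vale.Agent.P014U
open Vale.Agent.P014U.Dr (Zn)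
open Vale.Agent.P014U.Pp (ec)
open Zs (Z Rf q)

section

variable {A B : ℤ} {D : Cd A B} {X : Type} [MulAction D.G X] {H H' : Subgroup GQ} {x₀ : X}
  {sec : X → D.G} {r r' : QQ X}

theorem vq_add (r r' : QQ X) : vq (r + r') = vq r * vq r' := rfl

theorem vq_ne (r : QQ X) (y : X) : vq r y ≠ 0 := Units.ne_zero _

theorem vq_nsmul (n : ℕ) (r : QQ X) (y : X) : vq (n • r) y = vq r y ^ n := by simp [vq]

theorem vq_T (h : D.G) (r : QQ X) (y : X) : vq (Tq D h r) y = vq r (h • y) := rfl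

theorem vq_N (p : ℕ) (σ : D.G) (r : QQ X) (y : X) :
    vq (Nq D p σ r) y = ∏ i ∈ range p, vq r (σ ^ i • y) := by
  simp only [vq, Nq, AddMonoidHom.finset_sum_apply, toMul_sum, Finset.prod_apply, Units.coe_prod]
  rfl

namespace Gs

variable (G : Gs D H x₀ sec)
include G

theorem fix (g : D.G) (y : X) : g • y = y ↔ g.1 ∈ H := by
  rw [← G.sec y, G.com, smul_left_cancel_iff, G.st]

theorem ch_sec {M : Type} [Monoid M] {f : D.G →* M} (h : ∀ g : D.G, g.1 ∈ H → f g = 1) (g : D.G)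
    (y : X) : f (sec (g • y)) = f g * f (sec y) := by
  have := h ((g * sec y)⁻¹ * sec (g • y)) ((G.st _).1 (by
    rw [mul_smul, G.sec, inv_smul_eq_iff, mul_smul, G.sec]))
  rw [← map_mul, ← mul_inv_cancel_left (g * sec y) (sec (g • y)), map_mul _ (g * sec y), this, mul_one]

theorem free {p k : ℕ} {m : D.O} {γ : D.G} (hp : p.Prime) (Q : Qv D p k m H H' γ) (i : ℕ) (y : X) :
    (γ ^ p ^ k) ^ i • y = y ↔ p ∣ i := by
  have d : MulAction.period (γ ^ p ^ k) y ∣ p := MulAction.pow_smul_eq_iff_period_dvd.1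
    ((G.fix _ y).2 (by rw [← pow_mul, ← pow_succ]; exact Q.gp))
  rw [MulAction.pow_smul_eq_iff_period_dvd, ((Nat.dvd_prime hp).1 d).resolve_left fun e =>
    Q.g1 ((G.fix _ y).1 (MulAction.period_eq_one_iff.1 e))]

theorem T_F (h : D.G) (m : r ∈ Fq D X) : Tq D h r ∈ Fq D X := fun g y =>
  (m g (h • y)).trans (congrArg (vq r) (G.com g h y))

theorem T_N (p : ℕ) (σ h : D.G) (r : QQ X) : Nq D p σ (Tq D h r) = Tq D h (Nq D p σ r) :=
  Additive.toMul.injective <| funext fun y => Units.ext <| by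
    change vq _ y = vq (Nq D p σ r) (h • y)
    simp only [vq_N, vq_T, G.com h]

theorem T_A {n p : ℕ} {σ : D.G} (h : D.G) (m : r ∈ Aq D X n p σ) : Tq D h r ∈ Aq D X n p σ :=
  ⟨show n • Tq D h r ∈ Fq D X from map_nsmul (Tq D h) n r ▸ G.T_F h m.1,
    show Nq D p σ _ ∈ Fq D X from G.T_N p σ h r ▸ G.T_F h m.2⟩

theorem n_A {n p : ℕ} {σ : D.G} (e : ℕ) (ι : D.G) (m : r ∈ Aq D X n p σ) :
    nq D e ι r ∈ Aq D X n p σ := sub_mem m (nsmul_mem (G.T_A ι m) e)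

end Gs

theorem n_I {m : D.O} (e : ℕ) (ι : D.G) (h : r ∈ Iq D X m) : nq D e ι r ∈ Iq D X m :=
  sub_mem h (nsmul_mem (show Tq D ι r ∈ Iq D X m from fun l P i o n t y => h l P i o n t (ι • y)) e)

variable [Pp] {n : ℕ} {σ : D.G} {R : Type} [CommRing R] (ι : Zn n →+* R)

theorem rf_of (m : r ∈ Aq D X (pp ^ n) pp σ) : Rf D n (vq (pp ^ n • r)) (vq r) :=
  ⟨vq_ne _, m.1, fun y => (vq_nsmul _ r y).symm⟩

variable [Fintype X]

/-- the quotients have norm one -/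
theorem nq_q (G : Gs D H x₀ sec) (m : r ∈ Aq D X (pp ^ n) pp σ) (g : D.G) (y : X) :
    ∏ i ∈ range pp, q D (vq r) g (σ ^ i • y) = 1 := by
  rw [← Zs.q_eqv (vq_ne _) m.2 g y]
  simp only [q, vq_N, map_prod, prod_div_distrib, G.com g⁻¹]

theorem sum_sig (h90 : H90) (fr : ∀ (i : ℕ) (y : X), σ ^ i • y = y ↔ pp ∣ i) {f : X → Qb}
    (h : ∀ y, f y ^ pp ^ n = 1) (k : ∀ y, ∏ i ∈ range pp, f (σ ^ i • y) = 1) {c : X → R}
    (hc : ∀ y, c (σ • y) = c y) : ∑ y, c y * ι (Zs.dl n (f y)) = 0 := by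
  obtain ⟨d, e⟩ := (h90 D.G X (Zn n) pp σ pp_pos.ne' fr).1 (fun y => Zs.dl n (f y)) fun y => by
    rw [← Zs.dl_prod _ fun i => h _, k, Zs.dl_one]
  simp only [e, map_sub, mul_sub, sum_sub_distrib]
  rw [← Equiv.sum_comp (MulAction.toPerm σ) fun y => c y * ι (d y)]
  simp only [MulAction.toPerm_apply, hc, sub_self]

theorem sum_act (h90 : H90) (fr : ∀ (i : ℕ) (y : X), σ ^ i • y = y ↔ pp ∣ i) {χ : D.G →* R}
    {w : X → R} {g : D.G} (hw : ∀ y, w (g • σ • y) - χ g * w (σ • y) = w (g • y) - χ g * w y)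
    {f : X → Qb} (h : ∀ y, f y ^ pp ^ n = 1) (k : ∀ y, ∏ i ∈ range pp, f (σ ^ i • y) = 1) :
    ∑ y, w y * ι (Zs.dl n (g.1 (f (g⁻¹ • y)))) = D.ak ι χ g * ∑ y, w y * ι (Zs.dl n (f y)) := by
  rw [mul_sum, ← Equiv.sum_comp (MulAction.toPerm g), ← add_zero (∑ x, D.ak ι χ g * _),
    ← sum_sig ι h90 fr h k (c := fun y => ι (ec n g) * (w (g • y) - χ g * w y)) fun y => by rw [hw],
    ← sum_add_distrib]
  refine sum_congr rfl fun x _ => ?_
  simp only [MulAction.toPerm_apply, inv_smul_smul, Zs.dl_gal (h x), map_mul, Zs.ak_apply]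
  ring

theorem z_coc (h90 : H90) (G : Gs D H x₀ sec) (fr : ∀ (i : ℕ) (y : X), σ ^ i • y = y ↔ pp ∣ i)
    {χ : D.G →* R} {w : X → R}
    (hw : ∀ (g : D.G) y, w (g • σ • y) - χ g * w (σ • y) = w (g • y) - χ g * w y)
    (m : r ∈ Aq D X (pp ^ n) pp σ) (g k : D.G) :
    Z D ι w (vq r) (g * k) = Z D ι w (vq r) g + D.ak ι χ g * Z D ι w (vq r) k := by
  have h := rf_of m
  rw [Z, Z, Z, ← sum_act ι h90 fr (hw g) (h.q_pow k) (nq_q G m k), ← sum_add_distrib]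
  refine sum_congr rfl fun x _ => ?_
  rw [← mul_add, ← map_add, ← Zs.dl_mul (h.q_pow g x) (by rw [← map_pow, h.q_pow, map_one])]
  congr 3
  have := (map_ne_zero g.1).2 (h.ne' (g⁻¹ • x))
  simp only [q, mul_inv_rev, mul_smul, Subgroup.coe_mul, AlgEquiv.mul_apply, map_div₀]
  field_simp

end

variable [Pp]

section

variable {A B : ℤ} {D : Cd A B} {k : ℕ} {C : Cr k} {a b : ℤ} {M : ℕ} {x : D.An C a b M}
  {n' e : ℕ} {γ ι : D.G} {X : Type} [Fintype X] [MulAction D.G X] {x₀ : X} {sec : X → D.G}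
  {w : X → C.O} {f : D.G →* Qa a b C.O}

theorem kg_f {K : Finset (D.G →* Qa a b C.O)} {t : ℕ} (m : f ∈ K) (g : D.G) (h : g.1 ∈ Kg x K t) :
    f g = 1 := by
  obtain ⟨g', h, e⟩ := h
  obtain rfl : g' = g := Subtype.ext e
  exact Subgroup.mem_iInf.1 (Subgroup.mem_iInf.1 h.1 f) m

theorem kg_x {K : Finset (D.G →* Qa a b C.O)} (g : D.G) (h : g.1 ∈ Kg x K 1) : x.ξ₁ g = 1 := by
  obtain ⟨g', h, e⟩ := h
  obtain rfl : g' = g := Subtype.ext e
  simpa using h.2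

/-- the defect of the weights is invariant -/
theorem wt_sig (S : Su x n' e γ ι) (F : Fr x γ x₀ sec w) (m : f ∈ x.I) (g : D.G) (y : X) :
    w (g • (γ ^ pp ^ k) • y) • (x.lam * f (sec (g • (γ ^ pp ^ k) • y))) -
      (f * x.ξ) g * w ((γ ^ pp ^ k) • y) • (x.lam * f (sec ((γ ^ pp ^ k) • y))) =
    w (g • y) • (x.lam * f (sec (g • y))) - (f * x.ξ) g * w y • (x.lam * f (sec y)) := by
  have c := F.gs.ch_sec (kg_f m)
  have e1 := F.wt ((γ ^ pp ^ k) • y)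
  have e2 := F.wt (g • (γ ^ pp ^ k) • y)
  rw [F.gs.com, inv_smul_smul] at e2
  rw [inv_smul_smul] at e1
  rw [F.gs.ch_sec kg_x, ← e1] at e2
  have l := x.lx g
  simp only [c, map_pow, S.gf f m, one_pow, one_mul, MonoidHom.mul_apply, Algebra.smul_def] at l ⊢
  have e3 := congrArg (algebraMap C.O (Qa a b C.O)) e2
  simp only [map_sub, map_mul] at e3
  linear_combination -(x.lam * f g * f (sec y)) * e3 + f g * f (sec y) *
    (algebraMap C.O _ (w y) - algebraMap C.O _ (w ((γ ^ pp ^ k) • y))) * l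

theorem Su.opn (cf : D.Cf) (S : Su x n' e γ ι) : IsOpen (Kg x x.I 1 : Set GQ) :=
  Subgroup.isOpen_mono S.qv.hm (Ev.hm_op cf (Pz0.mp_ne S.ne))

end

/-- **the classes are additive cocycles** -/
theorem co1 (h90 : H90) : CO1 := fun A B D cf M k C a b x n' e γ ι S X _ _ x₀ sec w F n f m r hr => by
  refine ⟨⟨z_coc _ h90 F.gs (F.gs.free pp_prime S.qv) (fun g y => ?_) hr,
    Zs.Z_lc _ (vq_ne r) (S.opn cf) fun g h y => (F.gs.fix g y).2 h⟩, fun r' hr' => ?_⟩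
  · have := congrArg (qm a b (C.rd n)) (wt_sig S F m g y)
    rw [map_sub, map_sub, map_mul, map_mul] at this
    exact this
  · have e : yf x n sec w f (r + r') = yf x n sec w f r + yf x n sec w f r' :=
      Zs.Z_mul _ (rf_of hr) (rf_of hr')
    refine ⟨e, funext fun g => ?_⟩
    have t (g) : vc (D.tc (yf x n sec w f (r + r')) g) =
        vc (D.tc (yf x n sec w f r) g) + vc (D.tc (yf x n sec w f r') g) := by
      rw [← Fm.Ind.vc_add, e, Cd.tc, Cd.tc, Cd.tc, Pi.add_apply, Pi.add_apply, star_add, add_add_add_comm]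
    obtain ⟨g, rfl⟩ | ⟨g, rfl⟩ := Fm.Ind.cases cf g
    · simp only [ps, Pi.add_apply, Fm.Ind.xt_G, t]
    · simp only [ps, Pi.add_apply, Fm.Ind.xt_c cf, t]

/-- **the classes are not ramified** -/
theorem co2 (ind : IND) (co1 : CO1) : CO2 :=
  fun A B D N M cf fm k C a b x n' e γ ι S X _ _ x₀ sec w F n f m => by
    have j : D.Cj (f * x.ξ) := fun g => by
      rw [MonoidHom.mul_apply, MonoidHom.mul_apply, x.cj f m, x.cx, star_mul']
    have I := ind A B D cf a b _ _ (Pz0.cj_aq cf (Pz0.cj_map j (C.rd n)) (C.io n))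
    refine ⟨I.1, ?_⟩
    rintro ρ hρ _ ⟨r, ⟨h1, h2⟩, rfl⟩
    refine I.2 ρ _ _ hρ (co1 A B D cf M k C a b x n' e γ ι S X x₀ sec w F n f m _ (F.gs.n_A e ι h1)).1
      fun l P i o d t => ?_
    obtain ⟨i1, l2, i2⟩ := Pz0.out cf fm o d t
    refine ⟨i1, Zs.Z_zero _ (vq_ne _) (fun y => (F.gs.fix ⟨i, i1⟩ y).2 (S.qv.hm (i2 n')))
      (n_I e ι h2 l P ⟨i, i1⟩ o (fun z => ?_) t)⟩
    rw [Finset.mem_insert, not_or, Nat.mem_primeFactors_of_ne_zero fm.ne, and_iff_right o.1] at d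
    obtain ⟨u, v, c⟩ := ((o.1.coprime_iff_not_dvd.2 d.2).mul_right
      (((Nat.coprime_primes o.1 pp_prime).2 d.1).pow_right n')).cast (R := 𝓞 Qb)
    rw [map_natCast] at z
    exact o.2.1.ne_top ((Ideal.eq_top_iff_one _).2
      (c ▸ add_mem (P.mul_mem_left _ o.2.2) (P.mul_mem_left _ z)))

end Vale.Agent.P014X.Ac
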