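import Vale.Agent.P014X.Ac.St2

/-! # P014X, anchor: four fields -/

set_option autoImplicit false
set_option linter.all false

open NumberField NumberField.Units Function Finset
open scoped Classical

noncomputable section

namespace Vale.Agent.P014X.Ac

open An (Pm nU iU vU)

namespace Fld

variable {F F₀ F₁ F₂ : Type} [Field F] [NumberField F] [Field F₀] [NumberField F₀] [Field F₁]
  [NumberField F₁] [Field F₂] [NumberField F₂]

variable (F) in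
/-- the action on numbers -/
def aM : (F ≃+* F) →* AddMonoid.End (AM F) where
  toFun s := am s.toRingHom
  map_one' := rfl
  map_mul' _ _ := rfl

variable (F) in
/-- the action on divisors -/
def aI (e : EXF) : (F ≃+* F) →* AddMonoid.End (AI F) where
  toFun s := ai s.toRingHom
  map_one' := AddMonoidHom.ext (e.2 F).1
  map_mul' s t := AddMonoidHom.ext (e.1 F F F t.toRingHom s.toRingHom).1

theorem nr_ap {M : Type} [AddCommGroup M] (a : (F ≃+* F) →* AddMonoid.End M) (p : ℕ) (s : F ≃+* F) :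
    nr p 0 (a s) = ∑ i ∈ range p, a (s ^ i) := by simp only [nr, ← map_pow, pow_zero, one_mul]

theorem mem_am {φ : F₀ →+* F} {x : AM F} : x ∈ (am φ).range ↔ (x.toMul : F) ∈ φ.range :=
  ⟨fun ⟨y, e⟩ => ⟨_, congrArg (fun z : AM F => (z.toMul : F)) e⟩, fun ⟨y, e⟩ =>
    ⟨.ofMul (Units.mk0 y fun k => x.toMul.ne_zero (by rw [← e, k, map_zero])), Units.ext e⟩⟩

theorem fx_am {s : F ≃+* F} {x : AM F} : s (x.toMul : F) = x.toMul ↔ aM F s x = x :=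
  ⟨fun h => Units.ext h, congrArg fun z : AM F => (z.toMul : F)⟩

theorem pw_res {φ : F₀ →+* F} {s : F ≃+* F} {s' : F₀ ≃+* F₀} (h : ∀ x, φ (s' x) = s (φ x)) (i : ℕ) :
    φ.comp (s' ^ i).toRingHom = (s ^ i).toRingHom.comp φ := RingHom.ext fun x => by
  induction i with
  | zero => rfl
  | succ i e =>
    rw [pow_succ', pow_succ']
    exact (h _).trans (congrArg s e)

theorem fx_eq [Algebra F₀ F] {n : ℕ} {s : F ≃+* F} (c : Cc n F₀ s) :
    fxM s = (am (algebraMap F₀ F)).range :=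
  AddSubgroup.ext fun _ => fx_am.symm.trans ((c.fix _).trans mem_am.symm)

variable (exf : EXF) (jsf : JSF) {p : ℕ} {s : F ≃+* F} {S : Finset (Pm F)}
include exf

theorem da (u : F ≃+* F) (x : AM F) : ad F (aM F u x) = aI F exf u (ad F x) :=
  ((exf.1 F F F _ (.id F)).2.1 x).symm

theorem cm (x : AM F) : (dp p s S).d ((dp p s S).N x) = (dp p s S).N' ((dp p s S).d x) :=
  (congrArg (ad F) (AddMonoidHom.finset_sum_apply ..)).trans ((map_sum ..).trans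
    ((sum_congr rfl fun i _ => da exf _ x).trans (AddMonoidHom.finset_sum_apply ..).symm))

include jsf

theorem NJ (a : Ab s.toRingHom S S) : ∀ x ∈ (dp p s S).J, (dp p s S).N' x ∈ (dp p s S).J := by
  have k (i : ℕ) : ∀ x ∈ Js S, aI F exf (s ^ i) x ∈ Js S := by
    induction i with
    | zero => exact fun x h => map_one (aI F exf) ▸ h
    | succ i e => exact fun x h => by rw [pow_succ, map_mul]; exact e _ ((jsf.2 F F _ S S a x).2 h)
  exact fun x h => (AddMonoidHom.finset_sum_apply (fun i => ai (s ^ i).toRingHom) (range p) x).symm ▸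
    sum_mem fun i _ => k i x h

/-- the upper layer -/
theorem lay0 (trp : TRP) [Algebra F₀ F] {S₀ : Finset (Pm F₀)} (c : Cc p F₀ s) (a : Ab s.toRingHom S S)
    (a0 : Ab (algebraMap F₀ F) S₀ S) (n0 : S.card = S₀.card) {X : Dp (AM F) (AI F)} (hX : X = dp p s S)
    {I₀ : AddSubgroup (AI F)} (hI : I₀ = (ai (algebraMap F₀ F)).range) :
    X.Lp ⊤ (fxM s) ⊤ I₀ ∧ X.h ⊤ ⊤ = classNumber F ∧ X.h (fxM s) I₀ = classNumber F₀ ∧
    X.e ⊤ (fxM s) = (nU F₀ F).range.index ∧ X.f ⊤ I₀ = ∏ w ∈ S, w.asIdeal.inertiaDeg (𝓞 F₀) ∧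
    Module.finrank ℤ X.d.ker = rank F ∧ Module.finrank ℤ ↥(fxM s ⊓ X.d.ker) = rank F₀ ∧
    X.U = (nU F₀ F).ker.toAddSubgroup.map (au F) ∧ Injective (au F) := by
  subst hX
  have := trp p F₀ F F _ (.id F) (dp p s S) S₀ S S c a0
    (fun w v h => by rw [show w = v from IsDedekindDomain.HeightOneSpectrum.ext h]) n0 rfl rfl
    (cm exf) (NJ exf jsf a) (fun x => AddMonoidHom.finset_sum_apply ..)
    (fun x => by rw [(exf.2 F).1, (exf.2 F).1]; exact AddMonoidHom.finset_sum_apply ..) ⊤ _ ⊤ _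
    (AddMonoidHom.range_eq_top.2 fun x => ⟨x, rfl⟩).symm (fx_eq c)
    (AddMonoidHom.range_eq_top.2 fun x => ⟨x, (exf.2 F).1 x⟩).symm hI
  rwa [top_inf_eq, inf_top_eq] at this

omit exf jsf in
theorem rel {G M : Type} [CommGroup G] [AddCommGroup M] {f : Additive G →+ M} (i : Injective f)
    (C U : Subgroup G) : (C.toAddSubgroup.map f).relIndex (U.toAddSubgroup.map f) = C.relIndex U :=
  (AddSubgroup.relIndex_map_map_of_injective _ _ i).trans Subgroup.relIndex_toAddSubgroup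

/-- **the package for two fields** -/
theorem pg0 (trp : TRP) (ky : KY0) [Algebra F₀ F] {S₀ : Finset (Pm F₀)} (hp : p.Prime) (c : Cc p F₀ s)
    (a : Ab s.toRingHom S S) (a0 : Ab (algebraMap F₀ F) S₀ S) (n0 : S.card = S₀.card)
    {C : Subgroup (𝓞 F)ˣ} (hC : C ≤ (nU F₀ F).ker) {r E z z' : ℕ}
    (n : C.relIndex (nU F₀ F).ker * classNumber F₀ * z ≠ 0)
    (e : C.relIndex (nU F₀ F).ker * classNumber F₀ * z =
      (nU F₀ F).range.index * classNumber F * (∏ w ∈ S, w.asIdeal.inertiaDeg (𝓞 F₀)) * z')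
    (v : padicValNat p z' ≤ E + padicValNat p z) (hr : r + rank F₀ ≤ rank F) :
    Pg p r E (dp p s S) (fxM s) (C.toAddSubgroup.map (au F)) (.id _) (.id _) := by
  obtain ⟨l0, hh, h0, e0, f0, rk, r0, u0, i0⟩ := lay0 exf jsf trp c a a0 n0 rfl rfl
  exact ky _ _ _ _ _ _ p r E z z' hp l0 (u0 ▸ AddSubgroup.map_mono (Subgroup.toAddSubgroup.monotone hC))
    (exf.2 F).2.2.2.1 (by rwa [r0, rk]) (by rwa [u0, rel i0, h0]) (by rwa [u0, rel i0, h0, e0, hh, f0]) v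

end Fld

open Fld

variable {F : Type} (F₀ F₁ F₂ : Type) [Field F] [NumberField F] [Field F₀] [NumberField F₀] [Field F₁]
  [NumberField F₁] [Field F₂] [NumberField F₂] [Algebra F₀ F] [Algebra F₁ F] [Algebra F₂ F₀]
  [Algebra F₂ F₁]

/-- `F₀`, `F₁`, `F₂` are fixed by `s`, by `t`, by both -/
structure Sq (p : ℕ) (s t : F ≃+* F) (s₁ : F₁ ≃+* F₁) (t₀ : F₀ ≃+* F₀) (S : Finset (Pm F))
    (S₀ : Finset (Pm F₀)) (S₁ : Finset (Pm F₁)) (S₂ : Finset (Pm F₂)) : Prop where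
  pr : p.Prime
  odd : p ≠ 2
  com : s * t = t * s
  c0 : Cc p F₀ s
  c1 : Cc 2 F₁ t
  c2 : Cc p F₂ s₁
  c3 : Cc 2 F₂ t₀
  sq : (algebraMap F₁ F).comp (algebraMap F₂ F₁) = (algebraMap F₀ F).comp (algebraMap F₂ F₀)
  rs : ∀ x, algebraMap F₁ F (s₁ x) = s (algebraMap F₁ F x)
  rt : ∀ x, algebraMap F₀ F (t₀ x) = t (algebraMap F₀ F x)
  ag : Ab s.toRingHom S S
  at' : Ab t.toRingHom S S
  a0 : Ab (algebraMap F₀ F) S₀ S
  a1 : Ab (algebraMap F₁ F) S₁ S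
  a2 : Ab (algebraMap F₂ F₁) S₂ S₁
  n0 : S.card = S₀.card
  n1 : S₁.card = S₂.card

/-- the modules -/
def Fld.mn (exf : EXF) (p : ℕ) (s t : F ≃+* F) (S : Finset (Pm F)) (C : Subgroup (𝓞 F)ˣ)
    (C₁ : Subgroup (𝓞 F₁)ˣ) : Mn (AM F) (AI F) p 0 := ⟨ad F, aM F s, aI F exf s, aM F t, aI F exf t,
  Js S, fxM s, (am (algebraMap F₁ F)).range, (ai (algebraMap F₀ F)).range,
  (ai (algebraMap F₁ F)).range, (ai ((algebraMap F₁ F).comp (algebraMap F₂ F₁))).range,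
  C.toAddSubgroup.map (au F), C₁.toAddSubgroup.map ((am (algebraMap F₁ F)).comp (au F₁))⟩

namespace Fld

variable {F₀ F₁ F₂} (exf : EXF) (jsf : JSF) (nrm : NRM) (trp : TRP) {p : ℕ}
  {s t : F ≃+* F} {s₁ : F₁ ≃+* F₁} {t₀ : F₀ ≃+* F₀} {S : Finset (Pm F)} {S₀ : Finset (Pm F₀)}
  {S₁ : Finset (Pm F₁)} {S₂ : Finset (Pm F₂)} (q : Sq F₀ F₁ F₂ p s t s₁ t₀ S S₀ S₁ S₂)
  {C : Subgroup (𝓞 F)ˣ} {C₁ : Subgroup (𝓞 F₁)ˣ} {Y : Mn (AM F) (AI F) p 0}
  (hY : mn F₀ F₁ F₂ exf p s t S C C₁ = Y)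

include hY in
theorem X_eq : Y.X = dp p s S := hY ▸ congrArg₂ (Dp.mk (ad F) · · (Js S)) (nr_ap ..) (nr_ap ..)

include exf jsf q trp

/-- the lower layer -/
theorem lay1 {X : Dp (AM F) (AI F)} (hX : X = dp p s S) {M₁ : AddSubgroup (AM F)}
    {I₁ I₀ : AddSubgroup (AI F)} (hM : M₁ = (am (algebraMap F₁ F)).range)
    (hI : I₁ = (ai (algebraMap F₁ F)).range)
    (hI' : I₀ = (ai ((algebraMap F₁ F).comp (algebraMap F₂ F₁))).range) :
    X.Lp M₁ (fxM s ⊓ M₁) I₁ I₀ ∧ X.h M₁ I₁ = classNumber F₁ ∧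
    X.h (fxM s ⊓ M₁) I₀ = classNumber F₂ ∧ X.e M₁ (fxM s ⊓ M₁) = (nU F₂ F₁).range.index ∧
    X.f I₁ I₀ = ∏ w ∈ S₁, w.asIdeal.inertiaDeg (𝓞 F₂) ∧
    Module.finrank ℤ ↥(M₁ ⊓ X.d.ker) = rank F₁ ∧
    Module.finrank ℤ ↥(fxM s ⊓ M₁ ⊓ X.d.ker) = rank F₂ ∧
    X.U ⊓ M₁ = (nU F₂ F₁).ker.toAddSubgroup.map ((am (algebraMap F₁ F)).comp (au F₁)) ∧
    Injective ((am (algebraMap F₁ F)).comp (au F₁)) := by
  subst hX hM
  refine trp p F₂ F₁ F _ (algebraMap F₁ F) (dp p s S) S₂ S₁ S q.c2 q.a2 q.a1 q.n1 rfl rfl (cm exf)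
    (NJ exf jsf q.ag) (fun x => (AddMonoidHom.finset_sum_apply ..).trans ((sum_congr rfl fun i _ =>
      congrArg (am · x) (pw_res q.rs i).symm).trans
        (map_sum (am (algebraMap F₁ F)) (fun i => am (s₁ ^ i).toRingHom x) _).symm))
    (fun x => (AddMonoidHom.finset_sum_apply ..).trans ((sum_congr rfl fun i _ =>
      ((exf.1 _ _ _ _ _).1 x).symm.trans ((congrArg (ai · x) (pw_res q.rs i).symm).trans
      ((exf.1 _ _ _ _ _).1 x))).trans (map_sum ..).symm)) _ _ _ _ rfl ?_ hI hI'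
  rw [fx_eq q.c0]
  refine le_antisymm (fun x h => ?_) (le_inf (q.sq ▸ ?_) ?_)
  · obtain ⟨y, hy⟩ := mem_am.1 h.2
    obtain ⟨z, rfl⟩ := (q.c2.fix y).1 ((algebraMap F₁ F).injective (by
      rw [q.rs, hy, (q.c0.fix _).2 (mem_am.1 h.1)]))
    exact mem_am.2 ⟨z, hy⟩
  all_goals exact fun _ ⟨y, e⟩ => ⟨am (algebraMap _ _) y, e⟩

include nrm

include hY in
theorem ok (hC : C ≤ (nU F₀ F).ker) (h₁ : C₁.map (iU F₁ F) ≤ C)
    (ht : ∀ c ∈ C, ∃ c₁ ∈ C₁, algebraMap F₁ F (vU c₁) = vU c * t (vU c)) : Y.Ok0 := by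
  obtain ⟨l0, -, -, -, -, -, -, u0, -⟩ := lay0 exf jsf trp q.c0 q.ag q.a0 q.n0 (X_eq exf hY) rfl
  obtain ⟨l1, -⟩ := lay1 exf jsf trp q (X_eq exf hY) rfl rfl rfl
  have two (x : AI F) : ∑ i ∈ range 2, aI F exf (t ^ i) x = x + aI F exf t x := by simp [sum_range_succ]
  have gp : s ^ p ^ (0 + 1) = 1 := by rw [zero_add, pow_one, ← q.c0.ord, pow_orderOf_eq_one]
  have tt : t * t = 1 := by rw [← sq, ← q.c1.ord, pow_orderOf_eq_one]
  have tx (y : F₁) : t (algebraMap F₁ F y) = algebraMap F₁ F y := (q.c1.fix _).2 ⟨y, rfl⟩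
  subst hY
  refine ⟨q.pr, q.odd, da exf s, da exf t, ?_, ?_, ?_, ?_, ?_, ?_,
    fun x => (jsf.2 F F _ S S q.ag x).2, fun x => (jsf.2 F F _ S S q.at' x).2,
    fun x => by rw [pow_zero, pow_one]; rfl, fun x => mem_am.trans ((q.c1.fix _).symm.trans fx_am),
    l0, l1, fun x => two x ▸ (nrm 2 F₁ F t q.c1).2.1 x, ?_, ?_, ?_, ?_,
    (jsf.1 F S p q.pr.ne_zero).1, fun x h => ?_, ?_, le_inf ?_ ?_, ?_⟩
  · exact (map_mul (aM F) ..).symm.trans ((congrArg _ q.com).trans (map_mul (aM F) ..))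
  · exact (map_mul (aI F exf) ..).symm.trans ((congrArg _ q.com).trans (map_mul (aI F exf) ..))
  · exact (map_pow (aM F) ..).symm.trans ((congrArg _ gp).trans (map_one (aM F)))
  · exact (map_pow (aI F exf) ..).symm.trans ((congrArg _ gp).trans (map_one (aI F exf)))
  · exact (map_mul (aM F) ..).symm.trans ((congrArg _ tt).trans (map_one (aM F)))
  · exact (map_mul (aI F exf) ..).symm.trans ((congrArg _ tt).trans (map_one (aI F exf)))
  · rintro _ ⟨y, rfl⟩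
    obtain ⟨z, hz⟩ := (nrm 2 F₂ F₀ t₀ q.c3).2.1 y
    refine ⟨z, ?_⟩
    rw [q.sq, (exf.1 _ _ _ _ _).1, hz, sum_range_succ, sum_range_one, map_add, pow_zero, pow_one,
      ← (exf.1 _ _ _ _ _).1, ← (exf.1 _ _ _ _ _).1]
    exact congrArg _ ((congrArg (ai · y) (RingHom.ext q.rt)).trans ((exf.1 _ _ _ _ _).1 y))
  · rintro _ ⟨y, rfl⟩
    exact ((exf.1 _ _ _ _ _).1 y).symm.trans (congrArg (ai · y) (RingHom.ext tx))
  · rintro _ ⟨y, rfl⟩
    exact ⟨_, ((exf.1 _ _ _ _ _).1 y).symm.trans (congrArg (ai · y) q.sq.symm)⟩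
  · rintro _ ⟨y, rfl⟩
    exact ⟨_, ((exf.1 _ _ _ _ _).1 y).symm⟩
  · have := (jsf.1 F ∅ p q.pr.ne_zero).1 x (h ▸ zero_mem _)
    simpa [Js] using this
  · exact u0 ▸ AddSubgroup.map_mono (Subgroup.toAddSubgroup.monotone hC)
  · rintro _ ⟨y, h, rfl⟩
    exact ⟨.ofMul (iU F₁ F y.toMul), h₁ ⟨_, h, rfl⟩, Units.ext rfl⟩
  · rintro _ ⟨y, h, rfl⟩
    exact ⟨_, rfl⟩
  · rintro _ ⟨y, h, rfl⟩
    obtain ⟨z, hz, e⟩ := ht _ h
    exact ⟨.ofMul z, hz, Units.ext e⟩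

/-- **the package for four fields** -/
theorem pg1 (ky : KY1) (hC : C ≤ (nU F₀ F).ker) (h₁ : C₁.map (iU F₁ F) ≤ C)
    (ht : ∀ c ∈ C, ∃ c₁ ∈ C₁, algebraMap F₁ F (vU c₁) = vU c * t (vU c)) {r E z z' a a' : ℕ}
    (n : C.relIndex (nU F₀ F).ker * classNumber F₀ * z ≠ 0)
    (n' : C₁.relIndex (nU F₂ F₁).ker * classNumber F₂ * a ≠ 0)
    (e : C.relIndex (nU F₀ F).ker * classNumber F₀ * z =
      (nU F₀ F).range.index * classNumber F * (∏ w ∈ S, w.asIdeal.inertiaDeg (𝓞 F₀)) * z')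
    (e' : C₁.relIndex (nU F₂ F₁).ker * classNumber F₂ * a =
      (nU F₂ F₁).range.index * classNumber F₁ * (∏ w ∈ S₁, w.asIdeal.inertiaDeg (𝓞 F₂)) * a')
    (v : padicValNat p (z' * a) ≤ E + padicValNat p (z * a'))
    (hr : r + rank F₀ + rank F₁ ≤ rank F + rank F₂) :
    Pg p r E (dp p s S) (fxM s) (C.toAddSubgroup.map (au F)) (.id _ - am t.toRingHom)
      (.id _ - ai t.toRingHom) := by
  have hX := X_eq exf (rfl : mn F₀ F₁ F₂ exf p s t S C C₁ = _)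
  have := ky _ _ p 0 _ r E z z' a a' (ok exf jsf nrm trp q rfl hC h₁ ht) (exf.2 F).2.2.2.1
  obtain ⟨-, hh, h0, e0, f0, rk, r0, u0, i0⟩ := lay0 exf jsf trp q.c0 q.ag q.a0 q.n0 rfl rfl
  obtain ⟨-, h1, h2, e1, f1, r1, r2, u1, i1⟩ := lay1 exf jsf trp q rfl rfl rfl rfl
  rw [hX] at this
  dsimp only [mn] at this
  rw [u1, rel i1, u0, rel i0, h0, h2, e0, hh, f0, e1, h1, f1] at this
  exact this ((congrArg₂ (r + · + ·) r0 r1).trans_le (hr.trans (congrArg₂ (· + ·) rk r2).ge)) n n' e e' v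

end Fld

end Vale.Agent.P014X.Ac
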