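import Vale.Agent.P014X.Ac.St2
import Vale.Agent.P014X.Ac.Lay

/-! # P014X, the anchor at level `q`: the count on the side of the fields -/

set_option autoImplicit false
set_option linter.all false

open NumberField NumberField.Units IsDedekindDomain Function Finset
open scoped Classical nonZeroDivisors

noncomputable section

namespace Vale.Agent.P014X.Ac

open Vale.Agent.P022 (Qb GQ GK)
open Cd (Tv)
open An (Pm Sp sm Cu GAL vU)
open Ly

namespace F2

section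

variable {M I Q : Type} [AddCommGroup M] [AddCommGroup I] [AddCommGroup Q]

theorem m2 (τ : M →+ M) {e : ℕ} (h : e = 0 ∨ e = 1 ∧ ∀ x, τ (τ x) = x) (x : M) :
    (AddMonoidHom.id M - e • τ) ((AddMonoidHom.id M - e • τ) x) =
      (1 + e) • (AddMonoidHom.id M - e • τ) x := by
  rcases h with rfl | ⟨rfl, h⟩
  · simp
  · simp only [one_smul, AddMonoidHom.sub_apply, AddMonoidHom.id_apply, map_sub, h]
    abel

theorem c2 (f : M →+ I) {τ : M →+ M} {τ' : I →+ I} (h : ∀ x, τ' (f x) = f (τ x)) (e : ℕ) (x : M) :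
    (AddMonoidHom.id I - e • τ') (f x) = f ((AddMonoidHom.id M - e • τ) x) := by
  simp [h]

theorem sm' (f : M →+ I) {τ : ℕ → M →+ M} {τ' : ℕ → I →+ I} (h : ∀ i x, τ' i (f x) = f (τ i x))
    (p : ℕ) (x : M) : (∑ i ∈ range p, τ' i) (f x) = f ((∑ i ∈ range p, τ i) x) := by
  simp [AddMonoidHom.finset_sum_apply, h]

theorem ind {G : Type} [CommGroup G] (f : Additive G →+ M) (K : AddSubgroup M)
    (s : Set G) (h : ∀ v ∈ s, f (Additive.ofMul v) ∈ K) :
    (Subgroup.closure s).toAddSubgroup.map f ≤ K :=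
  AddSubgroup.map_le_iff_le_comap.2 fun _ x =>
    (Subgroup.closure_le (AddSubgroup.toSubgroup' (K.comap f))).2 h x

theorem cnt (wcq : WCQ) (zcq : ZCQ) (rkq : RKQ) (Y : Ro M I Q) {q p n κ r E : ℕ} {C : AddSubgroup M}
    (ok : Y.Ok q p n κ) (pg : Pg p r E Y.X Y.M0 C Y.m Y.m')
    (hn : padicValNat p (Y.X.bm Y.M0 Y.m Y.m') ≤ n) (c0 : Nat.card ((Y.R0 q ⊥).map Y.n) ≠ 0)
    (c1 : q ^ r ≤ Nat.card ((Y.R0 q ⊥).map Y.n)) (z0 : Y.ix (Y.R0 q C) ≠ 0) {A : AddSubgroup Q}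
    (hA : Y.RR q ≤ A) : q ^ (2 * r) ≤ p ^ padicValNat p (Y.X.im C Y.m) * Y.ix (Y.R0 q C) ∧
      (Y.ix A ≠ 0 → q ^ (4 * r) ≤ Y.ix A * Y.ix (Y.R0 q C) * p ^ E) := by
  have a : q ^ (2 * r) ≤ Y.ix (Y.R0 q Y.X.U) := by
    rw [two_mul, pow_add]
    exact (Nat.mul_le_mul_left _ c1).trans (rkq _ _ _ Y q p n κ r ok pg.fg pg.rk c0)
  have b := zcq _ _ _ Y q p n κ C ok pg.CU pg.im z0
  refine ⟨mul_comm (Y.ix _) _ ▸ a.trans b, fun w0 => ?_⟩
  have l := AddSubgroup.map_mono (f := Y.n) hA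
  have c := (wcq _ _ _ Y q p n κ ok pg.bm hn fun e =>
    w0 (AddSubgroup.relIndex_eq_zero_of_le_right l e)).trans
    (AddSubgroup.relIndex_le_of_le_right l w0)
  calc _ = q ^ (2 * r) * q ^ (2 * r) := by ring
    _ ≤ Y.ix (Y.R0 q Y.X.U) * (Y.ix (Y.R0 q C) *
        p ^ (padicValNat p (Y.X.bm Y.M0 Y.m Y.m') + E)) := Nat.mul_le_mul a ((a.trans b).trans
      (Nat.mul_le_mul_left _ (Nat.pow_le_pow_right ok.pr.pos pg.key)))
    _ = Y.ix (Y.R0 q Y.X.U) * p ^ padicValNat p (Y.X.bm Y.M0 Y.m Y.m') * Y.ix (Y.R0 q C) * p ^ E := by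
      ring
    _ ≤ _ := Nat.mul_le_mul_right _ (Nat.mul_le_mul_right _ c)

end

variable {A B : ℤ} {D : Cd A B} {F : Type} [Field F] [NumberField F] {X : Type} [MulAction D.G X]
  {jF : F →+* Qb} {x₀ : X} {sec : X → D.G}

theorem qext {r r' : QQ X} (h : ∀ y, vq r y = vq r' y) : r = r' :=
  Additive.toMul.injective (funext fun y => Units.ext (h y))

theorem aext {x y : AM F} (h : ((Additive.toMul x : Fˣ) : F) = (Additive.toMul y : Fˣ)) : x = y :=
  Additive.toMul.injective (Units.ext h)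

variable (sec jF) in
/-- the family of a number -/
def jq : AM F →+ QQ X := MonoidHom.toAdditive
  (Pi.monoidHom fun y => Units.map ((sec y).1.toRingEquiv.toRingHom.comp jF).toMonoidHom)

variable (gs : Gs D (GK jF) x₀ sec)
include gs

theorem eqv {g h : D.G} (e : g • x₀ = h • x₀) (a : F) : g.1 (jF a) = h.1 (jF a) :=
  (congrArg (fun k : D.G => k.1 (jF a)) (mul_inv_cancel_left h g)).symm.trans
    (congrArg h.1 ((gs.st (h⁻¹ * g)).1 (by rw [mul_smul, e, inv_smul_smul]) a))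

theorem tq {h : D.G} {t : F ≃+* F} (ht : ∀ x, jF (t x) = h.1 (jF x)) (a : AM F) :
    Tq D h (jq jF sec a) = jq jF sec (am t.toRingHom a) := qext fun y => by
  show (sec (h • y)).1 (jF _) = (sec y).1 (jF (t _))
  rw [ht]
  exact eqv gs (h := sec y * h) (by rw [gs.sec, mul_smul, ← gs.com, gs.sec]) _

theorem rg (G : GK jF ≤ D.G) (fx : ∀ x : Qb, (∀ g ∈ GK jF, g x = x) → ∃ y, jF y = x) :
    (jq jF sec).range = Fq D X := by
  refine le_antisymm ?_ fun r hr => ?_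
  · rintro _ ⟨a, rfl⟩ g y
    exact eqv gs (g := g * sec y) (by rw [mul_smul, gs.sec, gs.sec]) _
  · obtain ⟨a, ha⟩ := fx (vq r x₀) fun g h => (hr ⟨g, G h⟩ x₀).trans (by rw [(gs.st _).2 h])
    refine ⟨.ofMul (Units.mk0 a fun k => (r.toMul x₀).ne_zero (ha.symm.trans (by rw [k, map_zero]))),
      qext fun y => ?_⟩
    exact ((congrArg (sec y).1 ha).trans (hr _ _)).trans (by rw [gs.sec])

theorem fix (g : D.G) (y : X) : g • y = y ↔ g.1 ∈ GK jF := by
  rw [← gs.st, ← gs.sec y, gs.com, smul_left_cancel_iff]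

theorem crd [Fintype X] : Fintype.card X = (GK jF).relIndex D.G := by
  haveI : MulAction.IsPretransitive D.G X := ⟨fun x y => ⟨sec y * (sec x)⁻¹, by
    rw [mul_smul, inv_smul_eq_iff.2 (gs.sec x).symm, gs.sec]⟩⟩
  rw [← Nat.card_eq_fintype_card, ← MulAction.index_stabilizer_of_transitive D.G x₀]
  exact congrArg Subgroup.index (Subgroup.ext gs.st)

end F2

open F2

theorem fld2 (fos : FOS) (gal : GAL) (jsf : JSF) (exf : EXF) (pkf : PKF) (roo : ROO) (eps : EPS)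
    (unr : UNR) (wcq : WCQ) (zcq : ZCQ) (rkq : RKQ) : FLD := by
  intro A B D cf eu p k a e r E m hp p2 es a1 hd H H' H₁ H₂ γ ι g ζ T Q he hζ ac tT hr hs
  obtain ⟨F, _, _, jF, rfl⟩ := fos H (Subgroup.isOpen_mono (H₁ := D.Hf m) (fun g h => Q.hm
    ((cf.hm m hd.ne g).2 ⟨1, isUnit_one, h.1, by rw [map_one]; exact h.2⟩)) (cf.oH m hd.ne))
  by_cases hI : ∀ h ∈ GK jF, h (∏ s ∈ T, s (D.un a m)) = ∏ s ∈ T, s (D.un a m)
  swap
  · refine ⟨0, 0, fun n _ X _ _ x₀ sec v gs hv => (hI fun h l => ?_).elim⟩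
    exact (hv ⟨h, Q.G l⟩).symm.trans ((congrArg (vq v) (((gs.st _).2 l).trans
      (one_smul _ _).symm)).trans (hv 1))
  have fx := (gal A B D cf m hd.ne F jF Q.G Q.hm).2.2.2.1
  have b := ab1 gal cf hd.ne Q.G Q.hm
  obtain ⟨u, hu⟩ := fx _ hI
  obtain ⟨s, h1⟩ := b.res _ (γ ^ p ^ k).2
  obtain ⟨t, ht⟩ := b.res _ ι.2
  obtain ⟨S, hS⟩ := b.sp
  obtain ⟨un, pg⟩ := pkf A B D cf eu p k a e r E m hp p2 es a1 hd F jF H' H₁ H₂ γ ι g ζ T u S s t Q he
    hζ ac tT hu hS h1 ht hr hs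
  have os : orderOf s = p := ord h1 hp Q.g1 (by
    rw [Subgroup.coe_pow, ← pow_mul, ← pow_succ]
    exact Q.gp)
  generalize γ ^ p ^ k = σ at h1 un pg ⊢
  generalize hC : (Cu D jF (σ.1 (jF u) / jF u)).toAddSubgroup.map (au F) = C at pg
  refine ⟨p ^ padicValNat p ((dp p s S).im C (.id _ - e • am t.toRingHom)), padicValNat p
    ((dp p s S).bm (fxM s) (.id _ - e • am t.toRingHom) (.id _ - e • ai t.toRingHom)),
    fun n hn X _ _ x₀ sec v gs hv z w hz hw z0 => ?_⟩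
  have hi : ∀ (i : ℕ) x, jF ((s ^ i) x) = (σ ^ i).1 (jF x) := Ly.pw h1
  have fr : ∀ (i : ℕ) (y : X), σ ^ i • y = y ↔ p ∣ i := fun i y => by
    rw [fix gs, ← os, orderOf_dvd_iff_pow_eq_one]
    exact ⟨fun l => RingEquiv.ext fun x => jF.injective ((hi i x).trans (l x)),
      fun l x => (hi i x).symm.trans (by rw [l]; rfl)⟩
  have cp := fun φ ψ => (exf.1 F F F φ ψ).1
  have da := fun φ => (exf.1 F F F φ (.id F)).2.1
  have ts : ∀ (i : ℕ) x, t ((s ^ i) x) = (s ^ i) (t x) := fun i x => jF.injective (by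
    rw [ht, hi, hi, ht, b.cm ι.2 (σ ^ i).2])
  have tt : e = 0 ∨ e = 1 ∧ ∀ x, t (t x) = x := he.imp_right fun l => ⟨l.1, fun x =>
    jF.injective (by rw [ht, ht]; exact l.2.i2 x)⟩
  have q0 : p ^ n ≠ 0 := pow_ne_zero _ hp.ne_zero
  have jJ : ∀ {τ : F ≃+* F} {h : D.G}, (∀ x, jF (τ x) = h.1 (jF x)) → ∀ x ∈ Js S,
      ai τ.toRingHom x ∈ Js S := fun {τ h} l x => (jsf.2 F F _ S S (ab_self cf b hS h.2 l) x).2
  let Y : Ro (AM F) (AI F) (QQ X) := ⟨dp p s S, fxM s, .id _ - e • am t.toRingHom,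
    .id _ - e • ai t.toRingHom, jq jF sec, Nq D p σ, nq D e ι⟩
  have jN : ∀ x, Y.N (Y.j x) = Y.j (Y.X.N x) := sm' _ (fun i => tq gs (hi i)) p
  have ok : Y.Ok (p ^ n) p n (1 + e) := by
    refine ⟨hp, rfl, fun d => ?_, fun x => (sm' _ (fun i => da _) p x).symm, fun x l => ?_,
      fun x => ?_, (jsf.1 F S p hp.ne_zero).1, fun x z => ?_, fun x y l => aext (jF.injective
        ((sec x₀).1.injective (congrArg (vq · x₀) l))), jN, c2 _ (tq gs ht) e, c2 _ (fun r => ?_) e,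
      m2 _ (he.imp_right fun l => ⟨l.1, fun r => qext fun y => ?_⟩), fun x => (c2 _ (da _) e x).symm,
      c2 _ (fun x => (sm' _ (fun i x => ?_) p x).symm) e, fun x l => sub_mem l (nsmul_mem (jJ ht x l) e),
      m2 _ (tt.imp_right fun l => ⟨l.1, fun x => ?_⟩), fun x l => ?_, fun x y l h => ?_⟩
    · have := Nat.le_of_dvd (by omega) d
      have := hp.two_le
      rcases he with rfl | ⟨rfl, -⟩ <;> omega
    · show (∑ i ∈ range p, ai (s ^ i).toRingHom) x ∈ Js S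
      rw [AddMonoidHom.finset_sum_apply]
      exact sum_mem fun i _ => jJ (hi i) x l
    · show am s.toRingHom ((∑ i ∈ range p, am (s ^ i).toRingHom) x) =
        (∑ i ∈ range p, am (s ^ i).toRingHom) x
      have := (sum_range_succ' (fun i => am (s ^ i).toRingHom x) p).symm.trans (sum_range_succ _ p)
      rw [show s ^ p = s ^ 0 by rw [← os, pow_orderOf_eq_one, pow_zero], add_left_inj] at this
      rw [AddMonoidHom.finset_sum_apply, map_sum, ← this]
      exact sum_congr rfl fun i _ => aext (by rw [pow_succ']; rfl)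
    · simpa [Js] using (jsf.1 F ∅ p hp.ne_zero).1 x (z ▸ zero_mem _)
    · exact (sm' (Tq D ι) (fun i r => qext fun y => congrArg (vq r) (gs.com _ _ y)) p r).symm
    · exact congrArg (vq r) (by rw [← mul_smul, fix gs]; exact l.2.i2)
    · rw [← cp, ← cp]
      exact congrArg (ai · x) (RingHom.ext fun y => (ts i y).symm)
    · rw [← cp, show t.toRingHom.comp t.toRingHom = .id F from RingHom.ext l.2, (exf.2 F).1]
    · refine sub_mem l (nsmul_mem (aext ?_) e)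
      exact (pow_one s ▸ ts 1 _).symm.trans (congrArg (fun x : AM F => t (x.toMul : Fˣ)) l)
    · exact roo A B D X _ p σ q0 hp.ne_zero fr _ _ ((tq gs h1 y).trans (congrArg _ l))
        ((jN x).trans ((congrArg _ h).trans (map_nsmul _ _ _)))
  have rj : Y.j.range = Fq D X := rg gs Q.G fx
  have jw : ∀ (w : (𝓞 F)ˣ) (h : D.G), jF (vU w) = h.1 (σ.1 (jF u) / jF u) →
      jq jF sec (au F (.ofMul w)) = Tq D h (Tq D σ v - v) := fun w h l => qext fun y => by
    refine (congrArg (sec y).1 l).trans ?_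
    have : ∀ c : D.G, vq v (c • h • y) = (sec y).1 (h.1 (c.1 (jF u))) := fun c => by
      rw [hu]
      exact (congrArg (vq v) (by
        rw [mul_smul, mul_smul, gs.com (sec y), gs.com (sec y), gs.sec, gs.com])).trans
        (hv (sec y * h * c))
    rw [map_div₀, map_div₀, ← this σ, show (sec y).1 (h.1 (jF u)) = _ from (this 1).symm, one_smul]
    exact (Units.val_div_eq_div_val _ _).symm
  have rc : Y.R0 (p ^ n) C = Cq D (p ^ n) p σ v := by
    refine congrArg (fun K => AddSubgroup.comap _ K ⊓ _) (le_antisymm ?_ ((AddSubgroup.closure_le _).2 ?_))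
    · rw [← hC, AddSubgroup.map_map]
      refine ind _ _ _ ?_
      rintro w ⟨h, l, c⟩
      exact AddSubgroup.subset_closure ⟨⟨h, l⟩, (jw w ⟨h, l⟩ c).symm⟩
    · rintro _ ⟨h, rfl⟩
      obtain ⟨w, c⟩ := un h.1 h.2
      have l : w ∈ Cu D jF (σ.1 (jF u) / jF u) := Subgroup.subset_closure ⟨h.1, h.2, c⟩
      exact ⟨_, hC ▸ ⟨.ofMul w, l, rfl⟩, jw w h c⟩
  obtain ⟨c0, c1⟩ := eps A B D X (p ^ n) p e r σ ι ((hp.odd_of_ne_two p2).pow) hp p2 fr (gs.com _ _)
    (he.imp_right fun l => ⟨l.1, fun y => ⟨mt (fix gs ι y).1 l.2.i1, by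
      rw [← mul_smul, fix gs]; exact l.2.i2⟩⟩) (by rw [crd gs, hr])
    (Nat.card ((Y.R0 (p ^ n) ⊥).map Y.n)) (by rw [Ro.R0, AddSubgroup.map_bot]; rfl)
  have ez : Y.ix (Y.R0 (p ^ n) C) = z := by rw [hz, Ro.ix, rj, rc]
  have := cnt wcq zcq rkq Y ok pg hn c0 c1 (ez ▸ z0)
    (A := Aq D X (p ^ n) p σ ⊓ Iq D X m) (by
      rintro r ⟨⟨x, l, c⟩, y, -, c'⟩
      refine ⟨⟨rj.le ⟨x, c⟩, rj.le ⟨y, c'⟩⟩, fun l' P i o n' it y => ?_⟩
      exact unr A B D cf p n m hp ((dvd_pow_self _ two_ne_zero).trans hd.dv) hd.ne F jF S _ (sec y) _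
        Q.G Q.hm hS x.toMul.ne_zero ((jsf.1 F S _ q0).2 x.toMul l)
        ((Units.val_pow_eq_pow_val _ _).symm.trans (congrArg (vq · y) c).symm) l' P i o n' it)
  rwa [ez, Ro.ix, rj, show (Fq D X).relIndex _ = w from hw.symm] at this

end Vale.Agent.P014X.Ac
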