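import Vale.Agent.P014X.Ac.St2

/-! # P014X, free actions and counting -/

set_option autoImplicit false
set_option linter.all false

open Finset
open scoped Classical

namespace Vale.Agent.P014X.Ac

namespace H90k

variable {G X : Type} [Group G] [MulAction G X] {p : ℕ} {σ : G}

theorem md (h : ∀ (i : ℕ) (y : X), σ ^ i • y = y ↔ p ∣ i) {r : X} {n m : ℕ}
    (e : σ ^ n • r = σ ^ m • r) : n ≡ m [MOD p] := by
  wlog le : n ≤ m generalizing n m
  · exact (this e.symm (by omega)).symm
  obtain ⟨d, rfl⟩ := Nat.exists_eq_add_of_le le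
  rw [pow_add, mul_smul] at e
  have := (h d r).1 (smul_left_cancel _ e).symm
  exact (Nat.modEq_iff_dvd' (by omega)).2 (by simpa using this)

theorem red (h : ∀ (i : ℕ) (y : X), σ ^ i • y = y ↔ p ∣ i) (r : X) (n : ℕ) :
    σ ^ (n % p) • r = σ ^ n • r := by
  conv_rhs => rw [← Nat.mod_add_div n p, pow_add, mul_smul, (h _ r).2 (dvd_mul_right _ _)]

theorem rep (hp : p ≠ 0) (h : ∀ (i : ℕ) (y : X), σ ^ i • y = y ↔ p ∣ i) :
    ∃ (ρ : X → X) (n m : X → ℕ), (∀ y, ρ (σ • y) = ρ y) ∧ (∀ y, σ ^ n y • ρ y = y) ∧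
      ∀ y, σ ^ m y • y = ρ y := by
  let s : Setoid X := ⟨fun y z => ∃ n : ℕ, σ ^ n • y = z, fun y => ⟨0, by simp⟩, by
    rintro y z ⟨n, rfl⟩
    refine ⟨(p - 1) * n, ?_⟩
    rw [← mul_smul, ← pow_add]
    refine (h _ _).2 ⟨n, ?_⟩
    obtain ⟨q, rfl⟩ := Nat.exists_eq_succ_of_ne_zero hp
    simp [Nat.succ_mul], by
    rintro x y z ⟨n, rfl⟩ ⟨m, rfl⟩
    exact ⟨m + n, by rw [pow_add, mul_smul]⟩⟩
  have a : ∀ y, ∃ n : ℕ, σ ^ n • (Quotient.mk s y).out = y := fun y => Quotient.mk_out (s := s) y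
  have b : ∀ y, ∃ n : ℕ, σ ^ n • y = (Quotient.mk s y).out := fun y =>
    s.symm (Quotient.mk_out (s := s) y)
  choose n hn using a
  choose m hm using b
  refine ⟨fun y => (Quotient.mk s y).out, n, m, fun y => ?_, hn, hm⟩
  have : Quotient.mk s y = Quotient.mk s (σ • y) := Quotient.sound ⟨1, by simp⟩
  simp only [this]

end H90k

open H90k in
theorem h90 : H90 := by
  intro G X V _ _ _ p σ hp h
  obtain ⟨ρ, n, m, h1, h2, h3⟩ := rep hp h
  refine ⟨fun a ha => ?_, fun c hc => ?_⟩
  · have per : ∀ r k, ∑ i ∈ range k, a (σ ^ i • r) = ∑ i ∈ range (k % p), a (σ ^ i • r) := by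
      intro r k
      induction k using Nat.strong_induction_on with
      | _ k ih =>
        by_cases lt : k < p
        · rw [Nat.mod_eq_of_lt lt]
        · obtain ⟨d, rfl⟩ := Nat.exists_eq_add_of_le' (not_lt.1 lt)
          rw [sum_range_add, Nat.add_mod_right, ← ih d (by omega)]
          have := ha (σ ^ d • r)
          simp only [← mul_smul, ← pow_add, add_comm _ d] at this
          rw [this, add_zero]
    refine ⟨fun y => ∑ i ∈ range (n y), a (σ ^ i • ρ y), fun y => ?_⟩
    have e : n (σ • y) ≡ n y + 1 [MOD p] := md h (r := ρ y) (by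
      rw [pow_succ', mul_smul, h2 y, ← h1 y, h2])
    show a y = ∑ i ∈ range (n (σ • y)), a (σ ^ i • ρ (σ • y)) - ∑ i ∈ range (n y), a (σ ^ i • ρ y)
    rw [h1, per _ (n (σ • y)), e, ← per, sum_range_succ, h2, add_sub_cancel_left]
  · have hρ : ∀ (i : ℕ) y, ρ (σ ^ i • y) = ρ y := fun i y => by
      induction i with
      | zero => simp
      | succ i ih => rw [pow_succ', mul_smul, h1, ih]
    have hc' : ∀ (i : ℕ) y, c (σ ^ i • y) = c y := fun i y => by
      induction i with
      | zero => simp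
      | succ i ih => rw [pow_succ', mul_smul, hc, ih]
    refine ⟨fun y => if y = ρ y then c y else 0, fun y => ?_⟩
    have lt := Nat.mod_lt (m y) (Nat.pos_of_ne_zero hp)
    rw [sum_eq_single (m y % p)]
    · exact (if_pos (by rw [hρ, red h, h3])).trans (hc' _ _)
    · intro i hi ne
      refine if_neg fun e => ne ?_
      rw [hρ, ← h3] at e
      have := md h e
      rwa [Nat.ModEq, Nat.mod_eq_of_lt (mem_range.1 hi)] at this
    · exact fun k => absurd (mem_range.2 lt) k

theorem cnt : CNT := by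
  intro Q V J _ _ s W F Ψ S ad mem ker fin
  haveI : ∀ f : s, Finite (S f) := fun f => Nat.finite_of_card_ne_zero (fin f f.2)
  let φ : W ⧸ F.addSubgroupOf W → ∀ f : s, S f := fun c f => ⟨Ψ f c.out, mem f f.2 _ c.out.2⟩
  have inj : Function.Injective φ := by
    intro c d e
    rw [← c.out_eq', ← d.out_eq', QuotientAddGroup.eq, AddSubgroup.mem_addSubgroupOf]
    refine ker _ (-c.out + d.out).2 fun f hf => ?_
    have e1 : Ψ f c.out = Ψ f d.out := congrArg Subtype.val (congrFun e ⟨f, hf⟩)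
    have := ad f hf _ c.out.2 _ (-c.out + d.out).2
    rw [← AddSubgroup.coe_add, add_neg_cancel_left, ← e1] at this
    exact left_eq_add.1 this
  haveI := Finite.of_injective φ inj
  refine ⟨Nat.card_pos.ne', (Nat.card_le_card_of_injective φ inj).trans_eq ?_⟩
  rw [Nat.card_pi]
  exact prod_coe_sort s fun f => Nat.card (S f)

end Vale.Agent.P014X.Ac
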