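import Vale.Agent.P014X.Fm.Crk

/-! # P014X, anchor: relations between the powers of the root of unity -/

set_option autoImplicit false
set_option linter.all false

open Polynomial Finset

noncomputable section

namespace Vale.Agent.P014X.Ac.Kz

open P014U
open P014U.Dr (Zn)
open PadicInt (toZModPow)

variable [Pp] {k n : ℕ} (C : Cr k)

/-- the relations are the multiples of the cyclotomic polynomial -/
theorem dvd {V : (Zn n)[X]} (h : V.eval₂ (C.io n) (C.rd n C.pb.gen) = 0) :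
    ∑ i ∈ range pp, (X ^ pp ^ k) ^ i ∣ V := by
  obtain ⟨V, rfl⟩ := map_surjective _ (ZMod.ringHom_surjective (toZModPow n)) V
  rw [eval₂_map, show (C.io n).comp (toZModPow n) = (C.rd n).comp (algebraMap _ _) from
    RingHom.ext (C.io_rd n), ← hom_eval₂,
    Ideal.Quotient.eq_zero_iff_mem, ← aeval_def] at h
  obtain ⟨w, e⟩ := Ideal.mem_span_singleton'.1 h
  obtain ⟨W, rfl⟩ := C.pb.exists_eq_aeval' w
  have m := minpoly.monic C.pb.isIntegral_gen
  have z : (V - W * (pp : ℤ_[pp][X]) ^ n) %ₘ minpoly ℤ_[pp] C.pb.gen = 0 := by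
    by_contra z
    refine (C.pb.dim_le_degree_of_root z (by simp [aeval_modByMonic_eq_self_of_root, e])).not_gt ?_
    rw [← C.pb.degree_minpoly]
    exact degree_modByMonic_lt _ m
  have := Polynomial.map_dvd (toZModPow n) ((modByMonic_eq_zero_iff_dvd m).1 z)
  rw [C.min, cyclotomic_prime_pow_eq_geom_sum pp_prime] at this
  rw [Polynomial.map_sub, Polynomial.map_mul, ← Nat.cast_pow, Polynomial.map_natCast, ← C_eq_natCast,
    ZMod.natCast_self, C_0, mul_zero, sub_zero] at this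
  simpa only [Polynomial.map_sum, Polynomial.map_pow, map_X] using this

/-- **the coefficients of a relation are periodic** -/
theorem ker_inv {v : ℕ → Zn n} (h : ∑ i ∈ range (pp ^ (k + 1)), C.io n (v i) * C.rd n C.pb.gen ^ i = 0)
    {i j : ℕ} (hi : i < pp ^ (k + 1)) (hj : j < pp ^ (k + 1)) (e : i ≡ j [MOD pp ^ k]) : v i = v j := by
  obtain ⟨Y, hY⟩ := dvd C (V := ∑ i ∈ range (pp ^ (k + 1)), monomial i (v i)) (by
    simpa [eval₂_finset_sum] using h)
  nontriviality Zn n
  have k0 := (pow_pos pp_pos k).ne'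
  have c : (∑ i ∈ range (pp ^ (k + 1)), monomial i (v i)) * (X ^ pp ^ k - 1) =
      Y * (X ^ pp ^ (k + 1) - 1) := by
    rw [hY, mul_right_comm, geom_sum_mul, ← pow_mul, ← pow_succ, mul_comm]
  have d := congrArg degree c
  rw [← C_1, (monic_X_pow_sub_C _ k0).degree_mul, (monic_X_pow_sub_C _ (by omega)).degree_mul,
    degree_X_pow_sub_C (by omega), degree_X_pow_sub_C (by omega)] at d
  have d' : Y.degree < (pp ^ k : ℕ) := by
    rw [← WithBot.add_lt_add_iff_right (WithBot.natCast_ne_bot (pp ^ (k + 1))), ← d, add_comm,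
      WithBot.add_lt_add_iff_left (WithBot.natCast_ne_bot _)]
    simpa only [← C_mul_X_pow_eq_monomial, ← Fin.sum_univ_eq_sum_range (fun i => _ * X ^ i)] using
      degree_sum_fin_lt fun i : Fin (pp ^ (k + 1)) => v i
  have s (t r : ℕ) (h : r + t * pp ^ k < pp ^ (k + 1)) : v (r + t * pp ^ k) = v r := by
    induction t with
    | zero => simp
    | succ t ih =>
      rw [Nat.succ_mul, ← add_assoc] at h ⊢
      have := congrArg (coeff · (r + t * pp ^ k + pp ^ k)) c
      simp only [mul_sub_one, coeff_sub, coeff_mul_X_pow] at this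
      simp only [coeff_mul_X_pow', if_neg h.not_ge,
        coeff_eq_zero_of_degree_lt (d'.trans_le (Nat.cast_le.2 (Nat.le_add_left _ _))),
        finset_sum_coeff, coeff_monomial, sum_ite_eq', mem_range, if_pos h,
        if_pos (Nat.lt_of_add_right_lt h), sub_zero, sub_eq_zero] at this
      exact this.symm.trans (ih (by omega))
  rw [← Nat.mod_add_div' i (pp ^ k)] at hi ⊢
  rw [← Nat.mod_add_div' j (pp ^ k)] at hj ⊢
  rw [s _ _ hi, s _ _ hj, e]

/-- the same on a cyclic group -/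
theorem grp {P : Type} [Group P] [Fintype P] {ξ : P →* C.O} (inj : Function.Injective ξ)
    (rg : ∀ y, ∃ i : ℕ, ξ y = C.pb.gen ^ i) (on : ∃ γ, ξ γ = C.pb.gen) {v : P → Zn n}
    (h : ∑ y, C.io n (v y) * C.rd n (ξ y) = 0) {σ : P} (hσ : σ ^ pp = 1) (y : P) : v (y * σ) = v y := by
  obtain ⟨γ, hγ⟩ := on
  have q (y : P) : ∃ i < pp ^ (k + 1), γ ^ i = y := by
    obtain ⟨i, e⟩ := rg y
    exact ⟨_, Nat.mod_lt i (pow_pos pp_pos _), inj (by rw [map_pow, hγ, e, ← pow_eq_pow_mod i C.pw])⟩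
  have o : orderOf γ = pp ^ (k + 1) := by
    rw [← orderOf_injective ξ inj, hγ, ← C.prim.eq_orderOf]
  rw [← sum_bij (s := range (pp ^ (k + 1))) (f := fun i => C.io n (v (γ ^ i)) * C.rd n C.pb.gen ^ i)
    (fun i _ => γ ^ i) (fun _ _ => mem_univ _)
    (fun i a j b => pow_injOn_Iio_orderOf (o ▸ mem_range.1 a) (o ▸ mem_range.1 b))
    (fun y _ => (q y).elim fun i e => ⟨i, mem_range.2 e.1, e.2⟩)
    fun i _ => by rw [map_pow ξ, hγ, map_pow]] at h
  obtain ⟨i, hi, rfl⟩ := q y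
  obtain ⟨j, hj, e⟩ := q (γ ^ i * σ)
  obtain ⟨s, -, rfl⟩ := q σ
  rw [← pow_mul, ← orderOf_dvd_iff_pow_eq_one, o, pow_succ, Nat.mul_dvd_mul_iff_right pp_pos] at hσ
  rw [← e]
  rw [← pow_add, pow_eq_pow_iff_modEq, o] at e
  exact ker_inv C (v := fun i => v (γ ^ i)) h hj hi ((e.of_dvd (pow_dvd_pow _ k.le_succ)).trans
    ((Nat.ModEq.refl i).add ((Nat.modEq_zero_iff_dvd).2 hσ)))

end Vale.Agent.P014X.Ac.Kz
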