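import Mathlib

/-! # P014X, anchor: modules over the cyclotomic integers with few elements of prime order -/

set_option autoImplicit false
set_option linter.all false

open Polynomial Finset

namespace Vale.Agent.P014X.Ac.Pk

theorem poly {p : ℕ} (hp : p.Prime) (k : ℕ) : ∃ g : ℤ[X],
    ∑ i ∈ range p, (X ^ p ^ k : ℤ[X]) ^ i =
      (X - 1 : ℤ[X]) ^ ((p - 1) * p ^ k) + (p : ℤ[X]) * (1 + (X - 1) * g) := by
  haveI := Fact.mk hp
  have e : 0 < (p - 1) * p ^ k := Nat.mul_pos (Nat.sub_pos_of_lt hp.one_lt) (pow_pos hp.pos k)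
  obtain ⟨q, hq⟩ : (C (p : ℤ)) ∣ ∑ i ∈ range p, (X ^ p ^ k) ^ i - (X - 1 : ℤ[X]) ^ ((p - 1) * p ^ k) := by
    refine (C_dvd_iff_dvd_coeff _ _).2 fun i => (ZMod.intCast_zmod_eq_zero_iff_dvd _ p).1
      ((coeff_map (Int.castRingHom (ZMod p)) i).symm.trans
        ((congrArg (coeff · i) ?_).trans (coeff_zero i)))
    simp only [Polynomial.map_sub, Polynomial.map_sum, Polynomial.map_pow, map_X, Polynomial.map_one]
    have n : (X ^ p ^ k - 1 : (ZMod p)[X]) ≠ 0 := X_pow_sub_C_ne_zero (pow_pos hp.pos k) 1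
    refine sub_eq_zero.2 (mul_right_cancel₀ n ?_)
    have a : (X ^ p ^ k - 1 : (ZMod p)[X]) = (X - 1) ^ p ^ k := by rw [sub_pow_char_pow, one_pow]
    rw [geom_sum_mul, ← one_pow p, ← sub_pow_char, one_pow, a, ← pow_mul, ← pow_add]
    congr 1
    rw [← Nat.succ_mul, Nat.succ_eq_add_one, Nat.sub_add_cancel hp.pos, mul_comm]
  have q1 : q.eval 1 = 1 := by
    have := congrArg (eval 1) hq
    simp [eval_finset_sum, e.ne'] at this
    exact mul_left_cancel₀ (Nat.cast_ne_zero.2 hp.ne_zero) (this.symm.trans (mul_one _).symm)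
  obtain ⟨g, hg⟩ : X - C 1 ∣ q - 1 := dvd_iff_isRoot.2 (by simp [q1])
  exact ⟨g, by rw [map_natCast] at hq; rw [map_one] at hg; linear_combination hq + p * hg⟩

/-- a module over the cyclotomic integers with few elements of order `p` is killed by `p` -/
theorem kill {M : Type} [AddCommGroup M] [Finite M] {p k n : ℕ} (hp : p.Prime) (γ : Module.End ℤ M)
    (h : ∑ i ∈ range p, (γ ^ p ^ k) ^ i = 0) (t : (p : Module.End ℤ M) ^ n = 0)
    (lt : Nat.card (LinearMap.ker (p : Module.End ℤ M)) < p ^ ((p - 1) * p ^ k)) :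
    (p : Module.End ℤ M) = 0 := by
  haveI := Fact.mk hp
  obtain ⟨g, hg⟩ := poly hp k
  have a := congrArg (aeval γ) hg
  simp only [map_sum, map_pow, aeval_X, map_add, map_mul, map_sub, map_one, map_natCast, h] at a
  generalize (p - 1) * p ^ k = e at *
  have c : Commute (γ - 1) (aeval γ g) := by
    have := (Commute.all (X - 1) g).map (aeval γ)
    simpa using this
  generalize γ - 1 = l at *
  generalize aeval γ g = G at *
  have a' : l ^ e = p * -(1 + l * G) := by rw [mul_neg]; exact eq_neg_of_add_eq_zero_left a.symm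
  have nl : IsNilpotent l := ⟨e * n, by rw [pow_mul, a', (Nat.cast_commute _ _).mul_pow, t, zero_mul]⟩
  have u : IsUnit (-(1 + l * G)) := (c.isNilpotent_mul_right nl).isUnit_one_add.neg
  have ke : LinearMap.ker (l ^ e) = LinearMap.ker (p : Module.End ℤ M) := by
    rw [a', (Nat.cast_commute _ _).eq]
    exact LinearMap.ker_comp_of_ker_eq_bot _ (LinearMap.ker_eq_bot.2 ((Module.End.isUnit_iff _).1 u).1)
  by_contra n0
  have st (i : ℕ) (hi : i ≤ e) : p ^ i ∣ Nat.card (LinearMap.ker (l ^ i)) := by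
    induction i with
    | zero => simp
    | succ i ih =>
      have le : LinearMap.ker (l ^ i) ≤ LinearMap.ker (l ^ (i + 1)) := pow_succ' l i ▸ LinearMap.ker_le_ker_comp _ _
      let f := (l ^ i).domRestrict (LinearMap.ker (l ^ (i + 1)))
      have c1 : Nat.card (LinearMap.ker f) = Nat.card (LinearMap.ker (l ^ i)) := by
        rw [LinearMap.ker_domRestrict]
        exact Nat.card_congr (Submodule.comapSubtypeEquivOfLe le).toEquiv
      obtain ⟨j, j0, j1⟩ : ∃ j, l ^ (i + j) ≠ 0 ∧ l ^ (i + j + 1) = 0 := by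
        by_contra! q
        obtain ⟨N, hN⟩ := nl
        have (j : ℕ) : l ^ (i + j) ≠ 0 := j.rec (fun z => n0 ((u.mul_left_eq_zero).1 (a'.symm.trans
          (pow_eq_zero_of_le (Nat.le_of_succ_le hi) z)))) q
        exact this N (pow_eq_zero_of_le (by omega) hN)
      obtain ⟨x, hx⟩ := not_forall.1 (mt LinearMap.ext j0)
      let z : LinearMap.range f := ⟨_, ⟨(l ^ j) x, by
        rw [LinearMap.mem_ker, ← Module.End.mul_apply, ← pow_add, add_right_comm, j1]; rfl⟩, rfl⟩
      have z0 : z ≠ 0 := fun q => hx (by rw [pow_add]; exact congrArg Subtype.val q)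
      obtain ⟨s, -, hs⟩ := (Nat.dvd_prime_pow hp).1 (addOrderOf_dvd_of_nsmul_eq_zero
        (show p ^ n • z = 0 from Subtype.ext (by
          rw [← Nat.cast_pow] at t; exact (Module.End.natCast_apply ..).symm.trans (DFunLike.congr_fun t z.1))))
      have d : p ∣ Nat.card (LinearMap.range f) := (dvd_pow_self p fun q => z0
        (AddMonoid.addOrderOf_eq_one_iff.1 (by rw [hs, q, pow_zero]))).trans (hs ▸ addOrderOf_dvd_natCard z)
      rw [Submodule.card_eq_card_quotient_mul_card (LinearMap.ker f), c1,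
        Nat.card_congr f.quotKerEquivRange.toEquiv, pow_succ]
      exact mul_dvd_mul (ih (by omega)) d
  exact absurd (Nat.le_of_dvd Nat.card_pos (ke ▸ st e le_rfl)) (not_le.2 lt)

end Vale.Agent.P014X.Ac.Pk
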