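import Vale.Agent.P014X.Ac.St
import Vale.Agent.P014X.An.Smo

/-! # P014X, the anchor: the odd part of the smoothing factor (row SMU) -/

set_option autoImplicit false
set_option linter.all false

namespace Vale.Agent.P014X.Ac

namespace Smu

open Subgroup

/-- the orders in a group and in its quotient by an involution -/
theorem grp {Γ : Type} [Group Γ] {p j : ℕ} (hp : p.Prime) (h2 : p ≠ 2) {t x : Γ}
    [(zpowers t).Normal] (c : Commute t x) (t1 : t ≠ 1) (t2 : t * t = 1)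
    (hx : (t⁻¹ * x) ^ p ^ j = 1) :
    Nat.card Γ = 2 * Nat.card (Γ ⧸ zpowers t) ∧ ∃ i, orderOf x = 2 * p ^ i ∧
      orderOf (QuotientGroup.mk' (zpowers t) x) = p ^ i := by
  have ot : orderOf t = 2 := orderOf_eq_prime (by rw [sq, t2]) t1
  obtain ⟨i, -, oy⟩ := (Nat.dvd_prime_pow hp).1 (orderOf_dvd_of_pow_eq_one hx)
  have co : Nat.Coprime 2 (p ^ i) :=
    ((Nat.coprime_primes Nat.prime_two hp).2 (Ne.symm h2)).pow_right i
  refine ⟨by rw [card_eq_card_quotient_mul_card_subgroup (zpowers t), Nat.card_zpowers, ot,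
    mul_comm], i, ?_, ?_⟩
  · have e := ((Commute.refl t).inv_right.mul_right c).orderOf_mul_eq_mul_orderOf_of_coprime
      (by rw [ot, oy]; exact co)
    rwa [mul_inv_cancel_left, ot, oy] at e
  · have e : QuotientGroup.mk' (zpowers t) x = QuotientGroup.mk' (zpowers t) (t⁻¹ * x) := by
      rw [map_mul, map_inv, QuotientGroup.mk'_apply _ t,
        (QuotientGroup.eq_one_iff t).2 (mem_zpowers t), inv_one, one_mul]
    rw [e]
    refine Nat.dvd_antisymm (oy ▸ orderOf_map_dvd _ _) (co.symm.dvd_of_dvd_mul_right ?_)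
    have m := pow_orderOf_eq_one (QuotientGroup.mk' (zpowers t) (t⁻¹ * x))
    rw [← map_pow, QuotientGroup.mk'_apply, QuotientGroup.eq_one_iff] at m
    rw [← oy, orderOf_dvd_iff_pow_eq_one, pow_mul, ← orderOf_dvd_iff_pow_eq_one, ← ot]
    exact orderOf_dvd_of_mem_zpowers m

/-- the group of an involution -/
theorem mem2 {Γ : Type} [Group Γ] {t y : Γ} (t2 : t * t = 1) : y ∈ zpowers t ↔ y = 1 ∨ t = y := by
  refine ⟨?_, ?_⟩
  · rintro ⟨n, rfl⟩
    have e : ∀ m : ℤ, t ^ (2 * m) = 1 := fun m => by rw [zpow_mul, zpow_two, t2, one_zpow]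
    rcases Int.even_or_odd' n with ⟨m, rfl | rfl⟩
    · exact .inl (e m)
    · exact .inr (by show t = t ^ (2 * m + 1); rw [zpow_add, e, one_mul, zpow_one])
  · rintro (rfl | rfl)
    exacts [one_mem _, mem_zpowers _]

/-- the factor `b ^ o + 1` is prime to `p` -/
theorem val {p a i : ℕ} (hp : p.Prime) (a1 : 1 < a) (ha : ¬ p ∣ a ^ 2 + 1) (e : ℕ) :
    padicValNat p ((a ^ (2 * (2 * p ^ i)) - 1) ^ e) = padicValNat p ((a ^ (2 * p ^ i) - 1) ^ e) := by
  have := Fact.mk hp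
  have l : 1 < a ^ (2 * p ^ i) := Nat.one_lt_pow (by have := pow_pos hp.pos i; omega) a1
  have f : a ^ (2 * (2 * p ^ i)) - 1 = (a ^ (2 * p ^ i) + 1) * (a ^ (2 * p ^ i) - 1) := by
    rw [← Nat.sq_sub_sq, one_pow, ← pow_mul, mul_comm]
  have u : ¬ p ∣ a ^ (2 * p ^ i) + 1 := fun h => ha (by
    rw [← ZMod.natCast_eq_zero_iff] at h ⊢
    push_cast at h ⊢
    rwa [pow_mul, ZMod.pow_card_pow] at h)
  have n : a ^ (2 * p ^ i) - 1 ≠ 0 := Nat.sub_ne_zero_of_lt l
  rw [f, padicValNat.pow, padicValNat.pow,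
    padicValNat.mul (Nat.succ_ne_zero _) n, padicValNat.eq_zero_of_not_dvd u, zero_add]

end Smu

open Subgroup

/-- **row SMU** -/
theorem smu : SMU := fun p a j H H₁ G ι g hp h2 a1 ha _ hι hg com fi i1 i2 hj h1 => by
  have nm : (H.subgroupOf G).Normal := ⟨fun n hn x => by
    have := H.mul_mem (com x x.2 n n.2) hn
    rw [mem_subgroupOf]
    simpa using this⟩
  let π := QuotientGroup.mk' (H.subgroupOf G)
  have k : ∀ x : G, π x = 1 ↔ x.1 ∈ H := fun x => QuotientGroup.eq_one_iff x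
  have s : Function.Surjective π := QuotientGroup.mk'_surjective _
  have cm : ∀ x y : G ⧸ H.subgroupOf G, Commute x y := fun x y => by
    obtain ⟨x, rfl⟩ := s x
    obtain ⟨y, rfl⟩ := s y
    rw [← commutatorElement_eq_one_iff_commute, commutatorElement_def, ← map_inv, ← map_inv,
      ← map_mul, ← map_mul, ← map_mul]
    exact (k _).2 (com x x.2 y y.2)
  have n2 : (zpowers (π ⟨ι, hι⟩)).Normal := ⟨fun n hn x => by
    rwa [(cm x n).eq, mul_inv_cancel_right]⟩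
  have t2 : π ⟨ι, hι⟩ * π ⟨ι, hι⟩ = 1 := by rw [← map_mul]; exact (k _).2 i2
  have t1 : π ⟨ι, hι⟩ ≠ 1 := fun h => i1 ((k _).1 h)
  obtain ⟨c, i, o, o1⟩ := Smu.grp (j := j) hp h2 (cm (π ⟨ι, hι⟩) (π ⟨g, hg⟩)) t1 t2 (by
    rw [← map_inv, ← map_mul, ← map_pow]; exact (k _).2 hj)
  let π₁ := (QuotientGroup.mk' (zpowers (π ⟨ι, hι⟩))).comp π
  have s1 : Function.Surjective π₁ := (QuotientGroup.mk'_surjective _).comp s
  have k1 : ∀ x : G, π₁ x = 1 ↔ x.1 ∈ H₁ := fun x => by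
    have e : ι⁻¹ * x.1 ∈ H ↔ π ⟨ι, hι⟩ = π x := by
      rw [← inv_mul_eq_one, ← map_inv, ← map_mul]; exact (k ((⟨ι, hι⟩ : G)⁻¹ * x)).symm
    rw [h1, ← k, e]
    exact (QuotientGroup.eq_one_iff (π x)).trans (Smu.mem2 t2)
  have e1 := An.Smo.ord k ⟨g, hg⟩
  have e2 := An.Smo.ord k1 ⟨g, hg⟩
  rw [An.sm, An.sm, An.Smo.idx s k, An.Smo.idx s1 k1, e1, e2, c, o, MonoidHom.comp_apply, o1,
    Nat.mul_div_mul_left _ _ two_pos]
  exact ⟨rfl, Smu.val hp a1 ha _⟩

end Vale.Agent.P014X.Ac
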