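import Vale.Agent.P014X.An.St

/-! # P014X, the anchor on the side of the fields (words and rows) -/

set_option autoImplicit false
set_option linter.all false

open NumberField NumberField.Units IsDedekindDomain Function Finset
open scoped Classical nonZeroDivisors

noncomputable section

namespace Vale.Agent.P014X.Ac

open Vale.Agent.P022 (Qb GQ GK)
open Vale.Agent.P022D.W (dec)
open Cd (Tv)
open An (Pm nU vU Sp IDX)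

/-! ## algebra -/

section

variable {M I : Type} [AddCommGroup M] [AddCommGroup I]

variable (M I) in
/-- divisors and norms -/
structure Dp where
  d : M →+ I
  N : M →+ M
  N' : I →+ I
  J : AddSubgroup I

namespace Dp

variable (X : Dp M I)

/-- a layer -/
structure Lp (M₁ M₀ : AddSubgroup M) (I₁ I₀ : AddSubgroup I) : Prop where
  com : ∀ x, X.d (X.N x) = X.N' (X.d x)
  NJ : ∀ x ∈ X.J, X.N' x ∈ X.J
  d1 : ∀ x ∈ M₁, X.d x ∈ I₁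
  d0 : ∀ x ∈ M₀, X.d x ∈ I₀
  n : ∀ x ∈ M₁, X.N x ∈ M₀
  n' : ∀ x ∈ I₁, X.N' x ∈ I₀
  inj : ∀ x ∈ I₁, x ∈ X.J → X.N' x = 0 → x = 0

/-- the pairs `(y, D)` with `d y = N D` modulo `J` -/
def P (M₀ : AddSubgroup M) (I₁ : AddSubgroup I) : AddSubgroup (M × I) :=
  M₀.prod I₁ ⊓ X.J.comap (X.d.coprod (-X.N'))

/-- the trivial pairs -/
def R (M₁ : AddSubgroup M) (I₁ : AddSubgroup I) : AddSubgroup (M × I) :=
  M₁.map (X.N.prod X.d) ⊔ (⊥ : AddSubgroup M).prod (I₁ ⊓ X.J)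

/-- the order of the quotient -/
def b (M₁ M₀ : AddSubgroup M) (I₁ : AddSubgroup I) : ℕ := (X.R M₁ I₁).relIndex (X.P M₀ I₁)

/-- the class number -/
def h (M₁ : AddSubgroup M) (I₁ : AddSubgroup I) : ℕ := (M₁.map X.d).relIndex I₁

/-- the norm index of the units -/
def e (M₁ M₀ : AddSubgroup M) : ℕ := ((M₁ ⊓ X.d.ker).map X.N).relIndex (M₀ ⊓ X.d.ker)

/-- the product of the residue degrees -/
def f (I₁ I₀ : AddSubgroup I) : ℕ := ((I₁ ⊓ X.J).map X.N').relIndex (I₀ ⊓ X.J)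

/-- the cokernel of the norm -/
def c (M₀ : AddSubgroup M) (I₁ I₀ : AddSubgroup I) : ℕ :=
  (M₀.map X.d ⊔ I₁.map X.N' ⊔ (I₀ ⊓ X.J)).relIndex I₀

/-- the units of norm one -/
def U : AddSubgroup M := X.d.ker ⊓ X.N.ker

end Dp

variable (M) in
/-- the multiples of `p` -/
def pw (p : ℕ) : AddSubgroup M := (nsmulAddMonoidHom p : M →+ M).range

/-- the norm -/
def nr (p k : ℕ) (g : AddMonoid.End M) : AddMonoid.End M := ∑ i ∈ range p, g ^ (p ^ k * i)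

variable (M I) in
/-- four fields -/
structure Mn (p k : ℕ) where
  d : M →+ I
  g : AddMonoid.End M
  g' : AddMonoid.End I
  t : AddMonoid.End M
  t' : AddMonoid.End I
  J : AddSubgroup I
  M0 : AddSubgroup M
  Mp : AddSubgroup M
  I0 : AddSubgroup I
  Ip : AddSubgroup I
  Iq : AddSubgroup I
  C : AddSubgroup M
  Cp : AddSubgroup M

namespace Mn

variable {p k : ℕ} (Y : Mn M I p k)

/-- the norms -/
def X : Dp M I := ⟨Y.d, nr p k Y.g, nr p k Y.g', Y.J⟩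

/-- `1 - t` -/
def m : M →+ M := (1 - Y.t : AddMonoid.End M)

/-- `1 - t` on pairs -/
def m2 : M × I →+ M × I := Y.m.prodMap (1 - Y.t' : AddMonoid.End I)

/-- the order of the minus part -/
def bm : ℕ := (Y.X.R ⊤ ⊤).relIndex ((Y.X.P Y.M0 ⊤).map Y.m2 ⊔ Y.X.R ⊤ ⊤)

/-- the index in the minus part -/
def im : ℕ := (Y.C.map Y.m).relIndex (Y.X.U.map Y.m)

/-- the singular numbers -/
def W : AddSubgroup M := (Y.J ⊔ pw I p).comap Y.d ⊓ (pw M p).comap Y.X.N ⊓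
  (pw M p).comap (1 + Y.t : AddMonoid.End M)

/-- the axioms -/
structure Ok0 : Prop where
  pr : p.Prime
  odd : p ≠ 2
  dg : ∀ x, Y.d (Y.g x) = Y.g' (Y.d x)
  dt : ∀ x, Y.d (Y.t x) = Y.t' (Y.d x)
  gt : Y.g * Y.t = Y.t * Y.g
  gt' : Y.g' * Y.t' = Y.t' * Y.g'
  gp : Y.g ^ p ^ (k + 1) = 1
  gp' : Y.g' ^ p ^ (k + 1) = 1
  tt : Y.t * Y.t = 1
  tt' : Y.t' * Y.t' = 1
  gJ : ∀ x ∈ Y.J, Y.g' x ∈ Y.J
  tJ : ∀ x ∈ Y.J, Y.t' x ∈ Y.J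
  M0 : ∀ x, x ∈ Y.M0 ↔ (Y.g ^ p ^ k) x = x
  Mp : ∀ x, x ∈ Y.Mp ↔ Y.t x = x
  l0 : Y.X.Lp ⊤ Y.M0 ⊤ Y.I0
  lp : Y.X.Lp Y.Mp (Y.M0 ⊓ Y.Mp) Y.Ip Y.Iq
  up : ∀ x, x + Y.t' x ∈ Y.Ip
  uq : ∀ x ∈ Y.I0, x + Y.t' x ∈ Y.Iq
  fp : ∀ x ∈ Y.Ip, Y.t' x = x
  q0 : Y.Iq ≤ Y.I0
  qp : Y.Iq ≤ Y.Ip
  tf : ∀ x, p • x ∈ Y.J → x ∈ Y.J
  tf0 : ∀ x : I, p • x = 0 → x = 0
  CU : Y.C ≤ Y.X.U
  Cp : Y.Cp ≤ Y.C ⊓ Y.Mp
  Ct : ∀ x ∈ Y.C, x + Y.t x ∈ Y.Cp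

/-- the same, and the roots of unity are fixed -/
structure Ok : Prop extends Y.Ok0 where
  mu : ∀ x : M, p • x = 0 → Y.t x = x

end Mn

end

/-- the order of the quotient -/
def BEQ : Prop := ∀ (M I : Type) [AddCommGroup M] [AddCommGroup I] (X : Dp M I) M₁ M₀ I₁ I₀,
  X.Lp M₁ M₀ I₁ I₀ → X.h M₀ I₀ ≠ 0 → X.R M₁ I₁ ≤ X.P M₀ I₁ ∧ X.c M₀ I₁ I₀ ≠ 0 ∧
    X.b M₁ M₀ I₁ * X.h M₀ I₀ = X.e M₁ M₀ * X.h M₁ I₁ * X.f I₁ I₀ * X.c M₀ I₁ I₀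

/-- the plus part of the quotient -/
def MI1 : Prop := ∀ (M I : Type) [AddCommGroup M] [AddCommGroup I] p k (Y : Mn M I p k), Y.Ok0 →
  Y.X.b ⊤ Y.M0 ⊤ ≠ 0 → Y.X.b Y.Mp (Y.M0 ⊓ Y.Mp) Y.Ip ≠ 0 → Y.bm ≠ 0 ∧
    padicValNat p (Y.X.b ⊤ Y.M0 ⊤) ≤
      padicValNat p Y.bm + padicValNat p (Y.X.b Y.Mp (Y.M0 ⊓ Y.Mp) Y.Ip)

/-- the plus part of the unit index -/
def MI2 : Prop := ∀ (M I : Type) [AddCommGroup M] [AddCommGroup I] p k (Y : Mn M I p k), Y.Ok0 →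
  Y.C.relIndex Y.X.U ≠ 0 → Y.Cp.relIndex (Y.X.U ⊓ Y.Mp) ≠ 0 → Y.im ≠ 0 ∧
    padicValNat p Y.im + padicValNat p (Y.Cp.relIndex (Y.X.U ⊓ Y.Mp)) ≤
      padicValNat p (Y.C.relIndex Y.X.U)

/-- the plus part of the cokernel -/
def MI3 : Prop := ∀ (M I : Type) [AddCommGroup M] [AddCommGroup I] p k (Y : Mn M I p k), Y.Ok0 →
  Y.X.c Y.M0 ⊤ Y.I0 ≠ 0 → Y.X.c (Y.M0 ⊓ Y.Mp) Y.Ip Y.Iq ≠ 0 →
    padicValNat p (Y.X.c (Y.M0 ⊓ Y.Mp) Y.Ip Y.Iq) ≤ padicValNat p (Y.X.c Y.M0 ⊤ Y.I0)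

/-- finite modules over the cyclotomic integers -/
def AMD : Prop := ∀ (B : Type) [AddCommGroup B] [Finite B] (p k : ℕ) (g : AddMonoid.End B),
  p.Prime → g ^ p ^ (k + 1) = 1 → nr p k g = 0 →
  p ^ min (padicValNat p (Nat.card B)) ((p - 1) * p ^ k) ≤
    Nat.card (nsmulAddMonoidHom p : B →+ B).ker

/-- the count of the singular numbers -/
def WCT : Prop := ∀ (M I : Type) [AddCommGroup M] [AddCommGroup I] p k (Y : Mn M I p k), Y.Ok →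
  Y.bm ≠ 0 → (pw M p).relIndex Y.W ≠ 0 →
  (pw M p).relIndex (Y.X.U.map Y.m) * p ^ min (padicValNat p Y.bm) ((p - 1) * p ^ k) ≤
    (pw M p).relIndex Y.W

/-- the image of the elliptic units -/
def ZCT : Prop := ∀ (M : Type) [AddCommGroup M] (p : ℕ) (C V : AddSubgroup M), p.Prime → C ≤ V →
  C.relIndex V ≠ 0 → (pw M p).relIndex C ≠ 0 →
  (pw M p).relIndex V ≤ (pw M p).relIndex C * p ^ padicValNat p (C.relIndex V)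

/-- the rank -/
def RNK : Prop := ∀ (M I : Type) [AddCommGroup M] [AddCommGroup I] p k (Y : Mn M I p k) (r : ℕ),
  Y.Ok → Module.Finite ℤ Y.d.ker → Y.X.e Y.Mp (Y.M0 ⊓ Y.Mp) ≠ 0 →
  r + Module.finrank ℤ ↥(Y.M0 ⊓ Y.d.ker) + Module.finrank ℤ ↥(Y.Mp ⊓ Y.d.ker) ≤
    Module.finrank ℤ Y.d.ker + Module.finrank ℤ ↥(Y.M0 ⊓ Y.Mp ⊓ Y.d.ker) →
  p ^ r ≤ (pw M p).relIndex (Y.X.U.map Y.m)

/-- **the algebra** -/
def PAA : Prop := ∀ (M I : Type) [AddCommGroup M] [AddCommGroup I] p k (Y : Mn M I p k)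
  (r s s' a a' : ℕ), Y.Ok → p ^ r ≤ (pw M p).relIndex (Y.X.U.map Y.m) →
  Y.C.relIndex Y.X.U * Y.X.h Y.M0 Y.I0 * s ≠ 0 →
  Y.Cp.relIndex (Y.X.U ⊓ Y.Mp) * Y.X.h (Y.M0 ⊓ Y.Mp) Y.Iq * a ≠ 0 →
  Y.C.relIndex Y.X.U * Y.X.h Y.M0 Y.I0 * s = Y.X.e ⊤ Y.M0 * Y.X.h ⊤ ⊤ * Y.X.f ⊤ Y.I0 * s' →
  Y.Cp.relIndex (Y.X.U ⊓ Y.Mp) * Y.X.h (Y.M0 ⊓ Y.Mp) Y.Iq * a =
    Y.X.e Y.Mp (Y.M0 ⊓ Y.Mp) * Y.X.h Y.Mp Y.Ip * Y.X.f Y.Ip Y.Iq * a' →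
  padicValNat p (s' * a) ≤ padicValNat p (s * a') →
  ∀ W Z : AddSubgroup M, Y.W ≤ W → Y.C.map Y.m ≤ Z → (pw M p).relIndex W ≠ 0 →
    (pw M p).relIndex Z ≠ 0 → (pw M p).relIndex W < p ^ (r + (p - 1) * p ^ k) →
    p ^ (2 * r) ≤ (pw M p).relIndex W * (pw M p).relIndex Z

/-! ## fields -/

section

variable {F₀ F : Type} [Field F₀] [NumberField F₀] [Field F] [NumberField F]

variable (F) in
/-- the numbers -/
abbrev AM : Type := Additive Fˣ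

variable (F) in
/-- the divisors -/
abbrev AI : Type := Additive (FractionalIdeal (𝓞 F)⁰ F)ˣ

theorem nz (φ : F₀ →+* F) : (𝓞 F₀)⁰ ≤ Submonoid.comap (RingOfIntegers.mapRingHom φ) (𝓞 F)⁰ :=
  nonZeroDivisors_le_comap_nonZeroDivisors_of_injective _ fun a b e =>
    Subtype.ext (φ.injective (congrArg Subtype.val e))

/-- the map on numbers -/
def am (φ : F₀ →+* F) : AM F₀ →+ AM F := MonoidHom.toAdditive (Units.map φ.toMonoidHom)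

/-- the map on divisors -/
def ai (φ : F₀ →+* F) : AI F₀ →+ AI F :=
  MonoidHom.toAdditive (Units.map (FractionalIdeal.extendedHom' F (nz φ)).toMonoidHom)

variable (F) in
/-- the divisor of a number -/
def ad : AM F →+ AI F := MonoidHom.toAdditive (toPrincipalIdeal (𝓞 F) F)

variable (F) in
/-- units are numbers -/
def au : Additive (𝓞 F)ˣ →+ AM F :=
  MonoidHom.toAdditive (Units.map (algebraMap (𝓞 F) F).toMonoidHom)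

/-- the divisor of a prime -/
def pm (w : Pm F) : AI F := Additive.ofMul
  (FractionalIdeal.mk0 F ⟨w.asIdeal, mem_nonZeroDivisors_of_ne_zero w.ne_bot⟩)

/-- the divisors with support in `S` -/
def Js (S : Finset (Pm F)) : AddSubgroup (AI F) := AddSubgroup.closure (pm '' (S : Set (Pm F)))

/-- `x` is a unit times a `p`-th power at `w` -/
def Lo (p : ℕ) (w : Pm F) (x : F) : Prop :=
  ∃ (t : F) (a b : 𝓞 F), a ∉ w.asIdeal ∧ b ∉ w.asIdeal ∧ (a : F) * x = b * t ^ p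

/-- `S` is the set of the primes above `S₀` -/
def Ab (φ : F₀ →+* F) (S₀ : Finset (Pm F₀)) (S : Finset (Pm F)) : Prop := ∀ (w : Pm F) (v : Pm F₀),
  w.asIdeal.comap (RingOfIntegers.mapRingHom φ) = v.asIdeal → (w ∈ S ↔ v ∈ S₀)

end

/-- functoriality -/
def EXF : Prop := (∀ (F₀ F₁ F : Type) [Field F₀] [NumberField F₀] [Field F₁] [NumberField F₁] [Field F]
    [NumberField F] (φ : F₀ →+* F₁) (ψ : F₁ →+* F),
    (∀ x, ai (ψ.comp φ) x = ai ψ (ai φ x)) ∧ (∀ x, ai φ (ad F₀ x) = ad F₁ (am φ x)) ∧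
    Injective (ai φ)) ∧
  ∀ (F : Type) [Field F] [NumberField F], (∀ x, ai (RingHom.id F) x = x) ∧
    (ad F).range.index = classNumber F ∧ (ad F).ker = (au F).range ∧
    Module.Finite ℤ (ad F).ker ∧ Module.finrank ℤ (ad F).ker = rank F ∧
    AddSubgroup.closure (Set.range (pm : Pm F → AI F)) = ⊤

/-- supports -/
def JSF : Prop := (∀ (F : Type) [Field F] [NumberField F] (S : Finset (Pm F)) (n : ℕ), n ≠ 0 →
    (∀ x, n • x ∈ Js S → x ∈ Js S) ∧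
    ∀ x : Fˣ, ad F (Additive.ofMul x) ∈ Js S ⊔ pw (AI F) n → ∀ w ∉ S, Lo n w (x : F)) ∧
  ∀ (F₀ F : Type) [Field F₀] [NumberField F₀] [Field F] [NumberField F] (φ : F₀ →+* F) S₀ S,
    Ab φ S₀ S → ∀ x, ai φ x ∈ Js S ↔ x ∈ Js S₀

/-- `F / F₀` is cyclic of degree `n` with generator `s` -/
structure Cc (n : ℕ) (F₀ : Type) {F : Type} [Field F₀] [Field F] [Algebra F₀ F] (s : F ≃+* F) :
    Prop where
  ord : orderOf s = n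
  ne : n ≠ 0
  fix : ∀ x, s x = x ↔ x ∈ (algebraMap F₀ F).range

/-- norms -/
def NRM : Prop := ∀ (n : ℕ) (F₀ F : Type) [Field F₀] [NumberField F₀] [Field F] [NumberField F]
  [Algebra F₀ F] (s : F ≃+* F), Cc n F₀ s →
  (∀ (w : Pm F) (v : Pm F₀), w.asIdeal.under (𝓞 F₀) = v.asIdeal →
    ∑ i ∈ range n, ai (s ^ i).toRingHom (pm w) =
      w.asIdeal.inertiaDeg (𝓞 F₀) • ai (algebraMap F₀ F) (pm v)) ∧
  (∀ x, ∑ i ∈ range n, ai (s ^ i).toRingHom x ∈ (ai (algebraMap F₀ F)).range) ∧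
  ∀ x : (𝓞 F)ˣ, ∑ i ∈ range n, am (s ^ i).toRingHom (au F (Additive.ofMul x)) =
    am (algebraMap F₀ F) (au F₀ (Additive.ofMul (nU F₀ F x)))

/-- **a layer of fields inside `L`** -/
def TRP : Prop := ∀ (n : ℕ) (F₀ F L : Type) [Field F₀] [NumberField F₀] [Field F] [NumberField F]
  [Field L] [NumberField L] [Algebra F₀ F] (s : F ≃+* F) (φ : F →+* L) (X : Dp (AM L) (AI L))
  S₀ S T, Cc n F₀ s → Ab (algebraMap F₀ F) S₀ S → Ab φ S T → S.card = S₀.card →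
  X.d = ad L → X.J = Js T → (∀ x, X.d (X.N x) = X.N' (X.d x)) → (∀ x ∈ X.J, X.N' x ∈ X.J) →
  (∀ x, X.N (am φ x) = am φ (∑ i ∈ range n, am (s ^ i).toRingHom x)) →
  (∀ x, X.N' (ai φ x) = ai φ (∑ i ∈ range n, ai (s ^ i).toRingHom x)) →
  ∀ M₁ M₀ I₁ I₀, M₁ = (am φ).range → M₀ = (am (φ.comp (algebraMap F₀ F))).range →
    I₁ = (ai φ).range → I₀ = (ai (φ.comp (algebraMap F₀ F))).range →
    X.Lp M₁ M₀ I₁ I₀ ∧ X.h M₁ I₁ = classNumber F ∧ X.h M₀ I₀ = classNumber F₀ ∧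
    X.e M₁ M₀ = (nU F₀ F).range.index ∧ X.f I₁ I₀ = ∏ w ∈ S, w.asIdeal.inertiaDeg (𝓞 F₀) ∧
    Module.finrank ℤ ↥(M₁ ⊓ X.d.ker) = rank F ∧ Module.finrank ℤ ↥(M₀ ⊓ X.d.ker) = rank F₀ ∧
    X.U ⊓ M₁ = (nU F₀ F).ker.toAddSubgroup.map ((am φ).comp (au F)) ∧
    Injective ((am φ).comp (au F))

/-- the layer and the involution -/
structure Qu {A B : ℤ} (D : Cd A B) (p k : ℕ) (m : D.O) (H : Subgroup GQ) (γ ι : GQ) : Prop where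
  G : H ≤ D.G
  hm : D.Hm m ≤ H
  g0 : γ ∈ D.G
  g1 : γ ^ p ^ k ∉ H
  gp : γ ^ p ^ (k + 1) ∈ H
  i0 : ι ∈ D.G
  i1 : ι ∉ H
  i2 : ι * ι ∈ H
  mu : ∀ z : Qb, z ^ p = 1 → ι z = z
  ns : ∀ P : Ideal (𝓞 Qb), P.IsPrime → D.j m ∈ P →
    ∃ g ∈ dec P, g ∉ H ∧ ∃ i : ℕ, ((γ ^ p ^ k) ^ i)⁻¹ * g ∈ H

/-- the odd part of the smoothing factor is a unit -/
def SMU : Prop := ∀ (p a j : ℕ) (H H₁ G : Subgroup GQ) (ι g : GQ), p.Prime → p ≠ 2 → 1 < a →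
  ¬ p ∣ a ^ 2 + 1 → H ≤ G → ι ∈ G → g ∈ G → (∀ x ∈ G, ∀ y ∈ G, x * y * x⁻¹ * y⁻¹ ∈ H) →
  H.relIndex G ≠ 0 → ι ∉ H → ι * ι ∈ H → (ι⁻¹ * g) ^ p ^ j ∈ H →
  (∀ x, x ∈ H₁ ↔ x ∈ H ∨ ι⁻¹ * x ∈ H) → H.relIndex G = 2 * H₁.relIndex G ∧
    padicValNat p (An.sm a H G g) = padicValNat p (An.sm a H₁ G g)

/-- **the anchor** -/
def ANC : Prop := ∀ A B (D : Cd A B), D.Cf → D.Eu → ∀ (p k a j r : ℕ) m, p.Prime → p ≠ 2 → D.Es p →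
  1 < a → D.Ad p a m → ¬ p ∣ a ^ 2 + 1 →
  ∀ (F : Type) [Field F] [NumberField F] (jF : F →+* Qb) γ ι g ζ T (u : F) S,
    Qu D p k m (GK jF) γ ι → IsUnit ζ → D.Ac m g (ζ * a) → (ι⁻¹ * g) ^ p ^ j ∈ GK jF →
    Tv (GK jF) (D.Hm m) T → jF u = ∏ s ∈ T, s (D.un a m) → Sp D m jF S →
    2 * p * r = (p - 1) * (GK jF).relIndex D.G → ∀ W Z : Subgroup Fˣ,
    (∀ x : Fˣ, (∀ w ∉ S, Lo p w (x : F)) →
      (∃ y : F, ∏ i ∈ range p, ((γ ^ p ^ k) ^ i) (jF x) = jF y ^ p) →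
      (∃ y : F, jF x * ι (jF x) = jF y ^ p) → x ∈ W) →
    (∀ x : Fˣ, ∀ h ∈ D.G, jF x = h ((γ ^ p ^ k) (jF u) / jF u) / ι (h ((γ ^ p ^ k) (jF u) / jF u)) →
      x ∈ Z) →
    (powMonoidHom p : Fˣ →* Fˣ).range.relIndex W ≠ 0 →
    (powMonoidHom p : Fˣ →* Fˣ).range.relIndex Z ≠ 0 →
    (powMonoidHom p : Fˣ →* Fˣ).range.relIndex W < p ^ (r + (p - 1) * p ^ k) →
    p ^ (2 * r) ≤
      (powMonoidHom p : Fˣ →* Fˣ).range.relIndex W * (powMonoidHom p : Fˣ →* Fˣ).range.relIndex Z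

end Vale.Agent.P014X.Ac
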