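import Vale.Agent.P014X.St2
import Vale.Agent.P014X.Es.Zs
import Vale.Agent.P014X.Ac.St

/-! # P014X, the anchor at level `q` (words and rows) -/

set_option autoImplicit false
set_option linter.all false

open NumberField NumberField.Units IsDedekindDomain Function Finset
open scoped Classical nonZeroDivisors

noncomputable section

namespace Vale.Agent.P014X.Ac

open Vale.Agent.P022 (Qb GQ GK)
open Vale.Agent.P027M.S (Inert)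
open Vale.Agent.P022D.W (dec)
open Vale.Agent.P022E.GW (Ov)
open Vale.Agent.P014U
open Vale.Agent.P014U.Dr (Zn)
open Vale.Agent.P014U.Kq (M2)
open Vale.Agent.P014T.Ct (db)
open Cd (Tv)
open An (Pm Sp sm Cu)

/-! ## algebra -/

section

variable {M I Q : Type} [AddCommGroup M] [AddCommGroup I] [AddCommGroup Q]

/-- the order of `m B` -/
def Dp.bm (X : Dp M I) (M0 : AddSubgroup M) (m : M →+ M) (m' : I →+ I) : ℕ :=
  (X.R ⊤ ⊤).relIndex ((X.P M0 ⊤).map (m.prodMap m') ⊔ X.R ⊤ ⊤)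

/-- the index in `m U` -/
def Dp.im (X : Dp M I) (C : AddSubgroup M) (m : M →+ M) : ℕ := (C.map m).relIndex (X.U.map m)

/-- what the class number formula gives -/
structure Pg (p r E : ℕ) (X : Dp M I) (M0 C : AddSubgroup M) (m : M →+ M) (m' : I →+ I) : Prop where
  CU : C ≤ X.U
  bm : X.bm M0 m m' ≠ 0
  im : X.im C m ≠ 0
  key : padicValNat p (X.im C m) ≤ padicValNat p (X.bm M0 m m') + E
  fg : Module.Finite ℤ X.U
  rk : r ≤ Module.finrank ℤ (X.U.map m)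

variable (M I Q) in
/-- a group of roots -/
structure Ro where
  X : Dp M I
  M0 : AddSubgroup M
  m : M →+ M
  m' : I →+ I
  j : M →+ Q
  N : Q →+ Q
  n : Q →+ Q

namespace Ro

variable (Y : Ro M I Q) (q : ℕ)

/-- roots of the singular pairs -/
def RR : AddSubgroup Q := (((Y.X.J ⊔ pw I q).comap Y.X.d).map Y.j).comap (nsmulAddMonoidHom q) ⊓
  (Y.M0.map Y.j).comap Y.N

/-- roots of norm zero of the elements of `K` -/
def R0 (K : AddSubgroup M) : AddSubgroup Q := (K.map Y.j).comap (nsmulAddMonoidHom q) ⊓ Y.N.ker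

/-- the order of the image of `n A` modulo the numbers -/
def ix (A : AddSubgroup Q) : ℕ := Y.j.range.relIndex (A.map Y.n)

/-- the axioms -/
structure Ok (p e κ : ℕ) : Prop where
  pr : p.Prime
  hq : q = p ^ e
  cop : ¬ p ∣ κ
  com : ∀ x, Y.X.d (Y.X.N x) = Y.X.N' (Y.X.d x)
  NJ : ∀ x ∈ Y.X.J, Y.X.N' x ∈ Y.X.J
  N0 : ∀ x, Y.X.N x ∈ Y.M0
  tf : ∀ x, p • x ∈ Y.X.J → x ∈ Y.X.J
  tf0 : ∀ x : I, p • x = 0 → x = 0
  inj : Injective Y.j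
  jN : ∀ x, Y.N (Y.j x) = Y.j (Y.X.N x)
  jm : ∀ x, Y.n (Y.j x) = Y.j (Y.m x)
  nN : ∀ r, Y.n (Y.N r) = Y.N (Y.n r)
  nn : ∀ r, Y.n (Y.n r) = κ • Y.n r
  dm : ∀ x, Y.X.d (Y.m x) = Y.m' (Y.X.d x)
  mN : ∀ x, Y.m' (Y.X.N' x) = Y.X.N' (Y.m' x)
  mJ : ∀ x ∈ Y.X.J, Y.m' x ∈ Y.X.J
  mm : ∀ x, Y.m' (Y.m' x) = κ • Y.m' x
  m0 : ∀ x ∈ Y.M0, Y.m x ∈ Y.M0
  rt : ∀ x, ∀ y ∈ Y.M0, Y.X.N x = q • y → ∃ r, q • r = Y.j x ∧ Y.N r = Y.j y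

end Ro

end

/-- the singular pairs -/
def WCQ : Prop := ∀ (M I Q : Type) [AddCommGroup M] [AddCommGroup I] [AddCommGroup Q] (Y : Ro M I Q)
  (q p e κ : ℕ), Y.Ok q p e κ → Y.X.bm Y.M0 Y.m Y.m' ≠ 0 →
  padicValNat p (Y.X.bm Y.M0 Y.m Y.m') ≤ e → Y.ix (Y.RR q) ≠ 0 →
  Y.ix (Y.R0 q Y.X.U) * p ^ padicValNat p (Y.X.bm Y.M0 Y.m Y.m') ≤ Y.ix (Y.RR q)

/-- the elliptic units -/
def ZCQ : Prop := ∀ (M I Q : Type) [AddCommGroup M] [AddCommGroup I] [AddCommGroup Q] (Y : Ro M I Q)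
  (q p e κ : ℕ) C, Y.Ok q p e κ → C ≤ Y.X.U → Y.X.im C Y.m ≠ 0 → Y.ix (Y.R0 q C) ≠ 0 →
  Y.ix (Y.R0 q Y.X.U) ≤ Y.ix (Y.R0 q C) * p ^ padicValNat p (Y.X.im C Y.m)

/-- all units -/
def RKQ : Prop := ∀ (M I Q : Type) [AddCommGroup M] [AddCommGroup I] [AddCommGroup Q] (Y : Ro M I Q)
  (q p e κ r : ℕ), Y.Ok q p e κ → Module.Finite ℤ Y.X.U → r ≤ Module.finrank ℤ (Y.X.U.map Y.m) →
  Nat.card ((Y.R0 q ⊥).map Y.n) ≠ 0 → q ^ r * Nat.card ((Y.R0 q ⊥).map Y.n) ≤ Y.ix (Y.R0 q Y.X.U)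

/-- the package without involution -/
def KY0 : Prop := ∀ (M I : Type) [AddCommGroup M] [AddCommGroup I] (X : Dp M I) M0 I0 C
  (p r E s s' : ℕ), p.Prime → X.Lp ⊤ M0 ⊤ I0 → C ≤ X.U → Module.Finite ℤ X.d.ker →
  r + Module.finrank ℤ ↥(M0 ⊓ X.d.ker) ≤ Module.finrank ℤ X.d.ker →
  C.relIndex X.U * X.h M0 I0 * s ≠ 0 →
  C.relIndex X.U * X.h M0 I0 * s = X.e ⊤ M0 * X.h ⊤ ⊤ * X.f ⊤ I0 * s' →
  padicValNat p s' ≤ E + padicValNat p s → Pg p r E X M0 C (.id M) (.id I)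

/-- the package with an involution -/
def KY1 : Prop := ∀ (M I : Type) [AddCommGroup M] [AddCommGroup I] p k (Y : Mn M I p k)
  (r E s s' a a' : ℕ), Y.Ok0 → Module.Finite ℤ Y.d.ker →
  r + Module.finrank ℤ ↥(Y.M0 ⊓ Y.d.ker) + Module.finrank ℤ ↥(Y.Mp ⊓ Y.d.ker) ≤
    Module.finrank ℤ Y.d.ker + Module.finrank ℤ ↥(Y.M0 ⊓ Y.Mp ⊓ Y.d.ker) →
  Y.C.relIndex Y.X.U * Y.X.h Y.M0 Y.I0 * s ≠ 0 →
  Y.Cp.relIndex (Y.X.U ⊓ Y.Mp) * Y.X.h (Y.M0 ⊓ Y.Mp) Y.Iq * a ≠ 0 →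
  Y.C.relIndex Y.X.U * Y.X.h Y.M0 Y.I0 * s = Y.X.e ⊤ Y.M0 * Y.X.h ⊤ ⊤ * Y.X.f ⊤ Y.I0 * s' →
  Y.Cp.relIndex (Y.X.U ⊓ Y.Mp) * Y.X.h (Y.M0 ⊓ Y.Mp) Y.Iq * a =
    Y.X.e Y.Mp (Y.M0 ⊓ Y.Mp) * Y.X.h Y.Mp Y.Ip * Y.X.f Y.Ip Y.Iq * a' →
  padicValNat p (s' * a) ≤ E + padicValNat p (s * a') →
  Pg p r E Y.X Y.M0 Y.C Y.m (1 - Y.t' : AddMonoid.End I)

/-! ## fields -/

section

variable {A B : ℤ} (D : Cd A B)

/-- the layer -/
structure Qv (p k : ℕ) (m : D.O) (H H' : Subgroup GQ) (γ : D.G) : Prop where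
  G : H ≤ D.G
  hm : D.Hm m ≤ H
  g1 : γ.1 ^ p ^ k ∉ H
  gp : γ.1 ^ p ^ (k + 1) ∈ H
  up : ∀ g, g ∈ H' ↔ ∃ i : ℕ, ((γ.1 ^ p ^ k) ^ i)⁻¹ * g ∈ H
  ns : ∀ P : Ideal (𝓞 Qb), P.IsPrime → D.j m ∈ P → ∃ g ∈ dec P, g ∉ H ∧ g ∈ H'

/-- the involution -/
structure Iv (H H' H₁ H₂ : Subgroup GQ) (ι : GQ) : Prop where
  i1 : ι ∉ H
  i2 : ι * ι ∈ H
  h1 : ∀ g, g ∈ H₁ ↔ g ∈ H ∨ ι⁻¹ * g ∈ H
  h2 : ∀ g, g ∈ H₂ ↔ g ∈ H' ∨ ι⁻¹ * g ∈ H'

/-- the norms of the field `F` -/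
def dp {F : Type} [Field F] [NumberField F] (p : ℕ) (s : F ≃+* F) (S : Finset (Pm F)) :
    Dp (AM F) (AI F) :=
  ⟨ad F, ∑ i ∈ range p, am (s ^ i).toRingHom, ∑ i ∈ range p, ai (s ^ i).toRingHom, Js S⟩

/-- the numbers fixed by `s` -/
def fxM {F : Type} [Field F] [NumberField F] (s : F ≃+* F) : AddSubgroup (AM F) :=
  (am s.toRingHom).eqLocus (.id _)

variable {X : Type} [MulAction D.G X]

/-- `X = G / H` -/
structure Gs (H : Subgroup GQ) (x₀ : X) (sec : X → D.G) : Prop where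
  sec : ∀ y, sec y • x₀ = y
  st : ∀ g : D.G, g • x₀ = x₀ ↔ g.1 ∈ H
  com : ∀ (g h : D.G) (y : X), g • h • y = h • g • y

variable (X) in
/-- families -/
abbrev QQ : Type := Additive (X → Qbˣ)

/-- the members -/
def vq (r : QQ X) (y : X) : Qb := (Additive.toMul r y : Qbˣ)

/-- translation -/
def Tq (h : D.G) : QQ X →+ QQ X :=
  MonoidHom.toAdditive (MonoidHom.mk' (fun (r : X → Qbˣ) y => r (h • y)) fun _ _ => rfl)

/-- the norm -/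
def Nq (p : ℕ) (σ : D.G) : QQ X →+ QQ X := ∑ i ∈ range p, Tq D (σ ^ i)

/-- the identity or `1 - ι` -/
def nq (e : ℕ) (ι : D.G) : QQ X →+ QQ X := .id _ - e • Tq D ι

variable (X) in
/-- equivariant families -/
def Fq : AddSubgroup (QQ X) where
  carrier := {r | ∀ (g : D.G) y, g.1 (vq r y) = vq r (g • y)}
  add_mem' {a b} h k g y := by
    simpa only [vq, toMul_add, Pi.mul_apply, Units.val_mul, map_mul] using congrArg₂ (· * ·) (h g y) (k g y)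
  zero_mem' g y := by simp [vq]
  neg_mem' {a} h g y := by
    simpa only [vq, toMul_neg, Pi.inv_apply, Units.val_inv_eq_inv_val, map_inv₀] using
      congrArg (·⁻¹) (h g y)

variable (X) in
/-- unramified outside `m` -/
def Iq (m : D.O) : AddSubgroup (QQ X) where
  carrier := {r | ∀ l P (i : D.G), Ov l P → D.j m ∉ P → Inert P i.1 → ∀ y, i.1 (vq r y) = vq r y}
  add_mem' {a b} h k l P i o n t y := by
    simpa only [vq, toMul_add, Pi.mul_apply, Units.val_mul, map_mul] using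
      congrArg₂ (· * ·) (h l P i o n t y) (k l P i o n t y)
  zero_mem' l P i o n t y := by simp [vq]
  neg_mem' {a} h l P i o n t y := by
    simpa only [vq, toMul_neg, Pi.inv_apply, Units.val_inv_eq_inv_val, map_inv₀] using
      congrArg (·⁻¹) (h l P i o n t y)

variable (X) in
/-- roots of equivariant families with equivariant norm -/
def Aq (q p : ℕ) (σ : D.G) : AddSubgroup (QQ X) :=
  (Fq D X).comap (nsmulAddMonoidHom q) ⊓ (Fq D X).comap (Nq D p σ)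

/-- roots of norm one of the elliptic units -/
def Cq (q p : ℕ) (σ : D.G) (v : QQ X) : AddSubgroup (QQ X) :=
  (AddSubgroup.closure (Set.range fun h : D.G => Tq D h (Tq D σ v - v))).comap (nsmulAddMonoidHom q) ⊓
    (Nq D p σ).ker

end

/-- the package of a field -/
def PKF : Prop := ∀ A B (D : Cd A B), D.Cf → D.Eu → ∀ (p k a e r E : ℕ) m, p.Prime → p ≠ 2 → D.Es p →
  1 < a → D.Ad p a m → ∀ (F : Type) [Field F] [NumberField F] (jF : F →+* Qb) H' H₁ H₂ (γ ι : D.G)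
    g ζ T (u : F) S (s t : F ≃+* F), Qv D p k m (GK jF) H' γ →
    (e = 0 ∨ e = 1 ∧ Iv (GK jF) H' H₁ H₂ ι.1) → IsUnit ζ → D.Ac m g (ζ * a) →
    Tv (GK jF) (D.Hm m) T → jF u = ∏ s ∈ T, s (D.un a m) → Sp D m jF S →
    (∀ x, jF (s x) = (γ ^ p ^ k).1 (jF x)) → (∀ x, jF (t x) = ι.1 (jF x)) →
    (1 + e) * p * r = (p - 1) * (GK jF).relIndex D.G →
    padicValNat p (sm a (GK jF) D.G g) + e * padicValNat p (sm a H₂ D.G g) ≤
      E + padicValNat p (sm a H' D.G g) + e * padicValNat p (sm a H₁ D.G g) →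
    (∀ h ∈ D.G, ∃ v, jF (An.vU v) = h ((γ ^ p ^ k).1 (jF u) / jF u)) ∧
    Pg p r E (dp p s S) (fxM s)
      ((Cu D jF ((γ ^ p ^ k).1 (jF u) / jF u)).toAddSubgroup.map (au F))
      (.id _ - e • am t.toRingHom) (.id _ - e • ai t.toRingHom)

/-- roots with a given norm -/
def ROO : Prop := ∀ A B (D : Cd A B) (X : Type) [MulAction D.G X] (q p : ℕ) (σ : D.G), q ≠ 0 →
  p ≠ 0 → (∀ (i : ℕ) (y : X), σ ^ i • y = y ↔ p ∣ i) → ∀ x y : QQ X, Tq D σ y = y →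
  Nq D p σ x = q • y → ∃ r, q • r = x ∧ Nq D p σ r = y

/-- families of roots of unity -/
def EPS : Prop := ∀ A B (D : Cd A B) (X : Type) [Fintype X] [MulAction D.G X] (q p e r : ℕ)
  (σ ι : D.G), Odd q → p.Prime → p ≠ 2 → (∀ (i : ℕ) (y : X), σ ^ i • y = y ↔ p ∣ i) →
  (∀ y : X, σ • ι • y = ι • σ • y) → (e = 0 ∨ e = 1 ∧ ∀ y : X, ι • y ≠ y ∧ ι • ι • y = y) →
  (1 + e) * p * r = (p - 1) * Fintype.card X → ∀ c, c =
    Nat.card (((nsmulAddMonoidHom q).ker ⊓ (Nq D p σ).ker : AddSubgroup (QQ X)).map (nq D e ι)) →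
    c ≠ 0 ∧ q ^ r ≤ c

/-- roots of local powers are not ramified -/
def UNR : Prop := ∀ A B (D : Cd A B), D.Cf → ∀ (p n : ℕ) m, p.Prime → (p : D.O) ∣ m → m ≠ 0 →
  ∀ (F : Type) [Field F] [NumberField F] (jF : F →+* Qb) S (a : F) (g : D.G) (r : Qb),
    GK jF ≤ D.G → D.Hm m ≤ GK jF → Sp D m jF S → a ≠ 0 → (∀ w ∉ S, Lo (p ^ n) w a) →
    r ^ p ^ n = g.1 (jF a) → ∀ l P (i : D.G), Ov l P → D.j m ∉ P → Inert P i.1 → i.1 r = r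

/-- **the count on the side of the fields** -/
def FLD : Prop := ∀ A B (D : Cd A B), D.Cf → D.Eu → ∀ (p k a e r E : ℕ) m, p.Prime → p ≠ 2 → D.Es p →
  1 < a → D.Ad p a m → ∀ H H' H₁ H₂ (γ ι : D.G) g ζ T, Qv D p k m H H' γ →
    (e = 0 ∨ e = 1 ∧ Iv H H' H₁ H₂ ι.1) → IsUnit ζ → D.Ac m g (ζ * a) → Tv H (D.Hm m) T →
    (1 + e) * p * r = (p - 1) * H.relIndex D.G →
    padicValNat p (sm a H D.G g) + e * padicValNat p (sm a H₂ D.G g) ≤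
      E + padicValNat p (sm a H' D.G g) + e * padicValNat p (sm a H₁ D.G g) →
    ∃ c₀ n₀ : ℕ, ∀ n, n₀ ≤ n → ∀ (X : Type) [Fintype X] [MulAction D.G X] x₀ sec (v : QQ X),
      Gs D H x₀ sec → (∀ h : D.G, vq v (h • x₀) = h.1 (∏ s ∈ T, s (D.un a m))) →
      ∀ z w, z = (Fq D X).relIndex ((Cq D (p ^ n) p (γ ^ p ^ k) v).map (nq D e ι)) →
      w = (Fq D X).relIndex ((Aq D X (p ^ n) p (γ ^ p ^ k) ⊓ Iq D X m).map (nq D e ι)) → z ≠ 0 →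
      (p ^ n) ^ (2 * r) ≤ c₀ * z ∧ (w ≠ 0 → (p ^ n) ^ (4 * r) ≤ w * z * p ^ E)

/-- open subgroups have fields -/
def FOS : Prop := ∀ H : Subgroup GQ, IsOpen (H : Set GQ) →
  ∃ (F : Type) (_ : Field F) (_ : NumberField F) (jF : F →+* Qb), GK jF = H

/-- free actions -/
def H90 : Prop := ∀ (G X V : Type) [Group G] [MulAction G X] [AddCommGroup V] (p : ℕ) (σ : G),
  p ≠ 0 → (∀ (i : ℕ) (y : X), σ ^ i • y = y ↔ p ∣ i) →
  (∀ a : X → V, (∀ y, ∑ i ∈ range p, a (σ ^ i • y) = 0) → ∃ c : X → V, ∀ y, a y = c (σ • y) - c y) ∧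
  ∀ c : X → V, (∀ y, c (σ • y) = c y) → ∃ a : X → V, ∀ y, ∑ i ∈ range p, a (σ ^ i • y) = c y

/-- counting with several maps -/
def CNT : Prop := ∀ (Q V J : Type) [AddCommGroup Q] [AddCommGroup V] (s : Finset J)
  (W F : AddSubgroup Q) (Ψ : J → Q → V) (S : J → Set V),
  (∀ f ∈ s, ∀ r ∈ W, ∀ r' ∈ W, Ψ f (r + r') = Ψ f r + Ψ f r') → (∀ f ∈ s, ∀ r ∈ W, Ψ f r ∈ S f) →
  (∀ r ∈ W, (∀ f ∈ s, Ψ f r = 0) → r ∈ F) → (∀ f ∈ s, Nat.card (S f) ≠ 0) →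
  F.relIndex W ≠ 0 ∧ F.relIndex W ≤ ∏ f ∈ s, Nat.card (S f)

/-! ## cohomology -/

variable [Pp]

section

variable {A B : ℤ} {D : Cd A B} {k : ℕ} {C : Cr k} {a b : ℤ} {M : ℕ} (x : D.An C a b M)

/-- the groups of the fields -/
def Kg (K : Finset (D.G →* Qa a b C.O)) (t : ℕ) : Subgroup GQ :=
  ((⨅ f ∈ K, f.ker) ⊓ (x.ξ₁ ^ t).ker).map D.G.subtype

/-- the setting -/
structure Su (n' e : ℕ) (γ ι : D.G) : Prop where
  ne : M ≠ 0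
  two : 2 ≤ n'
  tr : ∀ f ∈ x.I, D.Tr (D.mp M n') f
  tx : D.Tr (D.mp M n') x.ξ
  gx : x.ξ₁ γ = C.pb.gen
  gf : ∀ f ∈ x.I, f γ = 1
  ix : x.ξ₁ ι = 1
  qv : Qv D pp k (D.mp M n') (Kg x x.I 1) (Kg x x.I pp) γ
  idx : (Kg x x.I 1).relIndex D.G = x.I.card * pp ^ (k + 1)
  crd : (1 + e) * x.J.card = x.I.card
  sub : x.J ⊆ x.I
  sg : e = 0 ∧ x.J = x.I ∨ e = 1 ∧
    Iv (Kg x x.I 1) (Kg x x.I pp) (Kg x (x.I \ x.J) 1) (Kg x (x.I \ x.J) pp) ι.1 ∧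
    (∀ f ∈ x.I, f ∉ x.J ↔ f ι = 1) ∧ (∀ f ∈ x.J, f ι = -1) ∧
    (Kg x (x.I \ x.J) 1).relIndex D.G = (x.I \ x.J).card * pp ^ (k + 1)

variable {X : Type} [Fintype X] [MulAction D.G X]

/-- the frame: `X = G / H` and a primitive `w` of the character -/
structure Fr (γ : D.G) (x₀ : X) (sec : X → D.G) (w : X → C.O) : Prop where
  gs : Gs D (Kg x x.I 1) x₀ sec
  wt : ∀ y, w ((γ ^ pp ^ k)⁻¹ • y) - w y = x.ξ₁ (sec y)

/-- the class over the quadratic field -/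
def yf (n : ℕ) (sec : X → D.G) (w : X → C.O) (f : D.G →* Qa a b C.O) (r : QQ X) : D.G → Qa a b (C.L n) :=
  Zs.Z D ((algebraMap (C.L n) _).comp (C.io n))
    (fun y => qm a b (C.rd n) (w y • (x.lam * f (sec y)))) (vq r)

/-- the class over the rationals -/
def ps (n : ℕ) (sec : X → D.G) (w : X → C.O) (f : D.G →* Qa a b C.O) (r : QQ X) :
    GQ → Fin 2 → C.L n := D.xt fun g => vc (D.tc (yf x n sec w f r) g)

end

/-- the setting exists -/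
def SET : Prop := ∀ A B (D : Cd A B) N M, D.Cf → D.Fm N M → ∀ k (C : Cr k) a b (x : D.An C a b M),
  ∃ n' e γ ι, Su x n' e γ ι

/-- the frame and the family of the units exist -/
def WGT : Prop := ∀ A B (D : Cd A B) M, D.Cf → D.Es pp → ∀ k (C : Cr k) a b (x : D.An C a b M)
  n' e γ ι (s : ℕ), Su x n' e γ ι → D.Ad pp s (D.mp M n') →
  ∃ (X : Type) (_ : Fintype X) (_ : MulAction D.G X) (x₀ : X) (sec : X → D.G) (w : X → C.O)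
    (T : Finset GQ) (v : QQ X), Fr x γ x₀ sec w ∧ Tv (Kg x x.I 1) (D.Hm (D.mp M n')) T ∧
    ∀ h : D.G, vq v (h • x₀) = h.1 (∏ t ∈ T, t (D.un s (D.mp M n')))

/-- the classes are additive cocycles -/
def CO1 : Prop := ∀ A B (D : Cd A B), D.Cf → ∀ M k (C : Cr k) a b (x : D.An C a b M)
  n' e γ ι, Su x n' e γ ι → ∀ (X : Type) [Fintype X] [MulAction D.G X] x₀ sec w, Fr x γ x₀ sec w →
  ∀ n, ∀ f ∈ x.I, ∀ r ∈ Aq D X (pp ^ n) pp (γ ^ pp ^ k),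
    D.Co (D.aq (C.io n) (qc (C.rd n) (f * x.ξ))) (yf x n sec w f r) ∧
    ∀ r' ∈ Aq D X (pp ^ n) pp (γ ^ pp ^ k),
      yf x n sec w f (r + r') = yf x n sec w f r + yf x n sec w f r' ∧
      ps x n sec w f (r + r') = ps x n sec w f r + ps x n sec w f r'

/-- the classes are not ramified -/
def CO2 : Prop := ∀ A B (D : Cd A B) N M, D.Cf → D.Fm N M → ∀ k (C : Cr k) a b (x : D.An C a b M)
  n' e γ ι, Su x n' e γ ι → ∀ (X : Type) [Fintype X] [MulAction D.G X] x₀ sec w, Fr x γ x₀ sec w →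
  ∀ n, ∀ f ∈ x.I, (∃ ρ : GQ →* M2 (C.L n), D.Id (D.aq (C.io n) (qc (C.rd n) (f * x.ξ))) ρ) ∧
    ∀ ρ : GQ →* M2 (C.L n), D.Id (D.aq (C.io n) (qc (C.rd n) (f * x.ξ))) ρ →
    ∀ r ∈ (Aq D X (pp ^ n) pp (γ ^ pp ^ k) ⊓ Iq D X (D.mp M n')).map (nq D e ι),
      ps x n sec w f r ∈ Pq.Zq (C.L n) (Sb M) ρ D.c

/-- **the kernel** -/
def KER : Prop := ∀ A B (D : Cd A B), D.Cf → ∀ M k (C : Cr k) a b (x : D.An C a b M)
  n' e γ ι, Su x n' e γ ι → ∀ (X : Type) [Fintype X] [MulAction D.G X] x₀ sec w, Fr x γ x₀ sec w →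
  ∀ n, (Aq D X (pp ^ n) pp (γ ^ pp ^ k)).map (nq D e ι) ≤ Aq D X (pp ^ n) pp (γ ^ pp ^ k) ∧
    ∀ r ∈ (Aq D X (pp ^ n) pp (γ ^ pp ^ k)).map (nq D e ι), (∀ f ∈ x.J, ps x n sec w f r = 0) →
      r ∈ Fq D X

/-- the classes of the elliptic units over the quadratic field -/
def SP1 : Prop := ∀ A B (D : Cd A B), D.Cf → D.Es pp → ∀ M k (C : Cr k) a b (x : D.An C a b M)
  n' e γ ι (s : ℕ), Su x n' e γ ι → D.Ad pp s (D.mp M n') →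
  ∀ (X : Type) [Fintype X] [MulAction D.G X] x₀ sec w T (v : QQ X), Fr x γ x₀ sec w →
  Tv (Kg x x.I 1) (D.Hm (D.mp M n')) T →
  (∀ h : D.G, vq v (h • x₀) = h.1 (∏ t ∈ T, t (D.un s (D.mp M n')))) →
  ∀ n, Cq D (pp ^ n) pp (γ ^ pp ^ k) v ≤ Aq D X (pp ^ n) pp (γ ^ pp ^ k) ∧
    ∀ f ∈ x.I, ∀ r ∈ (Cq D (pp ^ n) pp (γ ^ pp ^ k) v).map (nq D e ι), ∃ β : Qa a b (C.L n),
      D.Ch (D.aq (C.io n) (qc (C.rd n) (f * x.ξ))) (yf x n sec w f r) fun g =>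
        β * D.zc s (D.mp M n') ((algebraMap (C.L n) _).comp (C.io n)) (qc (C.rd n) (f * x.ξ)) g

/-- the trace of a multiple of the class -/
def SP2 : Prop := ∀ A B (D : Cd A B), D.Cf → D.Rw → ∀ (a b : ℤ) (R : Type) [CommRing R] (N s m : ℕ)
  (ι : Zn N →+* R) (χ : D.G →* Qa a b R) (ρ : GQ →* M2 R) y (β : Qa a b R), IsUnit (2 : R) →
  D.Ad pp s m → D.Tr m χ → D.Cj χ → D.Id (D.aq ι χ) ρ →
  D.Ch (D.aq ι χ) y (fun g => β * D.zc s m ((algebraMap R _).comp ι) χ g) →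
  D.xt (fun g => vc (D.tc y g)) ∈ Submodule.span R {db ρ ![1, 0], D.xz s m ι χ}

/-- **the smoothing factors** -/
def SMV : Prop := ∀ A B (D : Cd A B) N M, D.Cf → D.Fm N M → ∀ k (C : Cr k) a b (x : D.An C a b M)
  n' e γ ι s g, IsUnit (b ^ 2 + 4 * a : C.O) → Su x n' e γ ι → D.Ga M s g →
  ∃ E, pp ^ E = ∏ f ∈ x.J, Nat.card (C.O ⧸ Ideal.span {sf s (f * x.ξ) g}) ∧
    padicValNat pp (sm s (Kg x x.I 1) D.G g) + e * padicValNat pp (sm s (Kg x (x.I \ x.J) pp) D.G g) ≤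
      E + padicValNat pp (sm s (Kg x x.I pp) D.G g) +
        e * padicValNat pp (sm s (Kg x (x.I \ x.J) 1) D.G g)

end Vale.Agent.P014X.Ac
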